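import Crest.Agent.R168.Defs
import Crest.Agent.R168.SR

-- ▼ part R168/Det
section

/-! T1: deterministic part: uniqueness of the fixed point, measurability, naturality. -/

set_option autoImplicit false

namespace Crest.Agent.R168

open MeasureTheory ProbabilityTheory Filter Topology

/-! ### auxiliary facts on `gfun`, `field`, `pbar` -/

theorem gfun_lip {a b : ℝ} (ha : 0 ≤ a ∧ a ≤ 1) (hb : 0 ≤ b ∧ b ≤ 1) :
    |gfun a - gfun b| ≤ 2 / 3 * |a - b| := by
  wlog hab : b ≤ a generalizing a b with H
  · rw [abs_sub_comm, abs_sub_comm a b]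
    exact H hb ha (le_of_lt (not_le.mp hab))
  have hb3 : (3 : ℝ) / 4 ≤ 1 + (2 * b - 1) / 4 := by linarith [hb.1]
  have ha3 : (3 : ℝ) / 4 ≤ 1 + (2 * a - 1) / 4 := by linarith [ha.1]
  have hbpos : 0 < 1 + (2 * b - 1) / 4 := by linarith
  have hapos : 0 < 1 + (2 * a - 1) / 4 := by linarith
  have hle : gfun b ≤ gfun a := by
    unfold gfun
    exact Real.log_le_log hbpos (by linarith)
  rw [abs_of_nonneg (sub_nonneg.mpr hle), abs_of_nonneg (sub_nonneg.mpr hab)]
  unfold gfun
  rw [← Real.log_div hapos.ne' hbpos.ne']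
  have h1 := Real.log_le_sub_one_of_pos (div_pos hapos hbpos)
  have h2 : (1 + (2 * a - 1) / 4) / (1 + (2 * b - 1) / 4) - 1 ≤ 2 / 3 * (a - b) := by
    rw [div_sub_one hbpos.ne', div_le_iff₀ hbpos]
    nlinarith [hb.1]
  linarith

theorem field_lip {V : Type*} (T : V → ℝ) {y y' : V → ℕ → ℝ}
    (hy : ∀ i k, 0 ≤ y i k ∧ y i k ≤ 1) (hy' : ∀ i k, 0 ≤ y' i k ∧ y' i k ≤ 1)
    {δ : ℝ} (hδ : 0 ≤ δ) (h : ∀ i k, |y i k - y' i k| ≤ 2 ^ k * δ) (i : V) (k : ℕ) (j : V) :
    |field T y i k j - field T y' i k j| ≤ 2 / 3 * (2 ^ (k + 1) * δ) := by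
  have hsum : |(∑ l ∈ Finset.range k, gfun (y j l)) - ∑ l ∈ Finset.range k, gfun (y' j l)| ≤
      2 / 3 * ((2 ^ k - 1) * δ) := by
    rw [← Finset.sum_sub_distrib]
    refine (Finset.abs_sum_le_sum_abs _ _).trans ?_
    have h1 : ∀ l ∈ Finset.range k, |gfun (y j l) - gfun (y' j l)| ≤ 2 / 3 * (2 ^ l * δ) := by
      intro l _
      refine (gfun_lip (hy j l) (hy' j l)).trans ?_
      have := h j l
      linarith
    refine (Finset.sum_le_sum h1).trans ?_
    rw [← Finset.mul_sum, ← Finset.sum_mul]
    have h2 : ∑ l ∈ Finset.range k, (2 : ℝ) ^ l = 2 ^ k - 1 := by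
      rw [geom_sum_eq (by norm_num)]; norm_num
    rw [h2]
  have hlast : |(if T j < T i then gfun (y j k) else 0) -
      (if T j < T i then gfun (y' j k) else 0)| ≤ 2 / 3 * (2 ^ k * δ) := by
    split_ifs with hT
    · refine (gfun_lip (hy j k) (hy' j k)).trans ?_
      have := h j k
      linarith
    · rw [sub_self, abs_zero]; positivity
  unfold field
  have : (∑ l ∈ Finset.range k, gfun (y j l)) + (if T j < T i then gfun (y j k) else 0) -
      ((∑ l ∈ Finset.range k, gfun (y' j l)) + (if T j < T i then gfun (y' j k) else 0)) =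
      ((∑ l ∈ Finset.range k, gfun (y j l)) - ∑ l ∈ Finset.range k, gfun (y' j l)) +
      ((if T j < T i then gfun (y j k) else 0) - (if T j < T i then gfun (y' j k) else 0)) := by
    ring
  rw [this]
  refine (abs_add_le _ _).trans ?_
  have hp : (2 : ℝ) ^ (k + 1) * δ = 2 * (2 ^ k * δ) := by ring
  rw [hp]
  have h3 : 2 / 3 * (((2:ℝ) ^ k - 1) * δ) ≤ 2 / 3 * (2 ^ k * δ) := by nlinarith
  linarith

/-- `limsup` along `atTop` of bounded sequences is stable under uniform perturbations. -/
theorem limsup_le_limsup_add {a b : ℕ → ℝ} {s : ℝ}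
    (ha : ∀ n, 0 ≤ a n ∧ a n ≤ 1) (hb : ∀ n, 0 ≤ b n ∧ b n ≤ 1)
    (h : ∀ n, a n ≤ b n + s) : limsup a atTop ≤ limsup b atTop + s := by
  have hbb : IsBoundedUnder (· ≤ ·) atTop b := isBoundedUnder_of ⟨1, fun n => (hb n).2⟩
  have hbc : IsCoboundedUnder (· ≤ ·) atTop b :=
    IsBoundedUnder.isCoboundedUnder_le (isBoundedUnder_of ⟨0, fun n => (hb n).1⟩)
  have hac : IsCoboundedUnder (· ≤ ·) atTop a :=
    IsBoundedUnder.isCoboundedUnder_le (isBoundedUnder_of ⟨0, fun n => (ha n).1⟩)
  have hbs : IsBoundedUnder (· ≤ ·) atTop (fun n => b n + s) :=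
    isBoundedUnder_of ⟨1 + s, fun n => by have := (hb n).2; linarith⟩
  have h1 : limsup a atTop ≤ limsup (fun n => b n + s) atTop :=
    limsup_le_limsup (Eventually.of_forall h) hac hbs
  have h2 : limsup (fun n => b n + s) atTop ≤ limsup b atTop + s := by
    refine le_of_forall_pos_le_add fun ε hε => ?_
    have hev : ∀ᶠ n in atTop, b n < limsup b atTop + ε :=
      eventually_lt_of_limsup_lt (by linarith) hbb
    refine limsup_le_of_le (IsBoundedUnder.isCoboundedUnder_le
      (isBoundedUnder_of ⟨s, fun n => by have := (hb n).1; show s ≤ b n + s; linarith⟩)) ?_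
    filter_upwards [hev] with n hn
    linarith
  exact h1.trans h2

theorem abs_limsup_sub_le {a b : ℕ → ℝ} {s : ℝ}
    (ha : ∀ n, 0 ≤ a n ∧ a n ≤ 1) (hb : ∀ n, 0 ≤ b n ∧ b n ≤ 1)
    (h : ∀ n, |a n - b n| ≤ s) : |limsup a atTop - limsup b atTop| ≤ s := by
  rw [abs_le]
  constructor
  · have := limsup_le_limsup_add (s := s) hb ha (fun n => by
      have := (abs_le.mp (h n)).1; linarith)
    linarith
  · have := limsup_le_limsup_add (s := s) ha hb (fun n => by
      have := (abs_le.mp (h n)).2; linarith)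
    linarith

theorem pbar_mem {V : Type*} {P : V → ℕ → (V → ℝ) → ℝ}
    (hP01 : ∀ i n h, 0 ≤ P i n h ∧ P i n h ≤ 1) (T : V → ℝ) (y : V → ℕ → ℝ) (i : V) (k : ℕ) :
    0 ≤ pbar P T y i k ∧ pbar P T y i k ≤ 1 := by
  unfold pbar
  have hbb : IsBoundedUnder (· ≤ ·) atTop (fun n => P i n (field T y i k)) :=
    isBoundedUnder_of ⟨1, fun n => (hP01 i n _).2⟩
  have hbc : IsCoboundedUnder (· ≤ ·) atTop (fun n => P i n (field T y i k)) :=
    IsBoundedUnder.isCoboundedUnder_le (isBoundedUnder_of ⟨0, fun n => (hP01 i n _).1⟩)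
  constructor
  · exact le_limsup_of_frequently_le (Frequently.of_forall fun n => (hP01 i n _).1) hbb
  · exact limsup_le_of_le hbc (Eventually.of_forall fun n => (hP01 i n _).2)

/-- Clamping to `[0,1]` is a contraction. -/
theorem clamp_lip (a b : ℝ) : |max 0 (min 1 a) - max 0 (min 1 b)| ≤ |a - b| := by
  refine (abs_max_sub_max_le_max 0 (min 1 a) 0 (min 1 b)).trans ?_
  rw [sub_self, abs_zero]
  refine max_le (abs_nonneg _) ?_
  refine (abs_min_sub_min_le_max 1 a 1 b).trans ?_
  rw [sub_self, abs_zero]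
  exact max_le (abs_nonneg _) le_rfl

theorem iter_mem {V : Type*} (P : V → ℕ → (V → ℝ) → ℝ) (T : V → ℝ) (u : V → ℕ → ℝ) (r : ℕ)
    (i : V) (k : ℕ) : 0 ≤ iter P T u r i k ∧ iter P T u r i k ≤ 1 := by
  cases r with
  | zero => simp [iter]
  | succ r =>
    simp only [iter, step]
    exact ⟨le_max_left _ _, max_le zero_le_one (min_le_left _ _)⟩

/-- key contraction estimate -/
theorem iter_close {V : Type*} (P : V → ℕ → (V → ℝ) → ℝ)
    (hP01 : ∀ i n h, 0 ≤ P i n h ∧ P i n h ≤ 1)
    (hPL : ∀ i n (h h' : V → ℝ) (s : ℝ), (∀ j, |h j - h' j| ≤ s) →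
      |P i n h - P i n h'| ≤ 2 * s)
    (T : V → ℝ) (u y : V → ℕ → ℝ) (hy01 : ∀ i k, 0 ≤ y i k ∧ y i k ≤ 1)
    (hy : ∀ i k, y i k = u i k + 1 / 4 * pbar P T y i k * (y i k * (1 - y i k)))
    (r : ℕ) : ∀ i k, |iter P T u r i k - y i k| ≤ 2 ^ k * (5 / 12) ^ r := by
  induction r with
  | zero =>
    intro i k
    have h1 := hy01 i k
    simp only [iter, zero_sub, abs_neg, pow_zero, mul_one]
    rw [abs_of_nonneg h1.1]
    exact h1.2.trans (one_le_pow₀ (by norm_num))
  | succ r ih =>
    intro i k
    set δ : ℝ := (5 / 12) ^ r with hδdef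
    have hδ : 0 ≤ δ := by positivity
    set z := iter P T u r with hz
    have hz01 : ∀ i k, 0 ≤ z i k ∧ z i k ≤ 1 := fun i k => iter_mem P T u r i k
    have hp1 := pbar_mem hP01 T z i k
    have hp2 := pbar_mem hP01 T y i k
    have hpp : |pbar P T z i k - pbar P T y i k| ≤ 2 * (2 / 3 * (2 ^ (k + 1) * δ)) := by
      unfold pbar
      refine abs_limsup_sub_le (fun n => hP01 _ _ _) (fun n => hP01 _ _ _) fun n => ?_
      exact hPL _ _ _ _ _ (fun j => field_lip T hz01 hy01 hδ ih i k j)
    have hyclamp : y i k = max 0 (min 1 (u i k + 1 / 4 * pbar P T y i k *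
        (y i k * (1 - y i k)))) := by
      rw [← hy i k, min_eq_right (hy01 i k).2, max_eq_right (hy01 i k).1]
    have hstep : iter P T u (r + 1) i k =
        max 0 (min 1 (u i k + 1 / 4 * pbar P T z i k * (z i k * (1 - z i k)))) := rfl
    rw [hstep]
    conv_lhs => rw [hyclamp]
    refine (clamp_lip _ _).trans ?_
    have hzy : |z i k - y i k| ≤ 2 ^ k * δ := ih i k
    have hq : |z i k * (1 - z i k) - y i k * (1 - y i k)| ≤ 2 ^ k * δ := by
      have e : z i k * (1 - z i k) - y i k * (1 - y i k) =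
          (z i k - y i k) * (1 - z i k - y i k) := by ring
      rw [e, abs_mul]
      have h1 : |1 - z i k - y i k| ≤ 1 := by
        rw [abs_le]; constructor <;> linarith [(hz01 i k).1, (hz01 i k).2, (hy01 i k).1, (hy01 i k).2]
      calc |z i k - y i k| * |1 - z i k - y i k| ≤ |z i k - y i k| * 1 :=
            mul_le_mul_of_nonneg_left h1 (abs_nonneg _)
        _ ≤ 2 ^ k * δ := by rw [mul_one]; exact hzy
    have hq0 : 0 ≤ y i k * (1 - y i k) := mul_nonneg (hy01 i k).1 (by linarith [(hy01 i k).2])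
    have hq1 : y i k * (1 - y i k) ≤ 1 / 4 := by nlinarith [sq_nonneg (y i k - 1 / 2)]
    have e : u i k + 1 / 4 * pbar P T z i k * (z i k * (1 - z i k)) -
        (u i k + 1 / 4 * pbar P T y i k * (y i k * (1 - y i k))) =
        1 / 4 * (pbar P T z i k * (z i k * (1 - z i k) - y i k * (1 - y i k))) +
        1 / 4 * ((pbar P T z i k - pbar P T y i k) * (y i k * (1 - y i k))) := by ring
    rw [e]
    refine (abs_add_le _ _).trans ?_
    have t1 : |1 / 4 * (pbar P T z i k * (z i k * (1 - z i k) - y i k * (1 - y i k)))| ≤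
        1 / 4 * (2 ^ k * δ) := by
      rw [abs_mul, abs_mul, abs_of_nonneg (by norm_num : (0:ℝ) ≤ 1 / 4), abs_of_nonneg hp1.1]
      refine mul_le_mul_of_nonneg_left ?_ (by norm_num)
      calc _ ≤ 1 * |z i k * (1 - z i k) - y i k * (1 - y i k)| :=
            mul_le_mul_of_nonneg_right hp1.2 (abs_nonneg _)
        _ ≤ _ := by rw [one_mul]; exact hq
    have t2 : |1 / 4 * ((pbar P T z i k - pbar P T y i k) * (y i k * (1 - y i k)))| ≤
        1 / 4 * (2 * (2 / 3 * (2 ^ (k + 1) * δ)) * (1 / 4)) := by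
      rw [abs_mul, abs_mul, abs_of_nonneg (by norm_num : (0:ℝ) ≤ 1 / 4), abs_of_nonneg hq0]
      refine mul_le_mul_of_nonneg_left ?_ (by norm_num)
      exact mul_le_mul hpp hq1 hq0 (by positivity)
    have hpow : (2 : ℝ) ^ (k + 1) = 2 * 2 ^ k := by ring
    have hfin : 1 / 4 * (2 ^ k * δ) + 1 / 4 * (2 * (2 / 3 * (2 ^ (k + 1) * δ)) * (1 / 4)) =
        2 ^ k * (5 / 12) ^ (r + 1) := by
      rw [hpow, pow_succ (5 / 12 : ℝ) r, ← hδdef]; ring
    linarith

/-- Any fixed point is the limit of the Picard iterates.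
Proof: with `N r = sup_{i,k} 2^{-k} |iter r i k - y i k|` one has `N 0 ≤ 1`, `N (r+1) ≤ 5/12 N r`;
i.e. show by induction `∀ r i k, |iter P T u r i k - y i k| ≤ 2^k * (5/12)^r`. -/
theorem Theta_eq_of_fixed {V : Type*} (P : V → ℕ → (V → ℝ) → ℝ)
    (hP01 : ∀ i n h, 0 ≤ P i n h ∧ P i n h ≤ 1)
    (hPL : ∀ i n (h h' : V → ℝ) (s : ℝ), (∀ j, |h j - h' j| ≤ s) →
      |P i n h - P i n h'| ≤ 2 * s)
    (T : V → ℝ) (u y : V → ℕ → ℝ) (hy01 : ∀ i k, 0 ≤ y i k ∧ y i k ≤ 1)
    (hy : ∀ i k, y i k = u i k + 1 / 4 * pbar P T y i k * (y i k * (1 - y i k))) :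
    Theta P T u = y := by
  funext i k
  have hlim : Tendsto (fun r => iter P T u r i k) atTop (𝓝 (y i k)) := by
    rw [tendsto_iff_norm_sub_tendsto_zero]
    refine squeeze_zero (fun _ => norm_nonneg _)
      (fun r => iter_close P hP01 hPL T u y hy01 hy r i k) ?_
    have : Tendsto (fun r : ℕ => (2 : ℝ) ^ k * (5 / 12) ^ r) atTop (𝓝 (2 ^ k * 0)) :=
      (tendsto_pow_atTop_nhds_zero_of_lt_one (by norm_num) (by norm_num)).const_mul _
    simpa using this
  exact hlim.limsup_eq

/-! ### measurability -/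

theorem measurable_gfun : Measurable gfun := by
  unfold gfun
  exact Real.measurable_log.comp (by fun_prop)

theorem measurable_iter {V α : Type*} [Countable V] [MeasurableSpace α]
    (P : α → V → ℕ → (V → ℝ) → ℝ)
    (hP : ∀ i n, Measurable (fun q : α × (V → ℝ) => P q.1 i n q.2)) (r : ℕ) :
    Measurable (fun q : α × (V → ℝ) × (V → ℕ → ℝ) => iter (P q.1) q.2.1 q.2.2 r) := by
  induction r with
  | zero => exact measurable_const
  | succ r ih =>
    refine measurable_pi_lambda _ fun i => measurable_pi_lambda _ fun k => ?_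
    simp only [iter, step]
    have hT : ∀ j, Measurable (fun q : α × (V → ℝ) × (V → ℕ → ℝ) => q.2.1 j) := fun j =>
      (measurable_pi_apply j).comp (measurable_fst.comp measurable_snd)
    have hu : Measurable (fun q : α × (V → ℝ) × (V → ℕ → ℝ) => q.2.2 i k) :=
      (measurable_pi_apply k).comp ((measurable_pi_apply i).comp (measurable_snd.comp measurable_snd))
    have hit : ∀ j l, Measurable (fun q : α × (V → ℝ) × (V → ℕ → ℝ) =>
        iter (P q.1) q.2.1 q.2.2 r j l) := fun j l =>
      (measurable_pi_apply l).comp ((measurable_pi_apply j).comp ih)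
    have hfield : Measurable (fun q : α × (V → ℝ) × (V → ℕ → ℝ) =>
        field q.2.1 (iter (P q.1) q.2.1 q.2.2 r) i k) := by
      refine measurable_pi_lambda _ fun j => ?_
      unfold field
      refine Measurable.add ?_ ?_
      · exact Finset.measurable_sum _ fun l _ => measurable_gfun.comp (hit j l)
      · exact Measurable.ite (measurableSet_lt (hT j) (hT i)) (measurable_gfun.comp (hit j k))
          measurable_const
    have hpbar : Measurable (fun q : α × (V → ℝ) × (V → ℕ → ℝ) =>
        pbar (P q.1) q.2.1 (iter (P q.1) q.2.1 q.2.2 r) i k) := by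
      unfold pbar
      refine Measurable.limsup fun n => ?_
      exact (hP i n).comp (measurable_fst.prodMk hfield)
    refine Measurable.max measurable_const (Measurable.min measurable_const ?_)
    refine hu.add (Measurable.mul (hpbar.const_mul _) ?_)
    exact (hit i k).mul (measurable_const.sub (hit i k))

theorem measurable_Theta {V α : Type*} [Countable V] [MeasurableSpace α]
    (P : α → V → ℕ → (V → ℝ) → ℝ)
    (hP : ∀ i n, Measurable (fun q : α × (V → ℝ) => P q.1 i n q.2)) :
    Measurable (fun q : α × (V → ℝ) × (V → ℕ → ℝ) => Theta (P q.1) q.2.1 q.2.2) := by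
  refine measurable_pi_lambda _ fun i => measurable_pi_lambda _ fun k => ?_
  unfold Theta
  exact Measurable.limsup fun r =>
    (measurable_pi_apply k).comp ((measurable_pi_apply i).comp (measurable_iter P hP r))

theorem measurable_recov {V : Type*} [Countable V] :
    Measurable (recov : (V → ℕ → ℝ) → V → Bool) := by
  refine measurable_pi_lambda _ fun i => ?_
  have h1 : Measurable fun y : V → ℕ → ℝ =>
      limsup (fun n : ℕ => (∑ l ∈ Finset.range n, y i l) / (n : ℝ)) atTop := by
    refine Measurable.limsup fun n => Measurable.div_const ?_ _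
    exact Finset.measurable_sum _ fun l _ =>
      (measurable_pi_apply l).comp (measurable_pi_apply i)
  unfold recov
  refine measurable_to_bool ?_
  have : ((fun y : V → ℕ → ℝ => decide ((1 : ℝ) / 2 + 1 / 48 < limsup (fun n : ℕ =>
      (∑ l ∈ Finset.range n, y i l) / (n : ℝ)) atTop)) ⁻¹' {true}) =
      {y | (1 : ℝ) / 2 + 1 / 48 < limsup (fun n : ℕ =>
        (∑ l ∈ Finset.range n, y i l) / (n : ℝ)) atTop} := by
    ext a; simp
  rw [this]
  exact measurableSet_lt measurable_const h1

theorem measurable_Xi {V α : Type*} [Countable V] [MeasurableSpace α]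
    (P : α → V → ℕ → (V → ℝ) → ℝ)
    (hP : ∀ i n, Measurable (fun q : α × (V → ℝ) => P q.1 i n q.2)) :
    Measurable (fun q : α × (V → ℝ × (ℕ → ℝ)) => Xi (P q.1) q.2) := by
  have hq : ∀ i, Measurable (fun q : α × (V → ℝ × (ℕ → ℝ)) => q.2 i) := fun i =>
    (measurable_pi_apply i).comp measurable_snd
  have ha : Measurable (fun q : α × (V → ℝ × (ℕ → ℝ)) => fun i => (q.2 i).1) :=
    measurable_pi_iff.mpr fun i => (hq i).fst
  have hb : Measurable (fun q : α × (V → ℝ × (ℕ → ℝ)) => fun i k => (q.2 i).2 k) :=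
    measurable_pi_iff.mpr fun i => (hq i).snd
  have h1 : Measurable (fun q : α × (V → ℝ × (ℕ → ℝ)) =>
      ((q.1, (fun i => (q.2 i).1), fun i k => (q.2 i).2 k) : α × (V → ℝ) × (V → ℕ → ℝ))) :=
    measurable_fst.prodMk (ha.prodMk hb)
  have h2 := Measurable.comp (measurable_Theta P hP) h1
  rw [Function.comp_def] at h2
  have h3 := Measurable.comp (measurable_recov (V := V)) h2
  rw [Function.comp_def] at h3
  exact h3

/-! ### naturality -/

theorem field_comp {V V' : Type*} (ι : V' → V) (T : V → ℝ) (y : V → ℕ → ℝ) (i : V') (k : ℕ) :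
    field T y (ι i) k ∘ ι = field (T ∘ ι) (y ∘ ι) i k := by
  funext j
  simp only [field, Function.comp_apply]

theorem pbar_comp {V V' : Type*} (ι : V' → V) (P : V → ℕ → (V → ℝ) → ℝ)
    (P' : V' → ℕ → (V' → ℝ) → ℝ)
    (h : ∀ i n f, P (ι i) n f = P' i n (f ∘ ι)) (T : V → ℝ) (y : V → ℕ → ℝ) (i : V') (k : ℕ) :
    pbar P T y (ι i) k = pbar P' (T ∘ ι) (y ∘ ι) i k := by
  unfold pbar
  congr 1
  funext n
  rw [h, field_comp]

theorem iter_comp {V V' : Type*} (ι : V' → V) (P : V → ℕ → (V → ℝ) → ℝ)
    (P' : V' → ℕ → (V' → ℝ) → ℝ)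
    (h : ∀ i n f, P (ι i) n f = P' i n (f ∘ ι)) (T : V → ℝ) (u : V → ℕ → ℝ) (r : ℕ) :
    iter P T u r ∘ ι = iter P' (T ∘ ι) (u ∘ ι) r := by
  induction r with
  | zero => rfl
  | succ r ih =>
    funext i k
    have h1 := congrFun (congrFun ih i) k
    simp only [Function.comp_apply] at h1
    simp only [Function.comp_apply, iter, step]
    rw [pbar_comp ι P P' h, ih, h1]

theorem Theta_comp {V V' : Type*} (ι : V' → V) (P : V → ℕ → (V → ℝ) → ℝ)
    (P' : V' → ℕ → (V' → ℝ) → ℝ)
    (h : ∀ i n f, P (ι i) n f = P' i n (f ∘ ι)) (T : V → ℝ) (u : V → ℕ → ℝ) :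
    Theta P T u ∘ ι = Theta P' (T ∘ ι) (u ∘ ι) := by
  funext i k
  simp only [Function.comp_apply, Theta]
  congr 1
  funext r
  exact congrFun (congrFun (iter_comp ι P P' h T u r) i) k

/-- Naturality / locality (used with `ι` a bijection for equivariance and with `ι` a subtype
inclusion for "irrelevant sites"). -/
theorem Xi_comp {V V' : Type*} (ι : V' → V) (P : V → ℕ → (V → ℝ) → ℝ)
    (P' : V' → ℕ → (V' → ℝ) → ℝ)
    (h : ∀ i n f, P (ι i) n f = P' i n (f ∘ ι)) (w : V → ℝ × (ℕ → ℝ)) :
    Xi P w ∘ ι = Xi P' (w ∘ ι) := by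
  unfold Xi
  have h1 := Theta_comp ι P P' h (fun i => (w i).1) (fun i k => (w i).2 k)
  have h2 : recov (Theta P (fun i => (w i).1) (fun i k => (w i).2 k)) ∘ ι =
      recov (Theta P (fun i => (w i).1) (fun i k => (w i).2 k) ∘ ι) := by
    funext i
    simp only [recov, Function.comp_apply]
  rw [h2, h1]
  rfl

end Crest.Agent.R168
end

-- ▼ part R168/Proc
section

/-! Auxiliary probability space of the revealing scheme (shared by T2, T3, T4). -/

set_option autoImplicit false

namespace Crest.Agent.R168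

open MeasureTheory ProbabilityTheory Filter Topology

noncomputable section

/-- configuration × (potential observation if occupied, potential observation if empty). -/
abbrev Om (V : Type*) := (V → Bool) × (V × ℕ → ℝ × ℝ)

instance : IsProbabilityMeasure U01' := by
  constructor
  unfold U01' U01
  rw [withDensity_apply _ MeasurableSet.univ, Measure.restrict_univ,
    ← ofReal_integral_eq_lintegral_ofReal]
  · rw [integral_Icc_eq_integral_Ioc, ← intervalIntegral.integral_of_le zero_le_one]
    have h : ∀ y ∈ Set.uIcc (0 : ℝ) 1, HasDerivAt (fun y : ℝ => y - (y - y ^ 2) / 4)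
        (1 + (2 * y - 1) / 4) y := by
      intro y _
      have h1 := (hasDerivAt_id' y).sub (((hasDerivAt_id' y).sub (hasDerivAt_pow 2 y)).div_const 4)
      refine h1.congr_deriv ?_
      simp
      ring
    rw [intervalIntegral.integral_eq_sub_of_hasDerivAt h]
    · norm_num
    · exact (Continuous.intervalIntegrable (by fun_prop) _ _)
  · exact (Continuous.integrableOn_Icc (by fun_prop))
  · refine (ae_restrict_iff' measurableSet_Icc).2 (Eventually.of_forall fun y hy => ?_)
    have := hy.1
    have := hy.2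
    simp only [Pi.zero_apply]
    linarith

/-- joint law of the configuration and the potential observations. -/
def PP {V : Type*} (ν : Measure (V → Bool)) : Measure (Om V) :=
  ν.prod (Measure.infinitePi fun _ : V × ℕ => U01'.prod U01)

/-- the observation of site `i` in round `k`. -/
def Yo {V : Type*} (ω : Om V) (i : V) (k : ℕ) : ℝ :=
  if ω.1 i = true then (ω.2 (i, k)).1 else (ω.2 (i, k)).2

/-- updates before `(i,k)`. -/
def past {V : Type*} (T : V → ℝ) (i : V) (k : ℕ) : Set (V × ℕ) :=
  {b | b.2 < k ∨ (b.2 = k ∧ T b.1 < T i)}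

/-- sigma-algebra of the observations before `(i,k)`. -/
@[reducible] def Gs {V : Type*} (T : V → ℝ) (i : V) (k : ℕ) : MeasurableSpace (Om V) :=
  MeasurableSpace.comap (fun (ω : Om V) (b : past T i k) => Yo ω b.1.1 b.1.2) MeasurableSpace.pi

/-- indicator that `i` is occupied. -/
def occInd {V : Type*} (i : V) (ω : Om V) : ℝ := if ω.1 i = true then 1 else 0

end

end Crest.Agent.R168
end

-- ▼ part R168/BayesAux
section

/-! T2 auxiliary: law of finitely many observations. -/

set_option autoImplicit false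

namespace Crest.Agent.R168.BayesAux

open MeasureTheory ProbabilityTheory Filter Topology
open scoped ENNReal

noncomputable section

/-- product of densities. -/
lemma pi_withDensity {J α : Type*} [Fintype J] [MeasurableSpace α] (μ : Measure α)
    [IsProbabilityMeasure μ] (f : J → α → ℝ≥0∞) (hf : ∀ j, Measurable (f j))
    [∀ j, IsProbabilityMeasure (μ.withDensity (f j))] :
    Measure.pi (fun j => μ.withDensity (f j)) =
      (Measure.pi (fun _ : J => μ)).withDensity (fun y => ∏ j, f j (y j)) := by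
  refine Measure.pi_eq fun s hs => ?_
  rw [withDensity_apply _ (MeasurableSet.univ_pi hs), ← lintegral_indicator
    (MeasurableSet.univ_pi hs)]
  have h1 : ∀ y : J → α, (Set.pi Set.univ s).indicator (fun y => ∏ j, f j (y j)) y =
      ∏ j ∈ Finset.univ, (s j).indicator (f j) (y j) := by
    intro y
    by_cases hy : y ∈ Set.pi Set.univ s
    · rw [Set.indicator_of_mem hy]
      refine Finset.prod_congr rfl fun j _ => ?_
      rw [Set.indicator_of_mem (hy j (Set.mem_univ j))]
    · rw [Set.indicator_of_notMem hy]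
      simp only [Set.mem_pi, Set.mem_univ, forall_const, not_forall] at hy
      obtain ⟨j, hj⟩ := hy
      symm
      apply Finset.prod_eq_zero (Finset.mem_univ j)
      exact Set.indicator_of_notMem hj _
  simp_rw [h1]
  have hind : iIndepFun (fun (j : J) (y : J → α) => (s j).indicator (f j) (y j))
      (Measure.pi (fun _ : J => μ)) :=
    iIndepFun_pi (X := fun j => (s j).indicator (f j))
      (fun j => ((hf j).indicator (hs j)).aemeasurable)
  rw [lintegral_prod_eq_prod_lintegral_of_indepFun Finset.univ _ hind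
    (fun j => ((hf j).indicator (hs j)).comp (measurable_pi_apply j))]
  refine Finset.prod_congr rfl fun j _ => ?_
  rw [withDensity_apply _ (hs j), ← lintegral_indicator (hs j)]
  have hmp := measurePreserving_eval (fun _ : J => μ) j
  rw [← hmp.lintegral_comp ((hf j).indicator (hs j))]

/-- density factor of one observation, given occupation `b`. -/
def dfac (b : Bool) (y : ℝ) : ℝ := 1 + (if b = true then (2 * y - 1) / 4 else 0)

lemma measurable_dfac (b : Bool) : Measurable (dfac b) := by
  unfold dfac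
  split_ifs <;> fun_prop

lemma dfac_pos {b : Bool} {y : ℝ} (hy : 0 ≤ y) : 0 < dfac b y := by
  unfold dfac; split_ifs <;> linarith

lemma isProb_U01' : IsProbabilityMeasure U01' := inferInstance

lemma isProb_dfac (b : Bool) :
    IsProbabilityMeasure (U01.withDensity fun y => ENNReal.ofReal (dfac b y)) := by
  cases b
  · simp only [dfac, Bool.false_eq_true, if_false, add_zero, ENNReal.ofReal_one]
    have : (U01.withDensity fun _ => (1 : ℝ≥0∞)) = U01 := withDensity_one
    rw [this]; infer_instance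
  · simp only [dfac, if_true]
    exact isProb_U01'

lemma map_sel (b : Bool) :
    (U01'.prod U01).map (fun q : ℝ × ℝ => if b = true then q.1 else q.2) =
      U01.withDensity fun y => ENNReal.ofReal (dfac b y) := by
  cases b
  · simp only [dfac, Bool.false_eq_true, if_false, add_zero, ENNReal.ofReal_one]
    have h1 : (U01.withDensity fun _ => (1 : ℝ≥0∞)) = U01 := withDensity_one
    rw [h1]
    show (U01'.prod U01).map Prod.snd = U01
    rw [Measure.map_snd_prod]; simp
  · simp only [dfac, if_true]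
    show (U01'.prod U01).map Prod.fst = U01'
    rw [Measure.map_fst_prod]; simp

variable {V : Type*}

/-- The observations in a finite window `J`. -/
def YJ (J : Finset (V × ℕ)) (ω : Om V) : J → ℝ := fun b => Yo ω b.1.1 b.1.2

lemma measurable_Yo (i : V) (k : ℕ) : Measurable (fun ω : Om V => Yo ω i k) := by
  unfold Yo
  refine Measurable.ite ?_ ?_ ?_
  · exact (measurableSet_singleton true).preimage
      ((measurable_pi_apply i).comp measurable_fst)
  · exact measurable_fst.comp ((measurable_pi_apply (i, k)).comp measurable_snd)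
  · exact measurable_snd.comp ((measurable_pi_apply (i, k)).comp measurable_snd)

lemma measurable_YJ (J : Finset (V × ℕ)) : Measurable (YJ J : Om V → J → ℝ) :=
  measurable_pi_lambda _ fun b => measurable_Yo b.1.1 b.1.2

/-- joint density of the observations in `J` given the configuration. -/
def dJ (J : Finset (V × ℕ)) (x : V → Bool) (y : J → ℝ) : ℝ≥0∞ :=
  ∏ b : J, ENNReal.ofReal (dfac (x b.1.1) (y b))

lemma infinitePi_congr {ι : Type*} {X : ι → Type*} [∀ i, MeasurableSpace (X i)]
    (μ μ' : (i : ι) → Measure (X i)) (_ : ∀ b, IsProbabilityMeasure (μ b))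
    (_ : ∀ b, IsProbabilityMeasure (μ' b)) (h : μ = μ') :
    Measure.infinitePi μ = Measure.infinitePi μ' := by
  subst h; rfl

lemma map_YJ_fixed (J : Finset (V × ℕ)) (x : V → Bool) :
    (Measure.infinitePi fun _ : V × ℕ => U01'.prod U01).map
        (fun η (b : J) => if x b.1.1 = true then (η b.1).1 else (η b.1).2) =
      (Measure.pi fun _ : J => U01).withDensity (dJ J x) := by
  have hpd := isProb_dfac
  let sel : V × ℕ → ℝ × ℝ → ℝ := fun b q => if x b.1 = true then q.1 else q.2
  have hsel : ∀ b : V × ℕ, Measurable (sel b) := by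
    intro b
    simp only [sel]
    split_ifs <;> fun_prop
  let g : (V × ℕ → ℝ × ℝ) → (V × ℕ → ℝ) := fun η b => sel b (η b)
  have hg : Measurable g := measurable_pi_lambda _ fun b => (hsel b).comp (measurable_pi_apply b)
  have h1 : (fun (η : V × ℕ → ℝ × ℝ) (b : J) => if x b.1.1 = true then (η b.1).1 else (η b.1).2) =
      J.restrict ∘ g := by
    funext η b; rfl
  have hmap : (Measure.infinitePi fun _ : V × ℕ => U01'.prod U01).map g =
      Measure.infinitePi (fun b : V × ℕ => (U01'.prod U01).map (sel b)) :=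
    Measure.infinitePi_map_pi (fun _ : V × ℕ => U01'.prod U01) hsel
  have h2 : (fun b : V × ℕ => (U01'.prod U01).map (sel b)) =
      fun b : V × ℕ => U01.withDensity fun y => ENNReal.ofReal (dfac (x b.1) y) := by
    funext b
    exact map_sel (x b.1)
  have hm : ∀ b : V × ℕ, IsProbabilityMeasure ((U01'.prod U01).map (sel b)) := fun b =>
    Measure.isProbabilityMeasure_map (hsel b).aemeasurable
  rw [h1, ← Measure.map_map (Finset.measurable_restrict J) hg, hmap,
    infinitePi_congr _ _ hm (fun b => isProb_dfac _) h2]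
  have h4 := Measure.infinitePi_map_restrict
    (fun b : V × ℕ => U01.withDensity fun y => ENNReal.ofReal (dfac (x b.1) y)) (I := J)
  rw [h4]
  exact pi_withDensity U01 (fun (b : J) y => ENNReal.ofReal (dfac (x b.1.1) y))
    (fun b => ENNReal.measurable_ofReal.comp (measurable_dfac _))

lemma measurable_dJ (J : Finset (V × ℕ)) :
    Measurable (fun q : (V → Bool) × (J → ℝ) => dJ J q.1 q.2) := by
  unfold dJ
  refine Finset.measurable_prod _ fun b _ => ENNReal.measurable_ofReal.comp ?_
  unfold dfac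
  refine measurable_const.add (Measurable.ite ?_ ?_ measurable_const)
  · exact (measurableSet_singleton true).preimage
      ((measurable_pi_apply b.1.1).comp measurable_fst)
  · have : Measurable fun a : (V → Bool) × (J → ℝ) => a.2 b :=
      (measurable_pi_apply b).comp measurable_snd
    exact ((this.const_mul 2).sub_const 1).div_const 4

/-- Change of measure: expectation of a function of the configuration and of the observations
in `J`. -/
lemma lintegral_YJ (ν : Measure (V → Bool)) [IsProbabilityMeasure ν] (J : Finset (V × ℕ))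
    (Φ : (V → Bool) × (J → ℝ) → ℝ≥0∞) (hΦ : Measurable Φ) :
    ∫⁻ ω, Φ (ω.1, YJ J ω) ∂(PP ν) =
      ∫⁻ y, ∫⁻ x, Φ (x, y) * dJ J x y ∂ν ∂(Measure.pi fun _ : J => U01) := by
  unfold PP
  have hprob : IsProbabilityMeasure (U01'.prod U01) := inferInstance
  have hc : Measurable (fun ω : Om V => Φ (ω.1, YJ J ω)) :=
    hΦ.comp (measurable_fst.prodMk (measurable_YJ J))
  rw [lintegral_prod _ hc.aemeasurable]
  have h1 : ∀ x : V → Bool, ∫⁻ η, Φ (x, YJ J (x, η))
      ∂(Measure.infinitePi fun _ : V × ℕ => U01'.prod U01) =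
      ∫⁻ y, Φ (x, y) * dJ J x y ∂(Measure.pi fun _ : J => U01) := by
    intro x
    have hsec : Measurable fun y : J → ℝ => Φ (x, y) := hΦ.comp measurable_prodMk_left
    have hmeas : Measurable (fun (η : V × ℕ → ℝ × ℝ) (b : J) =>
        if x b.1.1 = true then (η b.1).1 else (η b.1).2) := by
      refine measurable_pi_lambda _ fun b => ?_
      split_ifs
      · exact measurable_fst.comp (measurable_pi_apply _)
      · exact measurable_snd.comp (measurable_pi_apply _)
    have h2 := lintegral_map (μ := Measure.infinitePi fun _ : V × ℕ => U01'.prod U01) hsec hmeas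
    rw [map_YJ_fixed] at h2
    have h3 : Measurable (dJ J x) := (measurable_dJ J).comp measurable_prodMk_left
    rw [lintegral_withDensity_eq_lintegral_mul _ h3 hsec] at h2
    rw [show (fun η => Φ (x, YJ J (x, η))) = fun η => Φ (x, (fun b : J =>
      if x b.1.1 = true then (η b.1).1 else (η b.1).2)) from rfl, ← h2]
    refine lintegral_congr fun y => ?_
    simp only [Pi.mul_apply]
    rw [mul_comm]
  simp_rw [h1]
  rw [lintegral_lintegral_swap]
  exact (hΦ.mul (measurable_dJ J)).aemeasurable

/-! ### cylinder expansion -/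

/-- cylinder set. -/
def cylS (F S : Finset V) : Set (V → Bool) := {ω | ∀ i ∈ F, (ω i = true ↔ i ∈ S)}

lemma measurableSet_cylS (F S : Finset V) : MeasurableSet (cylS F S) := by
  have : cylS F S = ⋂ i ∈ F, {ω : V → Bool | ω i = true ↔ i ∈ S} := by
    ext ω; simp [cylS]
  rw [this]
  refine Finset.measurableSet_biInter _ fun i _ => ?_
  by_cases hi : i ∈ S
  · have : {ω : V → Bool | ω i = true ↔ i ∈ S} = (fun ω => ω i) ⁻¹' {true} := by
      ext ω; simp [hi]
    rw [this]; exact (measurable_pi_apply i) (measurableSet_singleton _)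
  · have : {ω : V → Bool | ω i = true ↔ i ∈ S} = (fun ω => ω i) ⁻¹' {false} := by
      ext ω; simp [hi]
    rw [this]; exact (measurable_pi_apply i) (measurableSet_singleton _)

/-- trace of a configuration on `F`. -/
def tr (F : Finset V) (x : V → Bool) : Finset V := F.filter (fun j => x j = true)

lemma mem_cylS_iff {F S : Finset V} (hS : S ⊆ F) (x : V → Bool) :
    x ∈ cylS F S ↔ tr F x = S := by
  constructor
  · intro hx
    ext j
    simp only [tr, Finset.mem_filter]
    constructor
    · rintro ⟨hj, hxj⟩; exact (hx j hj).1 hxj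
    · intro hj; exact ⟨hS hj, (hx j (hS hj)).2 hj⟩
  · intro h j hj
    rw [← h]
    simp [tr, hj]

open scoped Classical in
lemma psi_expand (F : Finset V) (ψ : Finset V → ℝ) (x : V → Bool) :
    ψ (tr F x) = ∑ S ∈ F.powerset, (cylS F S).indicator (fun _ => ψ S) x := by
  rw [Finset.sum_eq_single_of_mem (tr F x) (by simp [tr])]
  · rw [Set.indicator_of_mem]
    rw [mem_cylS_iff (by simp [tr])]
  · intro S hS hne
    rw [Set.indicator_of_notMem]
    rw [mem_cylS_iff (Finset.mem_powerset.1 hS)]
    exact fun h => hne h.symm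


lemma integrable_psi (ν : Measure (V → Bool)) [IsProbabilityMeasure ν] (F : Finset V)
    (ψ : Finset V → ℝ) : Integrable (fun x : V → Bool => ψ (tr F x)) ν := by
  simp_rw [psi_expand F ψ]
  exact integrable_finsetSum _ fun S _ =>
    (integrable_const _).indicator (measurableSet_cylS F S)

lemma integral_psi (ν : Measure (V → Bool)) [IsProbabilityMeasure ν] (F : Finset V)
    (ψ : Finset V → ℝ) : ∫ x, ψ (tr F x) ∂ν = ∑ S ∈ F.powerset, cyl ν F S * ψ S := by
  simp_rw [psi_expand F ψ]
  rw [integral_finsetSum _ fun S _ => (integrable_const _).indicator (measurableSet_cylS F S)]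
  refine Finset.sum_congr rfl fun S _ => ?_
  rw [integral_indicator (measurableSet_cylS F S), setIntegral_const]
  rfl

lemma lintegral_psi (ν : Measure (V → Bool)) [IsProbabilityMeasure ν] (F : Finset V)
    (ψ : Finset V → ℝ) (hψ : ∀ S, 0 ≤ ψ S) :
    ∫⁻ x, ENNReal.ofReal (ψ (tr F x)) ∂ν =
      ENNReal.ofReal (∑ S ∈ F.powerset, cyl ν F S * ψ S) := by
  rw [← ofReal_integral_eq_lintegral_ofReal (integrable_psi ν F ψ)
    (ae_of_all _ fun x => hψ _), integral_psi]

/-! ### the field of a finite window -/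

open scoped Classical in
/-- field generated by the observations in `J`. -/
def hJ (J : Finset (V × ℕ)) (y : J → ℝ) (j : V) : ℝ :=
  ∑ b : J, if b.1.1 = j then gfun (y b) else 0

lemma dfac_eq_exp (b : Bool) {y : ℝ} (hy : 0 ≤ y) :
    dfac b y = Real.exp (if b = true then gfun y else 0) := by
  unfold dfac gfun
  split_ifs
  · rw [Real.exp_log (by linarith)]
  · simp

lemma dJ_eq (J : Finset (V × ℕ)) (F : Finset V) (hJF : ∀ b ∈ J, b.1 ∈ F) (x : V → Bool)
    (y : J → ℝ) (hy : ∀ b, 0 ≤ y b) :
    dJ J x y = ENNReal.ofReal (Real.exp (∑ j ∈ tr F x, hJ J y j)) := by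
  classical
  unfold dJ
  rw [← ENNReal.ofReal_prod_of_nonneg (fun b _ => (dfac_pos (hy b)).le)]
  congr 1
  simp_rw [fun b : J => dfac_eq_exp (x b.1.1) (hy b)]
  rw [← Real.exp_sum]
  congr 1
  unfold hJ
  rw [Finset.sum_comm]
  refine Finset.sum_congr rfl fun b _ => ?_
  rw [Finset.sum_ite_eq]
  have : b.1.1 ∈ tr F x ↔ x b.1.1 = true := by
    simp [tr, hJF b.1 b.2]
  simp only [this]

lemma lintegral_dJ (ν : Measure (V → Bool)) [IsProbabilityMeasure ν] (J : Finset (V × ℕ))
    (F : Finset V) (hJF : ∀ b ∈ J, b.1 ∈ F) (y : J → ℝ) (hy : ∀ b, 0 ≤ y b) :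
    ∫⁻ x, dJ J x y ∂ν = ENNReal.ofReal (Zw (cyl ν) F (hJ J y)) := by
  simp_rw [fun x => dJ_eq J F hJF x y hy]
  exact lintegral_psi ν F (fun S => Real.exp (∑ j ∈ S, hJ J y j)) fun S => (Real.exp_pos _).le

lemma lintegral_dJ_occ (ν : Measure (V → Bool)) [IsProbabilityMeasure ν] (J : Finset (V × ℕ))
    (F : Finset V) (hJF : ∀ b ∈ J, b.1 ∈ F) (i : V) (hi : i ∈ F) (y : J → ℝ)
    (hy : ∀ b, 0 ≤ y b) :
    ∫⁻ x, ENNReal.ofReal (if x i = true then 1 else 0) * dJ J x y ∂ν =
      ENNReal.ofReal (Zo (cyl ν) F i (hJ J y)) := by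
  classical
  have h1 : ∀ x : V → Bool, ENNReal.ofReal (if x i = true then 1 else 0) * dJ J x y =
      ENNReal.ofReal ((fun S : Finset V => if i ∈ S then Real.exp (∑ j ∈ S, hJ J y j) else 0)
        (tr F x)) := by
    intro x
    rw [dJ_eq J F hJF x y hy]
    have : i ∈ tr F x ↔ x i = true := by simp [tr, hi]
    simp only [this]
    split_ifs <;> simp
  rw [lintegral_congr h1, lintegral_psi ν F
    (fun S : Finset V => if i ∈ S then Real.exp (∑ j ∈ S, hJ J y j) else 0)
    (fun S => by split_ifs; exacts [(Real.exp_pos _).le, le_rfl])]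
  congr 1
  unfold Zo
  refine Finset.sum_congr rfl fun S _ => ?_
  split_ifs <;> simp

lemma Zw_pos (ν : Measure (V → Bool)) [IsProbabilityMeasure ν] (F : Finset V) (h : V → ℝ) :
    0 < Zw (cyl ν) F h := by
  have h1 := integral_psi ν F (fun S => Real.exp (∑ j ∈ S, h j))
  unfold Zw
  rw [← h1]
  have hint := integrable_psi ν F (fun S => Real.exp (∑ j ∈ S, h j))
  exact integral_exp_pos hint

lemma Zo_nonneg (ν : Measure (V → Bool)) (F : Finset V) (i : V) (h : V → ℝ) :
    0 ≤ Zo (cyl ν) F i h := by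
  classical
  unfold Zo
  refine Finset.sum_nonneg fun S _ => ?_
  split_ifs
  · exact mul_nonneg ENNReal.toReal_nonneg (Real.exp_pos _).le
  · exact le_rfl

lemma Zo_le_Zw (ν : Measure (V → Bool)) (F : Finset V) (i : V) (h : V → ℝ) :
    Zo (cyl ν) F i h ≤ Zw (cyl ν) F h := by
  classical
  unfold Zo Zw
  refine Finset.sum_le_sum fun S _ => ?_
  split_ifs
  · exact le_rfl
  · exact mul_nonneg ENNReal.toReal_nonneg (Real.exp_pos _).le

lemma occ_mem (ν : Measure (V → Bool)) [IsProbabilityMeasure ν] (F : Finset V) (i : V)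
    (h : V → ℝ) : 0 ≤ occ (cyl ν) F i h ∧ occ (cyl ν) F i h ≤ 1 := by
  unfold occ
  refine ⟨div_nonneg (Zo_nonneg ν F i h) (Zw_pos ν F h).le, ?_⟩
  rw [div_le_one (Zw_pos ν F h)]
  exact Zo_le_Zw ν F i h

end

end Crest.Agent.R168.BayesAux
end

-- ▼ part R168/Bayes
section

/-! T2: Bayes formula for finite sets + Lévy's upward theorem. -/

set_option autoImplicit false

namespace Crest.Agent.R168.BayesAux

open MeasureTheory ProbabilityTheory Filter Topology
open scoped ENNReal

section aux

variable {V : Type*}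

lemma measurable_gfun : Measurable gfun := by
  unfold gfun; fun_prop

lemma measurable_Zw (c : Finset V → Finset V → ℝ) (F : Finset V) :
    Measurable (fun h : V → ℝ => Zw c F h) := by
  unfold Zw
  exact Finset.measurable_sum _ fun S _ => (Real.measurable_exp.comp
    (Finset.measurable_sum _ fun j _ => measurable_pi_apply j)).const_mul _

lemma measurable_Zo (c : Finset V → Finset V → ℝ) (F : Finset V) (i : V) :
    Measurable (fun h : V → ℝ => Zo c F i h) := by
  classical
  unfold Zo
  refine Finset.measurable_sum _ fun S _ => ?_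
  split_ifs
  · exact (Real.measurable_exp.comp
      (Finset.measurable_sum _ fun j _ => measurable_pi_apply j)).const_mul _
  · exact measurable_const

lemma measurable_occ (c : Finset V → Finset V → ℝ) (F : Finset V) (i : V) :
    Measurable (fun h : V → ℝ => occ c F i h) :=
  (measurable_Zo c F i).div (measurable_Zw c F)

lemma Zw_congr (c : Finset V → Finset V → ℝ) (F : Finset V) {h h' : V → ℝ}
    (hh : ∀ j ∈ F, h j = h' j) : Zw c F h = Zw c F h' := by
  unfold Zw
  refine Finset.sum_congr rfl fun S hS => ?_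
  rw [Finset.sum_congr rfl fun j hj => hh j (Finset.mem_powerset.1 hS hj)]

lemma Zo_congr (c : Finset V → Finset V → ℝ) (F : Finset V) (i : V) {h h' : V → ℝ}
    (hh : ∀ j ∈ F, h j = h' j) : Zo c F i h = Zo c F i h' := by
  unfold Zo
  refine Finset.sum_congr rfl fun S hS => ?_
  rw [Finset.sum_congr rfl fun j hj => hh j (Finset.mem_powerset.1 hS hj)]

lemma occ_congr (c : Finset V → Finset V → ℝ) (F : Finset V) (i : V) {h h' : V → ℝ}
    (hh : ∀ j ∈ F, h j = h' j) : occ c F i h = occ c F i h' := by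
  unfold occ
  rw [Zw_congr c F hh, Zo_congr c F i hh]

lemma measurable_hJ (J : Finset (V × ℕ)) : Measurable (hJ J : (J → ℝ) → V → ℝ) := by
  classical
  refine measurable_pi_lambda _ fun j => ?_
  unfold hJ
  refine Finset.measurable_sum _ fun b _ => ?_
  split_ifs
  · exact measurable_gfun.comp (measurable_pi_apply b)
  · exact measurable_const

lemma measurable_occInd (i : V) : Measurable (occInd i : Om V → ℝ) := by
  unfold occInd
  exact Measurable.ite ((measurableSet_singleton true).preimage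
      ((measurable_pi_apply i).comp measurable_fst)) measurable_const measurable_const

lemma occInd_nonneg (i : V) (ω : Om V) : 0 ≤ occInd i ω := by
  unfold occInd; split_ifs <;> norm_num

lemma occInd_le_one (i : V) (ω : Om V) : occInd i ω ≤ 1 := by
  unfold occInd; split_ifs <;> norm_num

instance isProb_PP (ν : Measure (V → Bool)) [IsProbabilityMeasure ν] :
    IsProbabilityMeasure (PP ν) := by
  unfold PP; infer_instance

lemma integrable_occInd (ν : Measure (V → Bool)) [IsProbabilityMeasure ν] (i : V) :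
    Integrable (occInd i : Om V → ℝ) (PP ν) :=
  Integrable.of_bound (measurable_occInd i).aestronglyMeasurable 1 (ae_of_all _ fun ω => by
    rw [Real.norm_eq_abs, abs_of_nonneg (occInd_nonneg i ω)]; exact occInd_le_one i ω)

lemma ae_pi_nonneg (J : Finset (V × ℕ)) :
    ∀ᵐ y ∂(Measure.pi fun _ : J => U01), ∀ b, 0 ≤ y b := by
  rw [ae_all_iff]
  intro b
  have h1 : ∀ᵐ t ∂U01, 0 ≤ t := by
    unfold U01
    exact (ae_restrict_iff' measurableSet_Icc).2 (ae_of_all _ fun t ht => ht.1)
  exact (measurePreserving_eval (fun _ : J => U01) b).quasiMeasurePreserving.ae h1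

/-- Finite Bayes formula. -/
lemma condExp_window (ν : Measure (V → Bool)) [IsProbabilityMeasure ν] (J : Finset (V × ℕ))
    (F : Finset V) (hJF : ∀ b ∈ J, b.1 ∈ F) (i : V) (hi : i ∈ F) :
    (fun ω => occ (cyl ν) F i (hJ J (YJ J ω))) =ᵐ[PP ν]
      (PP ν)[occInd i | MeasurableSpace.comap (YJ J) MeasurableSpace.pi] := by
  have hm : MeasurableSpace.comap (YJ J) MeasurableSpace.pi ≤
      (inferInstance : MeasurableSpace (Om V)) := (measurable_YJ J).comap_le
  set G : (J → ℝ) → ℝ := fun y => occ (cyl ν) F i (hJ J y) with hG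
  have hGm : Measurable G := (measurable_occ _ F i).comp (measurable_hJ J)
  have hG01 : ∀ y, 0 ≤ G y ∧ G y ≤ 1 := fun y => occ_mem ν F i _
  have hGi : Integrable (fun ω => G (YJ J ω)) (PP ν) :=
    Integrable.of_bound (hGm.comp (measurable_YJ J)).aestronglyMeasurable 1
      (ae_of_all _ fun ω => by
        rw [Real.norm_eq_abs, abs_of_nonneg (hG01 _).1]; exact (hG01 _).2)
  refine ae_eq_condExp_of_forall_setIntegral_eq hm (integrable_occInd ν i)
    (fun s _ _ => hGi.integrableOn) ?_ ?_
  · intro s hs _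
    obtain ⟨B, hB, rfl⟩ := hs
    have hs' : MeasurableSet (YJ J ⁻¹' B : Set (Om V)) := measurable_YJ J hB
    rw [integral_eq_lintegral_of_nonneg_ae (ae_of_all _ fun ω => (hG01 _).1)
      (hGm.comp (measurable_YJ J)).aestronglyMeasurable,
      integral_eq_lintegral_of_nonneg_ae (ae_of_all _ fun ω => occInd_nonneg i ω)
      (measurable_occInd i).aestronglyMeasurable]
    congr 1
    rw [← lintegral_indicator hs', ← lintegral_indicator hs']
    -- left side
    have hBi : Measurable (B.indicator (fun _ => (1 : ℝ≥0∞)) : (J → ℝ) → ℝ≥0∞) :=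
      measurable_const.indicator hB
    have e1 : ∀ ω : Om V, (YJ J ⁻¹' B).indicator (fun ω => ENNReal.ofReal (G (YJ J ω))) ω =
        (fun q : (V → Bool) × (J → ℝ) =>
          B.indicator (fun _ => (1 : ℝ≥0∞)) q.2 * ENNReal.ofReal (G q.2)) (ω.1, YJ J ω) := by
      intro ω
      by_cases h : YJ J ω ∈ B
      · rw [Set.indicator_of_mem (show ω ∈ YJ J ⁻¹' B from h)]
        simp [h]
      · rw [Set.indicator_of_notMem (show ω ∉ YJ J ⁻¹' B from h)]
        simp [h]
    have e2 : ∀ ω : Om V, (YJ J ⁻¹' B).indicator (fun ω => ENNReal.ofReal (occInd i ω)) ω =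
        (fun q : (V → Bool) × (J → ℝ) =>
          B.indicator (fun _ => (1 : ℝ≥0∞)) q.2 *
            ENNReal.ofReal (if q.1 i = true then 1 else 0)) (ω.1, YJ J ω) := by
      intro ω
      by_cases h : YJ J ω ∈ B
      · rw [Set.indicator_of_mem (show ω ∈ YJ J ⁻¹' B from h)]
        simp [h, occInd]
      · rw [Set.indicator_of_notMem (show ω ∉ YJ J ⁻¹' B from h)]
        simp [h]
    have m1 : Measurable (fun q : (V → Bool) × (J → ℝ) =>
          B.indicator (fun _ => (1 : ℝ≥0∞)) q.2 * ENNReal.ofReal (G q.2)) :=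
      (hBi.comp measurable_snd).mul (ENNReal.measurable_ofReal.comp (hGm.comp measurable_snd))
    have mi : Measurable (fun q : (V → Bool) × (J → ℝ) => ENNReal.ofReal
        (if q.1 i = true then 1 else 0)) :=
      ENNReal.measurable_ofReal.comp (Measurable.ite ((measurableSet_singleton true).preimage
        ((measurable_pi_apply i).comp measurable_fst)) measurable_const measurable_const)
    have m2 : Measurable (fun q : (V → Bool) × (J → ℝ) =>
          B.indicator (fun _ => (1 : ℝ≥0∞)) q.2 *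
            ENNReal.ofReal (if q.1 i = true then 1 else 0)) :=
      (hBi.comp measurable_snd).mul mi
    rw [lintegral_congr e1, lintegral_congr e2, lintegral_YJ ν J _ m1, lintegral_YJ ν J _ m2]
    refine lintegral_congr_ae ?_
    filter_upwards [ae_pi_nonneg J] with y hy
    simp only [mul_assoc]
    have hd : Measurable (fun x => dJ J x y) := (measurable_dJ J).comp measurable_prodMk_right
    have hmx : Measurable (fun x : V → Bool =>
        ENNReal.ofReal (if x i = true then 1 else 0) * dJ J x y) :=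
      (mi.comp (measurable_prodMk_right (y := y))).mul hd
    rw [lintegral_const_mul _ (hd.const_mul _), lintegral_const_mul _ hd,
      lintegral_const_mul _ hmx,
      lintegral_dJ ν J F hJF y hy, lintegral_dJ_occ ν J F hJF i hi y hy,
      ← ENNReal.ofReal_mul (hG01 y).1]
    congr 2
    simp only [hG]
    unfold occ
    rw [div_mul_cancel₀ _ (Zw_pos ν F _).ne']
  · have : StronglyMeasurable[MeasurableSpace.comap (YJ J) MeasurableSpace.pi]
        (fun ω : Om V => G (YJ J ω)) :=
      (hGm.comp (comap_measurable (YJ J))).stronglyMeasurable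
    exact this.aestronglyMeasurable

open scoped Classical in
/-- window of past updates. -/
noncomputable def win (T : V → ℝ) (i : V) (k : ℕ) (F : Finset V) : Finset (V × ℕ) :=
  (F ×ˢ Finset.range (k + 1)).filter (fun b => b ∈ past T i k)

lemma mem_win {T : V → ℝ} {i : V} {k : ℕ} {F : Finset V} {b : V × ℕ} :
    b ∈ win T i k F ↔ b.1 ∈ F ∧ b ∈ past T i k := by
  classical
  unfold win
  rw [Finset.mem_filter, Finset.mem_product, Finset.mem_range]
  constructor
  · rintro ⟨⟨h1, _⟩, h3⟩; exact ⟨h1, h3⟩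
  · rintro ⟨h1, h3⟩
    refine ⟨⟨h1, ?_⟩, h3⟩
    rcases h3 with h | ⟨h, _⟩
    · omega
    · omega

lemma field_eq_hJ (T : V → ℝ) (i : V) (k : ℕ) (F : Finset V) (ω : Om V) (j : V) (hj : j ∈ F) :
    field T (Yo ω) i k j = hJ (win T i k F) (YJ (win T i k F) ω) j := by
  classical
  unfold hJ YJ
  have h1 : ∑ b : win T i k F, (if b.1.1 = j then gfun (Yo ω b.1.1 b.1.2) else 0) =
      ∑ b ∈ win T i k F, (if b.1 = j then gfun (Yo ω b.1 b.2) else 0) :=
    Finset.sum_coe_sort (win T i k F) (fun b => if b.1 = j then gfun (Yo ω b.1 b.2) else 0)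
  rw [h1]
  unfold win
  rw [Finset.sum_filter, Finset.sum_product, Finset.sum_eq_single_of_mem j hj]
  · simp only [if_true]
    rw [Finset.sum_range_succ]
    unfold field
    congr 1
    · refine Finset.sum_congr rfl fun l hl => ?_
      rw [if_pos]
      left; exact Finset.mem_range.1 hl
    · simp [past]
  · intro a _ hne
    refine Finset.sum_eq_zero fun l _ => ?_
    simp [hne]

end aux

end Crest.Agent.R168.BayesAux

namespace Crest.Agent.R168

open MeasureTheory ProbabilityTheory Filter Topology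
open BayesAux

/-- Predicted probabilities computed in the finite windows `E n` converge a.s. to the conditional
probability given all past observations. -/
theorem tendsto_occ {V : Type*} [Countable V] (ν : Measure (V → Bool)) [IsProbabilityMeasure ν]
    (T : V → ℝ) (E : ℕ → Finset V) (hmono : Monotone E) (i : V) (hself : ∀ n, i ∈ E n)
    (hcov : ∀ j, ∃ n, j ∈ E n) (k : ℕ) :
    ∀ᵐ ω ∂(PP ν), Tendsto (fun n => occ (cyl ν) (E n) i (field T (Yo ω) i k)) atTop
      (𝓝 (((PP ν)[occInd i | Gs T i k]) ω)) := by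
  let J : ℕ → Finset (V × ℕ) := fun n => win T i k (E n)
  have hJmono : ∀ {m n}, m ≤ n → J m ⊆ J n := by
    intro m n hmn b hb
    rw [mem_win] at hb ⊢
    exact ⟨hmono hmn hb.1, hb.2⟩
  -- filtration
  let 𝓕 : Filtration ℕ (inferInstance : MeasurableSpace (Om V)) :=
    { seq := fun n => MeasurableSpace.comap (YJ (J n)) MeasurableSpace.pi
      mono' := by
        intro m n hmn
        have : (YJ (J m) : Om V → _) = (fun (y : J n → ℝ) (b : J m) => y ⟨b.1, hJmono hmn b.2⟩) ∘
            YJ (J n) := rfl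
        show MeasurableSpace.comap (YJ (J m)) MeasurableSpace.pi ≤
          MeasurableSpace.comap (YJ (J n)) MeasurableSpace.pi
        rw [this, ← MeasurableSpace.comap_comp]
        apply MeasurableSpace.comap_mono
        exact (measurable_pi_lambda _ fun b => measurable_pi_apply _).comap_le
      le' := fun n => (measurable_YJ (J n)).comap_le }
  have hsup : ⨆ n, 𝓕 n = Gs T i k := by
    apply le_antisymm
    · refine iSup_le fun n => ?_
      show MeasurableSpace.comap (YJ (J n)) MeasurableSpace.pi ≤ Gs T i k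
      unfold Gs
      have : (YJ (J n) : Om V → _) = (fun (y : past T i k → ℝ) (b : J n) =>
          y ⟨b.1, (mem_win.1 b.2).2⟩) ∘
          (fun (ω : Om V) (b : past T i k) => Yo ω b.1.1 b.1.2) := rfl
      rw [this, ← MeasurableSpace.comap_comp]
      apply MeasurableSpace.comap_mono
      exact (measurable_pi_lambda _ fun b => measurable_pi_apply _).comap_le
    · unfold Gs
      have hme : Measurable[⨆ n, 𝓕 n] (fun (ω : Om V) (b : past T i k) => Yo ω b.1.1 b.1.2) := by
        refine @measurable_pi_lambda _ _ _ (⨆ n, 𝓕 n) _ _ fun b => ?_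
        obtain ⟨n, hn⟩ := hcov b.1.1
        have hb : b.1 ∈ J n := mem_win.2 ⟨hn, b.2⟩
        have h1 : Measurable[𝓕 n] (fun ω : Om V => YJ (J n) ω ⟨b.1, hb⟩) :=
          (measurable_pi_apply (⟨b.1, hb⟩ : J n)).comp (comap_measurable (YJ (J n)))
        exact h1.mono (le_iSup (fun n => (𝓕 n : MeasurableSpace (Om V))) n) le_rfl
      exact hme.comap_le
  have hlevy := tendsto_ae_condExp (μ := PP ν) (ℱ := 𝓕) (occInd i)
  have hwin : ∀ᵐ ω ∂(PP ν), ∀ n, occ (cyl ν) (E n) i (hJ (J n) (YJ (J n) ω)) =
      ((PP ν)[occInd i | 𝓕 n]) ω := by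
    rw [ae_all_iff]
    intro n
    exact condExp_window ν (J n) (E n) (fun b hb => (mem_win.1 hb).1) i (hself n)
  filter_upwards [hlevy, hwin] with ω h1 h2
  rw [hsup] at h1
  refine h1.congr fun n => ?_
  rw [← h2 n]
  exact occ_congr _ _ _ fun j hj => (field_eq_hJ T i k (E n) ω j hj).symm

end Crest.Agent.R168
end

-- ▼ part R168/Innov
section

/-! T3: the innovations are i.i.d. uniform. -/

set_option autoImplicit false

namespace Crest.Agent.R168

open MeasureTheory ProbabilityTheory Filter Topology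

/-- the cdf of the mixed channel. -/
noncomputable def cdfm (m y : ℝ) : ℝ := y - 1 / 4 * m * (y * (1 - y))

theorem cdfm_hasDeriv (m y : ℝ) : HasDerivAt (cdfm m) (1 + m * (2 * y - 1) / 4) y := by
  have h1 : HasDerivAt (fun y : ℝ => y * (1 - y)) (1 * (1 - y) + y * (0 - 1)) y :=
    (hasDerivAt_id' y).mul ((hasDerivAt_const y (1 : ℝ)).sub (hasDerivAt_id' y))
  have h2 := (hasDerivAt_id' y).sub (h1.const_mul (1 / 4 * m))
  refine h2.congr_deriv ?_
  ring

theorem cdfm_strictMonoOn (m : ℝ) (hm : 0 ≤ m ∧ m ≤ 1) : StrictMonoOn (cdfm m) (Set.Icc 0 1) := by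
  intro x hx y hy hxy
  have h : cdfm m y - cdfm m x = (y - x) * (1 - m / 4 * (1 - x - y)) := by unfold cdfm; ring
  have h2 : 0 < 1 - m / 4 * (1 - x - y) := by
    have : m / 4 * (1 - x - y) ≤ 1 / 4 := by
      have h3 : 1 - x - y ≤ 1 := by linarith [hx.1, hy.1]
      nlinarith [hm.1, hm.2]
    linarith
  have := mul_pos (sub_pos.2 hxy) h2
  linarith

theorem cdfm_image (m : ℝ) (hm : 0 ≤ m ∧ m ≤ 1) : cdfm m '' Set.Icc 0 1 = Set.Icc 0 1 := by
  have h0 : cdfm m 0 = 0 := by simp [cdfm]
  have h1 : cdfm m 1 = 1 := by simp [cdfm]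
  apply Set.Subset.antisymm
  · rintro _ ⟨y, hy, rfl⟩
    have hmono := (cdfm_strictMonoOn m hm).monotoneOn
    constructor
    · have := hmono (Set.left_mem_Icc.2 zero_le_one) hy hy.1
      rwa [h0] at this
    · have := hmono hy (Set.right_mem_Icc.2 zero_le_one) hy.2
      rwa [h1] at this
  · have hc : ContinuousOn (cdfm m) (Set.Icc 0 1) :=
      fun y _ => (cdfm_hasDeriv m y).continuousAt.continuousWithinAt
    have := intermediate_value_Icc (zero_le_one' ℝ) hc
    rwa [h0, h1] at this

theorem measurable_cdfm : Measurable (fun p : ℝ × ℝ => cdfm p.1 p.2) := by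
  unfold cdfm; fun_prop

/-- one-dimensional change of variables: if `Y` has density `1 + m (2y-1)/4` then
`Y - m/4 * Y (1-Y)` is uniform. -/
theorem map_cdf_mix (m : ℝ) (hm : 0 ≤ m ∧ m ≤ 1) :
    (U01.withDensity fun y => ENNReal.ofReal (1 + m * (2 * y - 1) / 4)).map
      (fun y => y - 1 / 4 * m * (y * (1 - y))) = U01 := by
  change (U01.withDensity _).map (cdfm m) = U01
  have hmeas : Measurable (cdfm m) := by unfold cdfm; fun_prop
  ext s hs
  rw [Measure.map_apply hmeas hs, withDensity_apply _ (hmeas hs), U01,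
    Measure.restrict_apply hs]
  have key := lintegral_image_eq_lintegral_abs_deriv_mul (s := Set.Icc (0 : ℝ) 1)
    measurableSet_Icc (fun x _ => (cdfm_hasDeriv m x).hasDerivWithinAt)
    (cdfm_strictMonoOn m hm).injOn (s.indicator fun _ => 1)
  rw [cdfm_image m hm, lintegral_indicator_const hs, Measure.restrict_apply hs, one_mul] at key
  rw [key, ← lintegral_indicator (hmeas hs)]
  refine setLIntegral_congr_fun measurableSet_Icc fun y hy => ?_
  have hpos : 0 ≤ 1 + m * (2 * y - 1) / 4 := by nlinarith [hm.1, hm.2, hy.1, hy.2]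
  by_cases h : cdfm m y ∈ s
  · simp [Set.indicator, h, abs_of_nonneg hpos]
  · simp [Set.indicator, h]

open scoped Classical in
theorem map_update_infinitePi {ι X : Type*} [MeasurableSpace X] (κ : Measure X)
    [IsProbabilityMeasure κ] (a : ι) :
    ((Measure.infinitePi fun _ : ι => κ).prod κ).map (fun p => Function.update p.1 a p.2) =
      Measure.infinitePi fun _ : ι => κ := by
  have hmeas : Measurable (fun p : (ι → X) × X => Function.update p.1 a p.2) := by
    rw [measurable_pi_iff]
    intro i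
    by_cases h : i = a
    · subst h; simpa using measurable_snd
    · simp only [Function.update_of_ne h]; fun_prop
  refine Measure.eq_infinitePi _ fun s t ht => ?_
  rw [Measure.map_apply hmeas (MeasurableSet.pi s.countable_toSet fun i _ => ht i)]
  by_cases ha : a ∈ s
  · have : (fun p : (ι → X) × X => Function.update p.1 a p.2) ⁻¹' (Set.pi s t) =
        (Set.pi (s.erase a) t) ×ˢ (t a) := by
      ext p
      simp only [Set.mem_preimage, Set.mem_pi, Finset.mem_coe, Set.mem_prod, Finset.mem_erase]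
      constructor
      · intro h
        refine ⟨fun i hi => ?_, ?_⟩
        · have := h i hi.2
          rwa [Function.update_of_ne hi.1] at this
        · simpa using h a ha
      · rintro ⟨h1, h2⟩ i hi
        by_cases hia : i = a
        · subst hia; simpa using h2
        · rw [Function.update_of_ne hia]; exact h1 i ⟨hia, hi⟩
    rw [this, Measure.prod_prod, Measure.infinitePi_pi _ (fun i _ => ht i),
      Finset.prod_erase_mul _ _ ha]
  · have : (fun p : (ι → X) × X => Function.update p.1 a p.2) ⁻¹' (Set.pi s t) =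
        (Set.pi s t) ×ˢ Set.univ := by
      ext p
      simp only [Set.mem_preimage, Set.mem_pi, Finset.mem_coe, Set.mem_prod, Set.mem_univ,
        and_true]
      refine forall₂_congr fun i hi => ?_
      have hia : i ≠ a := fun h => ha (h ▸ hi)
      rw [Function.update_of_ne hia]
    rw [this, Measure.prod_prod, Measure.infinitePi_pi _ (fun i _ => ht i), measure_univ, mul_one]

open scoped Classical in
/-- resampling the coordinate `a`. -/
noncomputable def resamp {V : Type*} (a : V × ℕ) (p : Om V × (ℝ × ℝ)) : Om V :=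
  (p.1.1, Function.update p.1.2 a p.2)

theorem measurePreserving_resamp {V : Type*} (ν : Measure (V → Bool)) [IsProbabilityMeasure ν]
    (a : V × ℕ) : MeasurePreserving (resamp a) ((PP ν).prod (U01'.prod U01)) (PP ν) := by
  classical
  have h1 := measurePreserving_prodAssoc ν
    (Measure.infinitePi fun _ : V × ℕ => U01'.prod U01) (U01'.prod U01)
  have hmeas : Measurable (fun p : ((V × ℕ) → ℝ × ℝ) × (ℝ × ℝ) => Function.update p.1 a p.2) := by
    rw [measurable_pi_iff]
    intro i
    by_cases h : i = a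
    · subst h; simpa using measurable_snd
    · simp only [Function.update_of_ne h]; fun_prop
  have h2 : MeasurePreserving (fun p : ((V × ℕ) → ℝ × ℝ) × (ℝ × ℝ) => Function.update p.1 a p.2)
      ((Measure.infinitePi fun _ : V × ℕ => U01'.prod U01).prod (U01'.prod U01))
      (Measure.infinitePi fun _ : V × ℕ => U01'.prod U01) :=
    ⟨hmeas, by convert map_update_infinitePi (U01'.prod U01) a⟩
  have h3 := ((MeasurePreserving.id ν).prod h2).comp h1
  have e : resamp a = (Prod.map id fun p : ((V × ℕ) → ℝ × ℝ) × (ℝ × ℝ) =>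
      Function.update p.1 a p.2) ∘ ⇑MeasurableEquiv.prodAssoc := by
    funext p
    unfold resamp
    simp only [Function.comp_apply, MeasurableEquiv.prodAssoc, MeasurableEquiv.coe_mk,
      Equiv.prodAssoc_apply, Prod.map, id]
  rw [e]
  exact h3

/-- change of the coordinate `a` does not affect other observations. -/
theorem Yo_resamp_ne {V : Type*} (a : V × ℕ) (p : Om V × (ℝ × ℝ)) (i : V) (k : ℕ)
    (h : (i, k) ≠ a) : Yo (resamp a p) i k = Yo p.1 i k := by
  classical
  unfold Yo resamp
  simp only [ne_eq, h, not_false_eq_true, Function.update_of_ne]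

theorem Yo_resamp_self {V : Type*} (i : V) (k : ℕ) (p : Om V × (ℝ × ℝ)) :
    Yo (resamp (i, k) p) i k = if p.1.1 i = true then p.2.1 else p.2.2 := by
  unfold Yo resamp
  simp only [Function.update_self]

theorem not_mem_past {V : Type*} (T : V → ℝ) (i : V) (k : ℕ) : (i, k) ∉ past T i k := by
  simp [past]

theorem resamp_mem_iff {V : Type*} (T : V → ℝ) (i : V) (k : ℕ) {D : Set (Om V)}
    (hD : MeasurableSet[Gs T i k] D) (p : Om V × (ℝ × ℝ)) :
    resamp (i, k) p ∈ D ↔ p.1 ∈ D := by
  obtain ⟨D', -, rfl⟩ := hD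
  simp only [Set.mem_preimage]
  have : (fun b : past T i k => Yo (resamp (i, k) p) b.1.1 b.1.2) =
      fun b : past T i k => Yo p.1 b.1.1 b.1.2 := by
    funext b
    exact Yo_resamp_ne _ _ _ _ (fun h => not_mem_past T i k (h ▸ b.2))
  rw [this]

theorem resamp_eq {V : Type*} (T : V → ℝ) (i : V) (k : ℕ) {f : Om V → ℝ}
    (hf : Measurable[Gs T i k] f) (p : Om V × (ℝ × ℝ)) :
    f (resamp (i, k) p) = f p.1 := by
  have := (resamp_mem_iff T i k (hf (measurableSet_singleton (f p.1))) p).2 rfl
  exact this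


theorem measurable_Yo {V : Type*} (i : V) (k : ℕ) : Measurable (fun ω : Om V => Yo ω i k) := by
  unfold Yo
  refine Measurable.ite ?_ (by fun_prop) (by fun_prop)
  exact measurableSet_eq_fun (by fun_prop) measurable_const

theorem measurable_occInd {V : Type*} (i : V) : Measurable (occInd i : Om V → ℝ) := by
  unfold occInd
  refine Measurable.ite ?_ measurable_const measurable_const
  exact measurableSet_eq_fun (by fun_prop) measurable_const

theorem Gs_le {V : Type*} (T : V → ℝ) (i : V) (k : ℕ) :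
    Gs T i k ≤ (inferInstance : MeasurableSpace (Om V)) := by
  refine Measurable.comap_le ?_
  rw [measurable_pi_iff]
  intro b
  exact measurable_Yo _ _

/-- channel kernels -/
noncomputable def K1 (t : Set ℝ) (m : ℝ) : ℝ := (U01' {y | cdfm m y ∈ t}).toReal
noncomputable def K0 (t : Set ℝ) (m : ℝ) : ℝ := (U01 {y | cdfm m y ∈ t}).toReal

theorem measurable_K1 {t : Set ℝ} (ht : MeasurableSet t) : Measurable (K1 t) := by
  have : MeasurableSet {p : ℝ × ℝ | cdfm p.1 p.2 ∈ t} := measurable_cdfm ht
  exact (measurable_measure_prodMk_left this).ennreal_toReal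

theorem measurable_K0 {t : Set ℝ} (ht : MeasurableSet t) : Measurable (K0 t) := by
  have : MeasurableSet {p : ℝ × ℝ | cdfm p.1 p.2 ∈ t} := measurable_cdfm ht
  exact (measurable_measure_prodMk_left this).ennreal_toReal

theorem K1_mem (t : Set ℝ) (m : ℝ) : 0 ≤ K1 t m ∧ K1 t m ≤ 1 :=
  ⟨ENNReal.toReal_nonneg, by unfold K1; exact measureReal_le_one⟩

theorem K0_mem (t : Set ℝ) (m : ℝ) : 0 ≤ K0 t m ∧ K0 t m ≤ 1 :=
  ⟨ENNReal.toReal_nonneg, by unfold K0; exact measureReal_le_one⟩

/-- mixing identity -/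
theorem mix_K {t : Set ℝ} (ht : MeasurableSet t) (m : ℝ) (hm : 0 ≤ m ∧ m ≤ 1) :
    m * K1 t m + (1 - m) * K0 t m = (U01 t).toReal := by
  have h := map_cdf_mix m hm
  have hmeas : Measurable (cdfm m) := by unfold cdfm; fun_prop
  have hB : MeasurableSet {y | cdfm m y ∈ t} := hmeas ht
  have h2 : U01 t = (U01.withDensity fun y => ENNReal.ofReal (1 + m * (2 * y - 1) / 4))
      {y | cdfm m y ∈ t} := by
    conv_lhs => rw [← h]
    exact Measure.map_apply hmeas ht
  have h3 : (U01.withDensity fun y => ENNReal.ofReal (1 + m * (2 * y - 1) / 4))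
      {y | cdfm m y ∈ t} = ENNReal.ofReal m * U01' {y | cdfm m y ∈ t} +
        ENNReal.ofReal (1 - m) * U01 {y | cdfm m y ∈ t} := by
    unfold U01'
    rw [withDensity_apply _ hB, withDensity_apply _ hB, ← lintegral_const_mul _ (by fun_prop),
      ← setLIntegral_one {y | cdfm m y ∈ t}, ← lintegral_const_mul _ (by fun_prop),
      ← lintegral_add_left (by fun_prop)]
    have hae : ∀ᵐ y ∂U01, 0 ≤ y ∧ y ≤ 1 := by
      unfold U01
      exact (ae_restrict_iff' measurableSet_Icc).2 (Eventually.of_forall fun y hy => hy)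
    refine lintegral_congr_ae ((ae_restrict_of_ae hae).mono fun y hy => ?_)
    have hp : 0 ≤ 1 + (2 * y - 1) / 4 := by linarith [hy.1, hy.2]
    change ENNReal.ofReal (1 + m * (2 * y - 1) / 4) = ENNReal.ofReal m * _ + ENNReal.ofReal (1 - m) * 1
    rw [mul_one, ← ENNReal.ofReal_mul hm.1, ← ENNReal.ofReal_add (mul_nonneg hm.1 hp)
      (by linarith [hm.2])]
    congr 1
    ring
  rw [h2, h3, ENNReal.toReal_add, ENNReal.toReal_mul, ENNReal.toReal_mul,
    ENNReal.toReal_ofReal hm.1, ENNReal.toReal_ofReal (by linarith [hm.2])]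
  · rfl
  · exact ENNReal.mul_ne_top ENNReal.ofReal_ne_top (measure_ne_top _ _)
  · exact ENNReal.mul_ne_top ENNReal.ofReal_ne_top (measure_ne_top _ _)


theorem integrable_of_bdd {V : Type*} (ν : Measure (V → Bool)) [IsProbabilityMeasure ν]
    {f : Om V → ℝ} (hf : Measurable f) (C : ℝ) (hC : ∀ ω, |f ω| ≤ C) : Integrable f (PP ν) :=
  haveI : IsProbabilityMeasure (PP ν) := by unfold PP; infer_instance
  Integrable.of_bound hf.aestronglyMeasurable C (Eventually.of_forall fun ω => by
    rw [Real.norm_eq_abs]; exact hC ω)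

instance {V : Type*} (ν : Measure (V → Bool)) [IsProbabilityMeasure ν] :
    IsProbabilityMeasure (PP ν) := by unfold PP; infer_instance

theorem occInd_mem {V : Type*} (i : V) (ω : Om V) : 0 ≤ occInd i ω ∧ occInd i ω ≤ 1 := by
  unfold occInd; split_ifs <;> norm_num

theorem key_innov {V : Type*} (ν : Measure (V → Bool)) [IsProbabilityMeasure ν]
    (T : V → ℝ) (i : V) (k : ℕ)
    (M : Om V → ℝ) (hMm : Measurable[Gs T i k] M) (hM01 : ∀ ω, 0 ≤ M ω ∧ M ω ≤ 1)
    (hM : M =ᵐ[PP ν] (PP ν)[occInd i | Gs T i k])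
    {D : Set (Om V)} (hD : MeasurableSet[Gs T i k] D) {t : Set ℝ} (ht : MeasurableSet t) :
    (PP ν) (D ∩ {ω | cdfm (M ω) (Yo ω i k) ∈ t}) = (PP ν) D * U01 t := by
  have hMm' : Measurable M := hMm.mono (Gs_le T i k) le_rfl
  have hD' : MeasurableSet D := Gs_le T i k _ hD
  have hB : MeasurableSet {ω : Om V | cdfm (M ω) (Yo ω i k) ∈ t} :=
    (measurable_cdfm.comp (hMm'.prodMk (measurable_Yo i k))) ht
  set G : Om V → ℝ := fun ω => occInd i ω * K1 t (M ω) + (1 - occInd i ω) * K0 t (M ω) with hG
  have hGm : Measurable G :=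
    ((measurable_occInd i).mul ((measurable_K1 ht).comp hMm')).add
      ((measurable_const.sub (measurable_occInd i)).mul ((measurable_K0 ht).comp hMm'))
  have hG0 : ∀ ω, 0 ≤ G ω := fun ω => add_nonneg
    (mul_nonneg (occInd_mem i ω).1 (K1_mem t _).1)
    (mul_nonneg (sub_nonneg.2 (occInd_mem i ω).2) (K0_mem t _).1)
  -- step 1
  have h1 : (PP ν) (D ∩ {ω | cdfm (M ω) (Yo ω i k) ∈ t}) = ∫⁻ ω in D, ENNReal.ofReal (G ω) ∂(PP ν) := by
    rw [← (measurePreserving_resamp ν (i, k)).measure_preimage (hD'.inter hB).nullMeasurableSet,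
      Measure.prod_apply ((measurePreserving_resamp ν (i, k)).measurable (hD'.inter hB)),
      ← lintegral_indicator hD']
    refine lintegral_congr fun ω => ?_
    by_cases hω : ω ∈ D
    · rw [Set.indicator_of_mem hω]
      have hset : Prod.mk ω ⁻¹' (resamp (i, k) ⁻¹' (D ∩ {ω | cdfm (M ω) (Yo ω i k) ∈ t})) =
          {z : ℝ × ℝ | cdfm (M ω) (if ω.1 i = true then z.1 else z.2) ∈ t} := by
        ext z
        simp only [Set.mem_preimage, Set.mem_inter_iff, Set.mem_ofPred_eq]
        rw [resamp_mem_iff T i k hD (ω, z), resamp_eq T i k hMm (ω, z), Yo_resamp_self]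
        simp [hω]
      rw [hset]
      by_cases hi : ω.1 i = true
      · have : {z : ℝ × ℝ | cdfm (M ω) (if ω.1 i = true then z.1 else z.2) ∈ t} =
            {y | cdfm (M ω) y ∈ t} ×ˢ Set.univ := by ext z; simp [hi]
        rw [this, Measure.prod_prod, measure_univ, mul_one]
        simp only [hG, occInd, hi, if_true, K1]
        rw [one_mul, sub_self, zero_mul, add_zero, ENNReal.ofReal_toReal (measure_ne_top _ _)]
      · have : {z : ℝ × ℝ | cdfm (M ω) (if ω.1 i = true then z.1 else z.2) ∈ t} =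
            Set.univ ×ˢ {y | cdfm (M ω) y ∈ t} := by ext z; simp [hi]
        rw [this, Measure.prod_prod, measure_univ, one_mul]
        simp only [hG, occInd, hi, K0]
        simp only [Bool.false_eq_true, if_false]
        rw [zero_mul, sub_zero, one_mul, zero_add, ENNReal.ofReal_toReal (measure_ne_top _ _)]
    · rw [Set.indicator_of_notMem hω]
      have hset : Prod.mk ω ⁻¹' (resamp (i, k) ⁻¹' (D ∩ {ω | cdfm (M ω) (Yo ω i k) ∈ t})) = ∅ := by
        ext z
        simp only [Set.mem_preimage, Set.mem_inter_iff, Set.mem_empty_iff_false, iff_false, not_and]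
        intro h
        exact absurd ((resamp_mem_iff T i k hD (ω, z)).1 h) hω
      rw [hset, measure_empty]
  -- step 2
  have hGb : ∀ ω, |G ω| ≤ 1 := by
    intro ω
    rw [abs_of_nonneg (hG0 ω)]
    have a1 := occInd_mem i ω
    have a2 := K1_mem t (M ω)
    have a3 := K0_mem t (M ω)
    simp only [hG]
    nlinarith [mul_nonneg a1.1 (sub_nonneg.2 a2.2), mul_nonneg (sub_nonneg.2 a1.2) (sub_nonneg.2 a3.2)]
  have hGi : Integrable G (PP ν) := integrable_of_bdd ν hGm 1 hGb
  set f : Om V → ℝ := fun ω => K1 t (M ω) - K0 t (M ω) with hf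
  have hfm : Measurable[Gs T i k] f :=
    ((measurable_K1 ht).comp hMm).sub ((measurable_K0 ht).comp hMm)
  have hfm' : Measurable f := hfm.mono (Gs_le T i k) le_rfl
  have hfb : ∀ ω, |f ω| ≤ 1 := fun ω => by
    rw [abs_le]
    have a2 := K1_mem t (M ω)
    have a3 := K0_mem t (M ω)
    simp only [hf]
    constructor <;> linarith [a2.1, a2.2, a3.1, a3.2]
  have hoi : Integrable (occInd i : Om V → ℝ) (PP ν) :=
    integrable_of_bdd ν (measurable_occInd i) 1 fun ω => by
      rw [abs_of_nonneg (occInd_mem i ω).1]; exact (occInd_mem i ω).2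
  have hfoi : Integrable (f * occInd i) (PP ν) :=
    integrable_of_bdd ν (hfm'.mul (measurable_occInd i)) 1 fun ω => by
      rw [Pi.mul_apply, abs_mul, abs_of_nonneg (occInd_mem i ω).1]
      exact mul_le_one₀ (hfb ω) (occInd_mem i ω).1 (occInd_mem i ω).2
  have hpull := condExp_mul_of_stronglyMeasurable_left (m := Gs T i k) (μ := PP ν)
    hfm.stronglyMeasurable hfoi hoi
  have h2 : ∫ ω in D, (f * occInd i) ω ∂(PP ν) = ∫ ω in D, f ω * M ω ∂(PP ν) := by
    rw [← setIntegral_condExp (Gs_le T i k) hfoi hD]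
    refine setIntegral_congr_ae hD' ?_
    filter_upwards [hpull, hM] with ω h1 h2 _
    rw [h1, Pi.mul_apply, h2]
  have hK0i : Integrable (fun ω => K0 t (M ω)) (PP ν) :=
    integrable_of_bdd ν ((measurable_K0 ht).comp hMm') 1 fun ω => by
      rw [abs_of_nonneg (K0_mem t _).1]; exact (K0_mem t _).2
  have hfMi : Integrable (fun ω => f ω * M ω) (PP ν) :=
    integrable_of_bdd ν (hfm'.mul hMm') 1 fun ω => by
      rw [abs_mul, abs_of_nonneg (hM01 ω).1]
      exact mul_le_one₀ (hfb ω) (hM01 ω).1 (hM01 ω).2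
  have h3 : ∫ ω in D, G ω ∂(PP ν) = ((PP ν) D).toReal * (U01 t).toReal := by
    have e1 : G = fun ω => (f * occInd i) ω + K0 t (M ω) := by
      funext ω; simp only [hG, hf, Pi.mul_apply]; ring
    rw [e1, integral_add hfoi.integrableOn hK0i.integrableOn, h2,
      ← integral_add hfMi.integrableOn hK0i.integrableOn]
    have e2 : (fun ω => f ω * M ω + K0 t (M ω)) = fun _ => (U01 t).toReal := by
      funext ω
      rw [← mix_K ht (M ω) (hM01 ω)]
      simp only [hf]
      ring
    rw [e2, setIntegral_const, smul_eq_mul]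
    rfl
  rw [h1, ← ofReal_integral_eq_lintegral_ofReal hGi.integrableOn (Eventually.of_forall hG0), h3,
    ENNReal.ofReal_mul ENNReal.toReal_nonneg, ENNReal.ofReal_toReal (measure_ne_top _ _),
    ENNReal.ofReal_toReal (measure_ne_top _ _)]


theorem past_trans {V : Type*} (T : V → ℝ) (i : V) (k : ℕ) (b : V × ℕ) (hb : b ∈ past T i k) :
    past T b.1 b.2 ⊆ past T i k := by
  intro c hc
  simp only [past, Set.mem_ofPred_eq] at hb hc ⊢
  rcases hb with hb | ⟨hb, hb'⟩ <;> rcases hc with hc | ⟨hc, hc'⟩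
  · left; omega
  · left; omega
  · left; omega
  · right; exact ⟨by omega, hc'.trans hb'⟩

theorem measurable_Yo_Gs {V : Type*} (T : V → ℝ) (i : V) (k : ℕ) (b : V × ℕ)
    (hb : b ∈ past T i k) : Measurable[Gs T i k] (fun ω : Om V => Yo ω b.1 b.2) := by
  have h : Measurable[Gs T i k] (fun (ω : Om V) (b : past T i k) => Yo ω b.1.1 b.1.2) :=
    comap_measurable _
  exact (measurable_pi_apply (⟨b, hb⟩ : past T i k)).comp h

theorem Gs_mono {V : Type*} (T : V → ℝ) (i : V) (k : ℕ) (b : V × ℕ)
    (hb : b ∈ past T i k) : Gs T b.1 b.2 ≤ Gs T i k := by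
  have h : @Measurable _ _ (Gs T i k) _
      (fun (ω : Om V) (c : past T b.1 b.2) => Yo ω c.1.1 c.1.2) :=
    @measurable_pi_lambda _ _ _ (Gs T i k) _ _
      (fun c => measurable_Yo_Gs T i k c.1 (past_trans T i k b hb c.2))
  exact h.comap_le

theorem law_innov_aux {V : Type*} (ν : Measure (V → Bool)) [IsProbabilityMeasure ν]
    (T : V → ℝ) (hT : Function.Injective T) (M : V → ℕ → Om V → ℝ)
    (hMm : ∀ i k, Measurable[Gs T i k] (M i k)) (hM01 : ∀ i k ω, 0 ≤ M i k ω ∧ M i k ω ≤ 1)
    (hM : ∀ i k, M i k =ᵐ[PP ν] (PP ν)[occInd i | Gs T i k]) :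
    (PP ν).map (fun ω (a : V × ℕ) => cdfm (M a.1 a.2 ω) (Yo ω a.1 a.2)) =
      Measure.infinitePi (fun _ : V × ℕ => U01) := by
  classical
  have hUm : ∀ a : V × ℕ, Measurable (fun ω : Om V => cdfm (M a.1 a.2 ω) (Yo ω a.1 a.2)) :=
    fun a => measurable_cdfm.comp (((hMm a.1 a.2).mono (Gs_le T _ _) le_rfl).prodMk
      (measurable_Yo _ _))
  refine Measure.eq_infinitePi _ fun s t ht => ?_
  rw [Measure.map_apply (measurable_pi_iff.2 hUm)
    (MeasurableSet.pi s.countable_toSet fun i _ => ht i)]
  induction s using Finset.induction_on_max_value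
    (fun a : V × ℕ => (toLex (a.2, T a.1) : ℕ ×ₗ ℝ)) with
  | empty => simp
  | insert a s ha hmax ih =>
    have hpast : ∀ b ∈ s, b ∈ past T a.1 a.2 := by
      intro b hb
      have h1 := hmax b hb
      rw [Prod.Lex.toLex_le_toLex] at h1
      rcases h1 with h1 | ⟨h1, h2⟩
      · exact Or.inl h1
      · refine Or.inr ⟨h1, lt_of_le_of_ne h2 fun h3 => ha ?_⟩
        have h4 := hT h3
        have : a = b := Prod.ext h4.symm h1.symm
        rwa [this]
    have hset : (fun (ω : Om V) (a : V × ℕ) => cdfm (M a.1 a.2 ω) (Yo ω a.1 a.2)) ⁻¹'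
        (Set.pi (insert a s : Finset (V × ℕ)) t) =
        ((fun (ω : Om V) (a : V × ℕ) => cdfm (M a.1 a.2 ω) (Yo ω a.1 a.2)) ⁻¹' (Set.pi s t)) ∩
          {ω | cdfm (M a.1 a.2 ω) (Yo ω a.1 a.2) ∈ t a} := by
      ext ω
      simp only [Finset.coe_insert, Set.mem_preimage, Set.mem_pi, Set.mem_insert_iff,
        Finset.mem_coe, Set.mem_inter_iff, Set.mem_ofPred_eq]
      constructor
      · intro h
        exact ⟨fun i hi => h i (Or.inr hi), h a (Or.inl rfl)⟩
      · rintro ⟨h1, h2⟩ i (rfl | hi)
        · exact h2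
        · exact h1 i hi
    have hD : MeasurableSet[Gs T a.1 a.2]
        ((fun (ω : Om V) (a : V × ℕ) => cdfm (M a.1 a.2 ω) (Yo ω a.1 a.2)) ⁻¹' (Set.pi s t)) := by
      have : ((fun (ω : Om V) (a : V × ℕ) => cdfm (M a.1 a.2 ω) (Yo ω a.1 a.2)) ⁻¹' (Set.pi s t)) =
          ⋂ b ∈ s, {ω | cdfm (M b.1 b.2 ω) (Yo ω b.1 b.2) ∈ t b} := by
        ext ω; simp [Set.mem_pi]
      rw [this]
      refine MeasurableSet.biInter s.countable_toSet fun b hb => ?_
      have hMb : Measurable[Gs T a.1 a.2] (M b.1 b.2) :=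
        (hMm b.1 b.2).mono (Gs_mono T _ _ b (hpast b hb)) le_rfl
      exact (measurable_cdfm.comp (hMb.prodMk (measurable_Yo_Gs T _ _ b (hpast b hb)))) (ht b)
    rw [hset, key_innov ν T a.1 a.2 (M a.1 a.2) (hMm _ _) (hM01 _ _) (hM _ _) hD (ht a), ih,
      Finset.prod_insert ha, mul_comm]

theorem law_innov {V : Type*} [Countable V] (ν : Measure (V → Bool)) [IsProbabilityMeasure ν]
    (T : V → ℝ) (hT : Function.Injective T) (M : V → ℕ → Om V → ℝ)
    (hM : ∀ i k, M i k =ᵐ[PP ν] (PP ν)[occInd i | Gs T i k]) :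
    (PP ν).map (fun ω (i : V) (k : ℕ) =>
        Yo ω i k - 1 / 4 * M i k ω * (Yo ω i k * (1 - Yo ω i k))) =
      Measure.infinitePi (fun _ : V => Measure.infinitePi fun _ : ℕ => U01) := by
  set M' : V → ℕ → Om V → ℝ := fun i k ω =>
    max 0 (min 1 (((PP ν)[occInd i | Gs T i k]) ω)) with hM'
  have hoi : ∀ i, Integrable (occInd i : Om V → ℝ) (PP ν) := fun i =>
    integrable_of_bdd ν (measurable_occInd i) 1 fun ω => by
      rw [abs_of_nonneg (occInd_mem i ω).1]; exact (occInd_mem i ω).2
  have hM'm : ∀ i k, Measurable[Gs T i k] (M' i k) := fun i k =>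
    Measurable.max (@measurable_const _ _ _ (Gs T i k) _)
      (Measurable.min (@measurable_const _ _ _ (Gs T i k) _) stronglyMeasurable_condExp.measurable)
  have hM'01 : ∀ i k ω, 0 ≤ M' i k ω ∧ M' i k ω ≤ 1 := fun i k ω =>
    ⟨le_max_left _ _, max_le zero_le_one (min_le_left _ _)⟩
  have hM'ae : ∀ i k, M' i k =ᵐ[PP ν] (PP ν)[occInd i | Gs T i k] := fun i k => by
    have h1 : 0 ≤ᵐ[PP ν] (PP ν)[occInd i | Gs T i k] :=
      condExp_nonneg (Eventually.of_forall fun ω => (occInd_mem i ω).1)
    have h2 : (PP ν)[occInd i | Gs T i k] ≤ᵐ[PP ν] (PP ν)[fun _ => (1 : ℝ) | Gs T i k] :=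
      condExp_mono (hoi i) (integrable_const _) (Eventually.of_forall fun ω => (occInd_mem i ω).2)
    rw [condExp_const (Gs_le T i k)] at h2
    filter_upwards [h1, h2] with ω h1 h2
    simp only [hM']
    rw [min_eq_right h2]
    exact max_eq_right h1
  have key := law_innov_aux ν T hT M' hM'm hM'01 hM'ae
  have hcong : (fun ω (i : V) (k : ℕ) =>
        Yo ω i k - 1 / 4 * M i k ω * (Yo ω i k * (1 - Yo ω i k))) =ᵐ[PP ν]
      (MeasurableEquiv.curry V ℕ ℝ) ∘
        (fun ω (a : V × ℕ) => cdfm (M' a.1 a.2 ω) (Yo ω a.1 a.2)) := by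
    have : ∀ᵐ ω ∂(PP ν), ∀ i k, M i k ω = M' i k ω := by
      rw [ae_all_iff]; intro i
      rw [ae_all_iff]; intro k
      filter_upwards [hM i k, hM'ae i k] with ω h1 h2
      rw [h1, h2]
    filter_upwards [this] with ω hω
    funext i k
    simp only [Function.comp_apply, hω i k]
    rfl
  have hUm : ∀ a : V × ℕ, Measurable (fun ω : Om V => cdfm (M' a.1 a.2 ω) (Yo ω a.1 a.2)) :=
    fun a => measurable_cdfm.comp (((hM'm a.1 a.2).mono (Gs_le T _ _) le_rfl).prodMk
      (measurable_Yo _ _))
  rw [Measure.map_congr hcong, ← Measure.map_map (MeasurableEquiv.measurable _)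
    (measurable_pi_iff.2 hUm), key]
  exact Measure.infinitePi_map_curry (fun (_ : V) (_ : ℕ) => U01)

end Crest.Agent.R168
end

-- ▼ part R168/Recov
section

/-! T4a: the configuration is recovered from the observations (SLLN). -/

set_option autoImplicit false

namespace Crest.Agent.R168

open MeasureTheory ProbabilityTheory Filter Topology

section basics

theorem u01_ae_mem : ∀ᵐ y ∂U01, y ∈ Set.Icc (0 : ℝ) 1 := by
  unfold U01
  exact ae_restrict_mem measurableSet_Icc

theorem u01'_ac : U01' ≪ U01 := by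
  unfold U01'
  exact withDensity_absolutelyContinuous _ _

theorem u01'_ae_mem : ∀ᵐ y ∂U01', y ∈ Set.Icc (0 : ℝ) 1 :=
  u01'_ac.ae_le u01_ae_mem

theorem integral_u01 : ∫ y, y ∂U01 = 1 / 2 := by
  unfold U01
  rw [integral_Icc_eq_integral_Ioc, ← intervalIntegral.integral_of_le zero_le_one]
  simp

theorem integral_u01' : ∫ y, y ∂U01' = 1 / 2 + 1 / 24 := by
  unfold U01'
  rw [integral_withDensity_eq_integral_toReal_smul (by fun_prop) (by simp)]
  have : ∀ᵐ y ∂U01, (ENNReal.ofReal (1 + (2 * y - 1) / 4)).toReal • y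
      = (1 + (2 * y - 1) / 4) * y := by
    filter_upwards [u01_ae_mem] with y hy
    rw [ENNReal.toReal_ofReal (by nlinarith [hy.1]), smul_eq_mul]
  rw [integral_congr_ae this]
  unfold U01
  rw [integral_Icc_eq_integral_Ioc, ← intervalIntegral.integral_of_le zero_le_one]
  have h2 : ∀ y : ℝ, (1 + (2 * y - 1) / 4) * y = (3 / 4) * y + (1 / 2) * y ^ 2 := by
    intro y; ring
  simp_rw [h2]
  rw [intervalIntegral.integral_add (Continuous.intervalIntegrable (by fun_prop) _ _)
      (Continuous.intervalIntegrable (by fun_prop) _ _),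
    intervalIntegral.integral_const_mul, intervalIntegral.integral_const_mul]
  simp
  norm_num

theorem integrable_u01 : Integrable (fun y : ℝ => y) U01 := by
  unfold U01
  exact (continuous_id.continuousOn).integrableOn_Icc

theorem integrable_u01' : Integrable (fun y : ℝ => y) U01' := by
  refine Integrable.of_bound (C := 1) (by fun_prop) ?_
  filter_upwards [u01'_ae_mem] with y hy
  rw [Real.norm_eq_abs, abs_le]
  exact ⟨by linarith [hy.1], hy.2⟩

end basics

theorem Yo_mem_Icc {V : Type*} [Countable V] (ν : Measure (V → Bool)) [IsProbabilityMeasure ν] :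
    ∀ᵐ ω ∂(PP ν), ∀ i k, 0 ≤ Yo ω i k ∧ Yo ω i k ≤ 1 := by
  rw [ae_all_iff]
  intro i
  rw [ae_all_iff]
  intro k
  have hmp : MeasurePreserving (fun ω : Om V => ω.2 (i, k)) (PP ν) (U01'.prod U01) := by
    unfold PP
    exact (measurePreserving_eval_infinitePi (fun _ : V × ℕ => U01'.prod U01) (i, k)).comp
      measurePreserving_snd
  have h1 : ∀ᵐ p ∂(U01'.prod U01), p.1 ∈ Set.Icc (0 : ℝ) 1 :=
    (measurePreserving_fst (μ := U01') (ν := U01)).quasiMeasurePreserving.ae u01'_ae_mem
  have h2 : ∀ᵐ p ∂(U01'.prod U01), p.2 ∈ Set.Icc (0 : ℝ) 1 :=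
    (measurePreserving_snd (μ := U01') (ν := U01)).quasiMeasurePreserving.ae u01_ae_mem
  filter_upwards [hmp.quasiMeasurePreserving.ae h1, hmp.quasiMeasurePreserving.ae h2] with ω hω1 hω2
  unfold Yo
  split_ifs
  · exact hω1
  · exact hω2

/-- strong law for a coordinate function of the i.i.d. pairs. -/
theorem slln_coord {V : Type*} [Countable V] (ν : Measure (V → Bool)) [IsProbabilityMeasure ν]
    (f : ℝ × ℝ → ℝ) (hf : Measurable f) (hint : Integrable f (U01'.prod U01)) (i : V) :
    ∀ᵐ ω ∂(PP ν), Tendsto (fun n : ℕ => (∑ l ∈ Finset.range n, f (ω.2 (i, l))) / n) atTop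
      (𝓝 (∫ p, f p ∂(U01'.prod U01))) := by
  set Q : Measure (V × ℕ → ℝ × ℝ) := Measure.infinitePi fun _ : V × ℕ => U01'.prod U01 with hQ
  have hind : iIndepFun (fun (b : V × ℕ) (q : V × ℕ → ℝ × ℝ) => f (q b)) Q :=
    iIndepFun_infinitePi (P := fun _ : V × ℕ => U01'.prod U01) (X := fun _ => f) (fun _ => hf)
  have hmp : ∀ b : V × ℕ, MeasurePreserving (fun q : V × ℕ → ℝ × ℝ => q b) Q (U01'.prod U01) :=
    fun b => measurePreserving_eval_infinitePi (fun _ : V × ℕ => U01'.prod U01) b
  have hlaw : ∀ᵐ q ∂Q, Tendsto (fun n : ℕ => (∑ l ∈ Finset.range n, f (q (i, l))) / n) atTop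
      (𝓝 (∫ q : V × ℕ → ℝ × ℝ, f (q (i, 0)) ∂Q)) := by
    refine strong_law_ae_real (fun l (q : V × ℕ → ℝ × ℝ) => f (q (i, l))) ?_ ?_ ?_
    · exact (hmp (i, 0)).integrable_comp_of_integrable hint
    · intro l m hlm
      exact hind.indepFun (i := (i, l)) (j := (i, m)) (by simpa using hlm)
    · intro l
      refine ⟨?_, ?_, ?_⟩
      · exact (hf.comp (measurable_pi_apply _)).aemeasurable
      · exact (hf.comp (measurable_pi_apply _)).aemeasurable
      · have e1 : ∀ b : V × ℕ, Q.map (fun q : V × ℕ → ℝ × ℝ => f (q b))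
            = (U01'.prod U01).map f := by
          intro b
          rw [← (hmp b).map_eq, Measure.map_map hf (hmp b).measurable]
          rfl
        rw [e1, e1]
  have hint2 : ∫ q : V × ℕ → ℝ × ℝ, f (q (i, 0)) ∂Q = ∫ p, f p ∂(U01'.prod U01) := by
    rw [← (hmp (i, 0)).map_eq, integral_map (hmp (i, 0)).measurable.aemeasurable
      hf.aestronglyMeasurable]
  rw [hint2] at hlaw
  have : MeasurePreserving (Prod.snd : Om V → (V × ℕ → ℝ × ℝ)) (PP ν) Q := measurePreserving_snd
  exact this.quasiMeasurePreserving.ae hlaw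

theorem recov_Yo {V : Type*} [Countable V] (ν : Measure (V → Bool)) [IsProbabilityMeasure ν] :
    ∀ᵐ ω ∂(PP ν), recov (Yo ω) = ω.1 := by
  have hi1 : Integrable (fun p : ℝ × ℝ => p.1) (U01'.prod U01) :=
    (measurePreserving_fst (μ := U01') (ν := U01)).integrable_comp_of_integrable integrable_u01'
  have hi2 : Integrable (fun p : ℝ × ℝ => p.2) (U01'.prod U01) :=
    (measurePreserving_snd (μ := U01') (ν := U01)).integrable_comp_of_integrable integrable_u01
  have e1 : ∫ p : ℝ × ℝ, p.1 ∂(U01'.prod U01) = 1 / 2 + 1 / 24 := by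
    have h := integral_map (μ := U01'.prod U01) (φ := Prod.fst) measurable_fst.aemeasurable
      (f := fun y : ℝ => y) (by fun_prop)
    rw [(measurePreserving_fst (μ := U01') (ν := U01)).map_eq, integral_u01'] at h
    exact h.symm
  have e2 : ∫ p : ℝ × ℝ, p.2 ∂(U01'.prod U01) = 1 / 2 := by
    have h := integral_map (μ := U01'.prod U01) (φ := Prod.snd) measurable_snd.aemeasurable
      (f := fun y : ℝ => y) (by fun_prop)
    rw [(measurePreserving_snd (μ := U01') (ν := U01)).map_eq, integral_u01] at h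
    exact h.symm
  have h1 : ∀ᵐ ω ∂(PP ν), ∀ i : V, Tendsto
      (fun n : ℕ => (∑ l ∈ Finset.range n, (ω.2 (i, l)).1) / (n : ℝ)) atTop
        (𝓝 (1 / 2 + 1 / 24)) := by
    rw [ae_all_iff]
    intro i
    have := slln_coord ν (fun p => p.1) measurable_fst hi1 i
    rwa [e1] at this
  have h2 : ∀ᵐ ω ∂(PP ν), ∀ i : V, Tendsto
      (fun n : ℕ => (∑ l ∈ Finset.range n, (ω.2 (i, l)).2) / (n : ℝ)) atTop (𝓝 (1 / 2)) := by
    rw [ae_all_iff]
    intro i
    have := slln_coord ν (fun p => p.2) measurable_snd hi2 i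
    rwa [e2] at this
  filter_upwards [h1, h2] with ω hω1 hω2
  funext i
  unfold recov
  by_cases hb : ω.1 i = true
  · have : ∀ l, Yo ω i l = (ω.2 (i, l)).1 := fun l => by unfold Yo; rw [if_pos hb]
    simp_rw [this]
    rw [(hω1 i).limsup_eq, hb]
    norm_num
  · have : ∀ l, Yo ω i l = (ω.2 (i, l)).2 := fun l => by unfold Yo; rw [if_neg hb]
    simp_rw [this]
    rw [(hω2 i).limsup_eq]
    simp only [Bool.not_eq_true] at hb
    rw [hb]
    norm_num

theorem u01_singleton (x : ℝ) : U01 {x} = 0 := by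
  unfold U01
  exact le_antisymm ((Measure.restrict_apply_le _ _).trans (by simp)) zero_le

/-- i.i.d. uniform labels are a.s. distinct. -/
theorem ae_injective {V : Type*} [Countable V] :
    ∀ᵐ T ∂(Measure.infinitePi fun _ : V => U01), Function.Injective T := by
  have h : ∀ᵐ T ∂(Measure.infinitePi fun _ : V => U01), ∀ i j : V, i ≠ j → T i ≠ T j := by
    rw [ae_all_iff]
    intro i
    rw [ae_all_iff]
    intro j
    by_cases hij : i = j
    · simp [hij]
    have hmap := Measure.infinitePi_map_eval_prod (P := fun _ : V => U01) hij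
    have hmeas : Measurable (fun T : V → ℝ => (T i, T j)) := by fun_prop
    have hmp : MeasurePreserving (fun T : V → ℝ => (T i, T j))
        (Measure.infinitePi fun _ : V => U01) (U01.prod U01) := ⟨hmeas, hmap⟩
    have hdiag : ∀ᵐ p ∂(U01.prod U01), p.1 ≠ p.2 := by
      have hms : MeasurableSet {p : ℝ × ℝ | p.1 = p.2} := measurableSet_eq_fun measurable_fst
        measurable_snd
      rw [ae_iff]
      have : {a : ℝ × ℝ | ¬a.1 ≠ a.2} = {p : ℝ × ℝ | p.1 = p.2} := by ext p; simp
      rw [this, Measure.measure_prod_null hms]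
      filter_upwards with x
      have : Prod.mk x ⁻¹' {p : ℝ × ℝ | p.1 = p.2} = {x} := by
        ext y; simp [eq_comm]
      rw [this, u01_singleton]
      rfl
    filter_upwards [hmp.quasiMeasurePreserving.ae hdiag] with T hT _ using hT
  filter_upwards [h] with T hT i j hij
  by_contra hne
  exact hT i j hne hij

/-- re-bundling of labels. -/
theorem map_zip_infinitePi {V : Type*} [Countable V] :
    ((Measure.infinitePi fun _ : V => U01).prod
      (Measure.infinitePi fun _ : V => Measure.infinitePi fun _ : ℕ => U01)).map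
      (fun p (i : V) => (p.1 i, p.2 i)) = Measure.infinitePi fun _ : V => lab := by
  set A : Measure (V → ℝ) := Measure.infinitePi fun _ : V => U01 with hA
  set B : Measure (V → ℕ → ℝ) :=
    Measure.infinitePi fun _ : V => Measure.infinitePi fun _ : ℕ => U01 with hB
  have hzip : Measurable (fun (p : (V → ℝ) × (V → ℕ → ℝ)) (i : V) => (p.1 i, p.2 i)) := by
    fun_prop
  refine IsProjectiveLimit.unique (P := fun I : Finset V => Measure.pi fun _ : I => lab) ?_
    (Measure.isProjectiveLimit_infinitePi (fun _ : V => lab))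
  intro I
  rw [Measure.map_map (Finset.measurable_restrict I) hzip]
  symm
  refine Measure.pi_eq_generateFrom (C := fun _ => Set.image2 (· ×ˢ ·)
    {s : Set ℝ | MeasurableSet s} {t : Set (ℕ → ℝ) | MeasurableSet t}) ?_ ?_ ?_ ?_
  · intro _
    exact generateFrom_prod
  · intro _
    exact isPiSystem_prod
  · intro _
    refine ⟨fun _ => Set.univ, ?_, ?_, ?_⟩
    · intro _
      exact ⟨Set.univ, (MeasurableSet.univ : MeasurableSet (Set.univ : Set ℝ)), Set.univ,
        (MeasurableSet.univ : MeasurableSet (Set.univ : Set (ℕ → ℝ))), by simp⟩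
    · intro _
      exact measure_lt_top _ _
    · exact Set.iUnion_const _
  · intro s hs
    choose a ha' b hb' hab using hs
    have ha : ∀ i, MeasurableSet (a i) := ha'
    have hb : ∀ i, MeasurableSet (b i) := hb'
    have e : (I.restrict ∘ fun (p : (V → ℝ) × (V → ℕ → ℝ)) (i : V) => (p.1 i, p.2 i)) ⁻¹'
        (Set.univ.pi s) = ((I.restrict : (V → ℝ) → (I → ℝ)) ⁻¹' (Set.univ.pi a)) ×ˢ
          ((I.restrict : (V → ℕ → ℝ) → (I → ℕ → ℝ)) ⁻¹' (Set.univ.pi b)) := by
      ext p
      simp only [Set.mem_preimage, Function.comp_apply, Set.mem_univ_pi, Set.mem_prod,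
        Finset.restrict]
      constructor
      · intro h
        refine ⟨fun i => ?_, fun i => ?_⟩
        · have := h i
          rw [← hab i] at this
          exact this.1
        · have := h i
          rw [← hab i] at this
          exact this.2
      · intro h i
        rw [← hab i]
        exact ⟨h.1 i, h.2 i⟩
    have hms : MeasurableSet (Set.univ.pi s) := by
      refine MeasurableSet.univ_pi fun i => ?_
      rw [← hab i]
      exact (ha i).prod (hb i)
    rw [Measure.map_apply ((Finset.measurable_restrict I).comp hzip) hms, e, Measure.prod_prod,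
      ← Measure.map_apply (Finset.measurable_restrict I) (MeasurableSet.univ_pi ha),
      ← Measure.map_apply (Finset.measurable_restrict I) (MeasurableSet.univ_pi hb),
      hA, hB, Measure.infinitePi_map_restrict, Measure.infinitePi_map_restrict,
      Measure.pi_pi, Measure.pi_pi, ← Finset.prod_mul_distrib]
    refine Finset.prod_congr rfl fun i _ => ?_
    rw [← hab i]
    unfold lab
    rw [Measure.prod_prod]

end Crest.Agent.R168
end

-- ▼ part R168/GT
section

/-! T4: the general theorem. -/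

set_option autoImplicit false

namespace Crest.Agent.R168

open MeasureTheory ProbabilityTheory Filter Topology

theorem cyl_nonneg_gt {V : Type*} (ν : Measure (V → Bool)) (F S : Finset V) : 0 ≤ cyl ν F S :=
  ENNReal.toReal_nonneg

theorem Zo_nonneg_gt {V : Type*} (c : Finset V → Finset V → ℝ) (hc : ∀ F S, 0 ≤ c F S)
    (F : Finset V) (i : V) (h : V → ℝ) : 0 ≤ Zo c F i h := by
  classical
  unfold Zo
  refine Finset.sum_nonneg fun S _ => ?_
  split_ifs
  · exact mul_nonneg (hc _ _) (Real.exp_pos _).le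
  · exact le_rfl

theorem Zo_le_Zw_gt {V : Type*} (c : Finset V → Finset V → ℝ) (hc : ∀ F S, 0 ≤ c F S)
    (F : Finset V) (i : V) (h : V → ℝ) : Zo c F i h ≤ Zw c F h := by
  classical
  unfold Zo Zw
  refine Finset.sum_le_sum fun S _ => ?_
  split_ifs
  · exact le_rfl
  · exact mul_nonneg (hc _ _) (Real.exp_pos _).le

theorem occ_mem_gt {V : Type*} (c : Finset V → Finset V → ℝ) (hc : ∀ F S, 0 ≤ c F S)
    (F : Finset V) (i : V) (h : V → ℝ) : 0 ≤ occ c F i h ∧ occ c F i h ≤ 1 := by
  have h1 := Zo_nonneg_gt c hc F i h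
  have h2 := Zo_le_Zw_gt c hc F i h
  exact ⟨div_nonneg h1 (h1.trans h2), div_le_one_of_le₀ h2 (h1.trans h2)⟩

theorem measurable_occ_gt {V : Type*} (c : Finset V → Finset V → ℝ)
    (F : Finset V) (i : V) : Measurable (fun h : V → ℝ => occ c F i h) := by
  classical
  unfold occ Zo Zw
  refine Measurable.div (Finset.measurable_sum _ fun S _ => ?_)
    (Finset.measurable_sum _ fun S _ => ?_)
  · split_ifs
    · exact (Real.measurable_exp.comp (Finset.measurable_sum _ fun j _ =>
        measurable_pi_apply j)).const_mul _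
    · exact measurable_const
  · exact (Real.measurable_exp.comp (Finset.measurable_sum _ fun j _ =>
        measurable_pi_apply j)).const_mul _

/-- General theorem: property (L) implies that `ν` is the law of `Xi` under i.i.d. labels. -/
theorem GT {V : Type*} [Countable V] (ν : Measure (V → Bool)) [IsProbabilityMeasure ν]
    (hL : LipOcc ν 2)
    (E : V → ℕ → Finset V) (hmono : ∀ i, Monotone (E i)) (hself : ∀ i n, i ∈ E i n)
    (hcov : ∀ i j, ∃ n, j ∈ E i n) :
    (Measure.infinitePi (fun _ : V => lab)).map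
      (Xi (fun i n h => occ (cyl ν) (E i n) i h)) = ν := by
  classical
  set P : V → ℕ → (V → ℝ) → ℝ := fun i n h => occ (cyl ν) (E i n) i h with hP
  have hP01 : ∀ i n h, 0 ≤ P i n h ∧ P i n h ≤ 1 := fun i n h =>
    occ_mem_gt _ (cyl_nonneg_gt ν) _ _ _
  have hPL : ∀ i n (h h' : V → ℝ) (s : ℝ), (∀ j, |h j - h' j| ≤ s) →
      |P i n h - P i n h'| ≤ 2 * s := fun i n h h' s hs =>
    hL (E i n) i (hself i n) h h' s fun j _ => hs j
  have hPm : ∀ i n, Measurable (P i n) := fun i n => measurable_occ_gt _ _ _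
  -- the innovations
  set Uf : (V → ℝ) → Om V → (V → ℕ → ℝ) := fun T ω i k =>
    Yo ω i k - 1 / 4 * pbar P T (Yo ω) i k * (Yo ω i k * (1 - Yo ω i k)) with hUf
  have hlaw : ∀ T : V → ℝ, Function.Injective T → (PP ν).map (Uf T) =
      Measure.infinitePi (fun _ : V => Measure.infinitePi fun _ : ℕ => U01) := by
    intro T hT
    refine law_innov ν T hT (fun i k ω => pbar P T (Yo ω) i k) fun i k => ?_
    filter_upwards [tendsto_occ ν T (E i) (hmono i) i (hself i) (hcov i) k] with ω hω
    exact hω.limsup_eq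
  -- joint measurability
  have hYm : Measurable (fun q : (V → ℝ) × Om V => fun i k => Yo q.2 i k) :=
    measurable_pi_lambda _ fun i => measurable_pi_lambda _ fun k =>
      (measurable_Yo i k).comp measurable_snd
  have hfield : ∀ i k, Measurable (fun q : (V → ℝ) × Om V => field q.1 (Yo q.2) i k) := by
    intro i k
    refine measurable_pi_lambda _ fun j => ?_
    unfold field
    refine Measurable.add (Finset.measurable_sum _ fun l _ => ?_) (Measurable.ite ?_ ?_ ?_)
    · exact measurable_gfun.comp ((measurable_Yo j l).comp measurable_snd)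
    · exact measurableSet_lt ((measurable_pi_apply j).comp measurable_fst)
        ((measurable_pi_apply i).comp measurable_fst)
    · exact measurable_gfun.comp ((measurable_Yo j k).comp measurable_snd)
    · exact measurable_const
  have hpbar : ∀ i k, Measurable (fun q : (V → ℝ) × Om V => pbar P q.1 (Yo q.2) i k) := by
    intro i k
    unfold pbar
    exact Measurable.limsup fun n => (hPm i n).comp (hfield i k)
  have hUm : Measurable (Function.uncurry Uf) := by
    refine measurable_pi_lambda _ fun i => measurable_pi_lambda _ fun k => ?_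
    have hY : Measurable (fun q : (V → ℝ) × Om V => Yo q.2 i k) :=
      (measurable_Yo i k).comp measurable_snd
    have hfin : Measurable (fun q : (V → ℝ) × Om V => Yo q.2 i k -
        1 / 4 * pbar P q.1 (Yo q.2) i k * (Yo q.2 i k * (1 - Yo q.2 i k))) :=
      Measurable.sub hY (Measurable.mul (Measurable.const_mul (hpbar i k) _)
        (Measurable.mul hY (Measurable.sub measurable_const hY)))
    exact hfin
  -- skew product
  have hskew : MeasurePreserving (fun p : (V → ℝ) × Om V => (p.1, Uf p.1 p.2))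
      ((Measure.infinitePi fun _ : V => U01).prod (PP ν))
      ((Measure.infinitePi fun _ : V => U01).prod
        (Measure.infinitePi fun _ : V => Measure.infinitePi fun _ : ℕ => U01)) := by
    refine (MeasurePreserving.id _).skew_product hUm ?_
    filter_upwards [ae_injective (V := V)] with T hT
    exact hlaw T hT
  have hXi : Measurable (Xi P) := by
    have h : Measurable (fun q : Unit × (V → ℝ × (ℕ → ℝ)) => Xi P q.2) :=
      measurable_Xi (α := Unit) (V := V) (fun _ => P) (fun i n => (hPm i n).comp measurable_snd)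
    have h2 : Measurable (fun w : V → ℝ × (ℕ → ℝ) => (((), w) : Unit × (V → ℝ × (ℕ → ℝ)))) :=
      measurable_const.prodMk measurable_id
    have h3 := Measurable.comp h h2
    have h4 : ((fun q : Unit × (V → ℝ × (ℕ → ℝ)) => Xi P q.2) ∘
      (fun w : V → ℝ × (ℕ → ℝ) => (((), w) : Unit × (V → ℝ × (ℕ → ℝ))))) = Xi P := rfl
    rwa [h4] at h3
  have hzip : Measurable (fun p : (V → ℝ) × (V → ℕ → ℝ) => fun i : V => (p.1 i, p.2 i)) := by
    fun_prop
  rw [← map_zip_infinitePi, Measure.map_map hXi hzip, ← hskew.map_eq,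
    Measure.map_map (hXi.comp hzip) hskew.measurable]
  have hae : ((Xi P ∘ fun p : (V → ℝ) × (V → ℕ → ℝ) => fun i : V => (p.1 i, p.2 i)) ∘
      fun p : (V → ℝ) × Om V => (p.1, Uf p.1 p.2))
      =ᵐ[(Measure.infinitePi fun _ : V => U01).prod (PP ν)] fun p => p.2.1 := by
    have h1 : ∀ᵐ ω ∂(PP ν), (∀ i k, 0 ≤ Yo ω i k ∧ Yo ω i k ≤ 1) ∧ recov (Yo ω) = ω.1 :=
      (Yo_mem_Icc ν).and (recov_Yo ν)
    have h2 := (Measure.quasiMeasurePreserving_snd
      (μ := Measure.infinitePi fun _ : V => U01) (ν := PP ν)).ae h1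
    filter_upwards [h2] with p hp
    simp only [Function.comp_apply, Xi]
    have : Theta P p.1 (Uf p.1 p.2) = Yo p.2 := by
      refine Theta_eq_of_fixed P hP01 hPL p.1 (Uf p.1 p.2) (Yo p.2) hp.1 fun i k => ?_
      simp only [hUf]
      ring
    exact (congrArg recov this).trans hp.2
  rw [Measure.map_congr hae]
  have h3 : (fun p : (V → ℝ) × Om V => p.2.1) = Prod.fst ∘ Prod.snd := rfl
  rw [h3, ← Measure.map_map measurable_fst measurable_snd, Measure.map_snd_prod, measure_univ,
    one_smul]
  unfold PP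
  rw [Measure.map_fst_prod, measure_univ, one_smul]

end Crest.Agent.R168
end

-- ▼ part R168/Final0255

/-! T6: assembly of S0255 from `GT`, `lipOcc_of_stronglyRayleigh`, `Xi_comp`, `measurable_Xi`.
Exhaustions `E i n = i • K n` with `K n ↑ Γ`, `1 ∈ K n`. -/

set_option autoImplicit false

namespace Crest.Agent.R168

open MeasureTheory ProbabilityTheory Filter Topology

/-- a decoding of one uniform label into countably many. -/
theorem exists_decode {Y : Type*} [Nonempty Y] [MeasurableSpace Y] [StandardBorelSpace Y]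
    (μ : Measure Y) [IsProbabilityMeasure μ] (V : Type*) [Countable V] :
    ∃ dec : unitInterval → Y, Measurable dec ∧
      (Crest.ProbabilityR.Labels.labelMeasure V).map (fun x v => dec (x v)) =
        Measure.infinitePi (fun _ : V => μ) := by
  obtain ⟨f, hf, hmap⟩ := MeasureTheory.Measure.exists_measurable_map_eq μ
  refine ⟨f, hf, ?_⟩
  unfold Crest.ProbabilityR.Labels.labelMeasure
  rw [Measure.infinitePi_map_pi _ (fun _ => hf), hmap]

section aux

variable {V : Type*}

theorem measurable_Zw [Countable V] (c : Finset V → Finset V → ℝ) (F : Finset V) :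
    Measurable (Zw c F) := by
  unfold Zw
  fun_prop

theorem measurable_Zo [Countable V] (c : Finset V → Finset V → ℝ) (F : Finset V) (i : V) :
    Measurable (Zo c F i) := by
  classical
  unfold Zo
  refine Finset.measurable_sum _ fun S _ => ?_
  by_cases h : i ∈ S
  · simp only [h, if_true]
    fun_prop
  · simp only [h, if_false]
    fun_prop

theorem measurable_occ [Countable V] (c : Finset V → Finset V → ℝ) (F : Finset V) (i : V) :
    Measurable (occ c F i) := by
  unfold occ
  exact (measurable_Zo c F i).div (measurable_Zw c F)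

variable {V' : Type*} [DecidableEq V']

/-- Relabelling along an injection that preserves the cylinder masses. -/
theorem Zw_image (c : Finset V' → Finset V' → ℝ) (c' : Finset V → Finset V → ℝ) (ι : V → V')
    (hι : Function.Injective ι) (F : Finset V)
    (hc : ∀ S ∈ F.powerset, c (F.image ι) (S.image ι) = c' F S) (h : V' → ℝ) :
    Zw c (F.image ι) h = Zw c' F (h ∘ ι) := by
  unfold Zw
  rw [Finset.powerset_image, Finset.sum_image (fun S _ S' _ hS => Finset.image_injective hι hS)]
  refine Finset.sum_congr rfl fun S hS => ?_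
  rw [hc S hS, Finset.sum_image (fun a _ b _ hab => hι hab)]
  rfl

theorem Zo_image (c : Finset V' → Finset V' → ℝ) (c' : Finset V → Finset V → ℝ) (ι : V → V')
    (hι : Function.Injective ι) (F : Finset V) (i : V)
    (hc : ∀ S ∈ F.powerset, c (F.image ι) (S.image ι) = c' F S) (h : V' → ℝ) :
    Zo c (F.image ι) (ι i) h = Zo c' F i (h ∘ ι) := by
  classical
  unfold Zo
  rw [Finset.powerset_image, Finset.sum_image (fun S _ S' _ hS => Finset.image_injective hι hS)]
  refine Finset.sum_congr rfl fun S hS => ?_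
  have hmem : ι i ∈ S.image ι ↔ i ∈ S := by
    simp [hι.eq_iff]
  simp only [hmem]
  rw [hc S hS, Finset.sum_image (fun a _ b _ hab => hι hab)]
  rfl

theorem occ_image (c : Finset V' → Finset V' → ℝ) (c' : Finset V → Finset V → ℝ) (ι : V → V')
    (hι : Function.Injective ι) (F : Finset V) (i : V)
    (hc : ∀ S ∈ F.powerset, c (F.image ι) (S.image ι) = c' F S) (h : V' → ℝ) :
    occ c (F.image ι) (ι i) h = occ c' F i (h ∘ ι) := by
  unfold occ
  rw [Zw_image c c' ι hι F hc, Zo_image c c' ι hι F i hc]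

end aux

theorem measurable_Xi_fixed {V : Type*} [Countable V] (P : V → ℕ → (V → ℝ) → ℝ)
    (hP : ∀ i n, Measurable (P i n)) : Measurable (Xi P) := by
  have h1 := measurable_Xi (V := V) (α := Unit) (fun _ => P)
    (fun i n => (hP i n).comp measurable_snd)
  have h2 : Measurable (fun w : V → ℝ × (ℕ → ℝ) => (((), w) : Unit × (V → ℝ × (ℕ → ℝ)))) :=
    measurable_const.prodMk measurable_id
  have h3 : Xi P = (fun q : Unit × (V → ℝ × (ℕ → ℝ)) => Xi ((fun _ : Unit => P) q.1) q.2) ∘
      (fun w : V → ℝ × (ℕ → ℝ) => (((), w) : Unit × (V → ℝ × (ℕ → ℝ)))) := by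
    funext w
    simp only [Function.comp_apply]
  rw [h3]
  exact h1.comp h2

theorem final0255 (Γ : Type*) [Group Γ]
    [Countable Γ] (ν : MeasureTheory.Measure (Γ → Bool)) [MeasureTheory.IsProbabilityMeasure ν]
    (hsr : Crest.ProbabilityR.StronglyRayleigh.IsStronglyRayleigh ν)
    (hinv : Crest.ProbabilityR.StronglyRayleigh.IsShiftInvariant ν) :
    ∃ Φ : (Γ → unitInterval) → (Γ → Bool), Measurable Φ ∧
      (∀ (g : Γ) (u : Γ → unitInterval),
        Φ (Crest.ProbabilityR.StronglyRayleigh.leftShift g u) =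
          Crest.ProbabilityR.StronglyRayleigh.leftShift g (Φ u)) ∧
      (Crest.ProbabilityR.Labels.labelMeasure Γ).map Φ = ν := by
  classical
  obtain ⟨dec, hdec, hdecmap⟩ := exists_decode lab Γ
  obtain ⟨f, hf⟩ := exists_surjective_nat Γ
  -- the exhaustion
  let K : ℕ → Finset Γ := fun n => insert 1 ((Finset.range n).image f)
  have hKmono : Monotone K := by
    intro m n hmn
    exact Finset.insert_subset_insert _ (Finset.image_subset_image (Finset.range_mono hmn))
  have hK1 : ∀ n, (1 : Γ) ∈ K n := fun n => Finset.mem_insert_self _ _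
  have hKcov : ∀ g : Γ, ∃ n, g ∈ K n := by
    intro g
    obtain ⟨m, rfl⟩ := hf g
    exact ⟨m + 1, Finset.mem_insert_of_mem (Finset.mem_image_of_mem f (by simp))⟩
  let E : Γ → ℕ → Finset Γ := fun i n => (K n).image (fun k => i * k)
  let P : Γ → ℕ → (Γ → ℝ) → ℝ := fun i n h => occ (cyl ν) (E i n) i h
  have hXi : Measurable (Xi P) :=
    measurable_Xi_fixed P (fun i n => measurable_occ (cyl ν) (E i n) i)
  have hdecpi : Measurable (fun (x : Γ → unitInterval) v => dec (x v)) := by fun_prop
  refine ⟨fun u => Xi P (fun v => dec (u v)), hXi.comp hdecpi, ?_, ?_⟩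
  · intro g u
    -- equivariance
    have hP : ∀ i n h, P (g⁻¹ * i) n h = P i n (h ∘ fun k => g⁻¹ * k) := by
      intro i n h
      have hE : E (g⁻¹ * i) n = (E i n).image (fun k => g⁻¹ * k) := by
        simp only [E, Finset.image_image]
        congr 1
        funext k
        simp [mul_assoc]
      change occ (cyl ν) (E (g⁻¹ * i) n) (g⁻¹ * i) h = occ (cyl ν) (E i n) i (h ∘ fun k => g⁻¹ * k)
      rw [hE]
      refine occ_image (cyl ν) (cyl ν) (fun k => g⁻¹ * k) (mul_right_injective g⁻¹) (E i n) i ?_ h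
      intro S _
      unfold cyl
      congr 1
      have hmeas : MeasurableSet {ω : Γ → Bool | ∀ i_1 ∈ E i n, (ω i_1 = true ↔ i_1 ∈ S)} := by
        have : {ω : Γ → Bool | ∀ i_1 ∈ E i n, (ω i_1 = true ↔ i_1 ∈ S)} =
            ⋂ j ∈ E i n, {ω : Γ → Bool | ω j = true ↔ j ∈ S} := by
          ext ω
          simp
        rw [this]
        refine Finset.measurableSet_biInter _ fun j _ => ?_
        have hj : Measurable (fun ω : Γ → Bool => ω j) := by fun_prop
        exact hj (MeasurableSet.of_discrete (s := {b : Bool | b = true ↔ j ∈ S}))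
      rw [← hinv g _ hmeas]
      congr 1
      ext ω
      simp only [Finset.mem_image, Set.mem_ofPred_eq, Set.mem_preimage,
        Crest.ProbabilityR.StronglyRayleigh.leftShift, forall_exists_index, and_imp,
        forall_apply_eq_imp_iff₂, mul_right_inj, exists_eq_right]
    have := Xi_comp (fun k : Γ => g⁻¹ * k) P P (fun i n h => hP i n h) (fun v => dec (u v))
    exact this.symm
  · have h1 := GT ν (lipOcc_of_stronglyRayleigh ν hsr) E
      (fun i m n hmn => Finset.image_subset_image (hKmono hmn))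
      (fun i n => by
        have := Finset.mem_image_of_mem (fun k => i * k) (hK1 n)
        simpa [E] using this)
      (fun i j => by
        obtain ⟨n, hn⟩ := hKcov (i⁻¹ * j)
        exact ⟨n, by simpa [E] using Finset.mem_image_of_mem (fun k => i * k) hn⟩)
    rw [← h1, ← hdecmap, Measure.map_map hXi hdecpi]
    rfl

end Crest.Agent.R168
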