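import Mathlib
import Crest.Prelude.Def_SpanningTrees

-- ▼ part R168/CauchyBinet
section

/-!
Rank-one Cauchy-Binet expansion: the determinant of a weighted sum of rank-one matrices
`z e • b e (b e)ᵀ` expanded as a sum over finite sets of indices of size `card N`.
-/

set_option autoImplicit false

namespace Crest.Agent.R168

open Matrix Finset

variable {N ι R : Type*} [Fintype N] [DecidableEq N] [DecidableEq ι] [CommRing R]

/-- the Gram-type matrix `∑ e ∈ E, z e • b e (b e)ᵀ`. -/
def gramSum (E : Finset ι) (b : ι → N → R) (z : ι → R) : Matrix N N R :=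
  Matrix.of fun i j => ∑ e ∈ E, z e * b e i * b e j

lemma det_gramSum_eq (E : Finset ι) (b : ι → N → R) (z : ι → R) :
    (gramSum E b z).det =
      ∑ p ∈ Fintype.piFinset (fun _ : N => E),
        (∏ i, z (p i)) * ((∏ i, b (p i) i) * (Matrix.of fun i j => b (p j) i).det) := by
  calc (gramSum E b z).det
      = ∑ p ∈ Fintype.piFinset (fun _ : N => E), ∑ σ : Equiv.Perm N,
          (Equiv.Perm.sign σ : ℤ) * ∏ i, (z (p i) * b (p i) (σ i) * b (p i) i) := by
        simp only [det_apply', gramSum, of_apply, Finset.prod_univ_sum, Finset.mul_sum]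
        rw [Finset.sum_comm]
    _ = _ := by
        refine Finset.sum_congr rfl fun p _ => ?_
        rw [det_apply', Finset.mul_sum, Finset.mul_sum]
        refine Finset.sum_congr rfl fun σ _ => ?_
        simp only [Finset.prod_mul_distrib, of_apply]
        ring

lemma det_gramSum_fiber (E : Finset ι) (b : ι → N → R) (z : ι → R) :
    (gramSum E b z).det =
      ∑ A ∈ E.powersetCard (Fintype.card N), (∏ e ∈ A, z e) *
        ∑ p ∈ (Fintype.piFinset (fun _ : N => E)).filter
            (fun p => Finset.univ.image p = A),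
          ((∏ i, b (p i) i) * (Matrix.of fun i j => b (p j) i).det) := by
  rw [det_gramSum_eq]
  have hzero : ∀ p ∈ Fintype.piFinset (fun _ : N => E),
      ¬ Function.Injective p →
      (∏ i, z (p i)) * ((∏ i, b (p i) i) * (Matrix.of fun i j => b (p j) i).det) = 0 := by
    intro p _ hp
    rw [Function.Injective] at hp
    push Not at hp
    obtain ⟨i, j, hij, hne⟩ := hp
    have : (Matrix.of fun i j => b (p j) i : Matrix N N R).det = 0 := by
      apply Matrix.det_zero_of_column_eq hne
      intro k
      simp [hij]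
    rw [this]; ring
  rw [← Finset.sum_filter_of_ne (p := fun p => Function.Injective p)
    (by
      intro p hp hne
      by_contra hinj
      exact hne (hzero p hp hinj))]
  have hmap : ∀ p ∈ (Fintype.piFinset (fun _ : N => E)).filter (fun p => Function.Injective p),
      Finset.univ.image p ∈ E.powersetCard (Fintype.card N) := by
    intro p hp
    rw [Finset.mem_filter, Fintype.mem_piFinset] at hp
    rw [Finset.mem_powersetCard]
    refine ⟨?_, ?_⟩
    · intro e he
      rw [Finset.mem_image] at he
      obtain ⟨i, _, rfl⟩ := he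
      exact hp.1 i
    · rw [Finset.card_image_of_injective _ hp.2, Finset.card_univ]
  rw [← Finset.sum_fiberwise_of_maps_to hmap]
  refine Finset.sum_congr rfl fun A hA => ?_
  rw [Finset.mul_sum]
  rw [Finset.filter_filter]
  have hset : (Fintype.piFinset (fun _ : N => E)).filter
        (fun p => Function.Injective p ∧ Finset.univ.image p = A) =
      (Fintype.piFinset (fun _ : N => E)).filter (fun p => Finset.univ.image p = A) := by
    apply Finset.filter_congr
    intro p _
    refine ⟨fun h => h.2, fun h => ⟨?_, h⟩⟩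
    have hc : (Finset.univ.image p).card = (Finset.univ : Finset N).card := by
      rw [h, (Finset.mem_powersetCard.mp hA).2, Finset.card_univ]
    have := Finset.card_image_iff.mp hc
    intro x y hxy
    exact this (Finset.mem_coe.mpr (Finset.mem_univ x)) (Finset.mem_coe.mpr (Finset.mem_univ y)) hxy
  rw [hset]
  refine Finset.sum_congr rfl fun p hp => ?_
  rw [Finset.mem_filter] at hp
  congr 1
  have hinj : Function.Injective p := by
    have hc : (Finset.univ.image p).card = (Finset.univ : Finset N).card := by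
      rw [hp.2, (Finset.mem_powersetCard.mp hA).2, Finset.card_univ]
    have := Finset.card_image_iff.mp hc
    intro x y hxy
    exact this (Finset.mem_coe.mpr (Finset.mem_univ x)) (Finset.mem_coe.mpr (Finset.mem_univ y)) hxy
  rw [← hp.2, Finset.prod_image (fun x _ y _ h => hinj h)]

/-- **Rank-one Cauchy-Binet**. -/
theorem det_gramSum (E : Finset ι) (b : ι → N → R) (z : ι → R) :
    (gramSum E b z).det =
      ∑ A ∈ E.powersetCard (Fintype.card N), (∏ e ∈ A, z e) *
        (gramSum A b (fun _ => 1)).det := by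
  rw [det_gramSum_fiber]
  refine Finset.sum_congr rfl fun A hA => ?_
  congr 1
  rw [det_gramSum_fiber A b (fun _ => 1)]
  have hA' := Finset.mem_powersetCard.mp hA
  have hself : A.powersetCard (Fintype.card N) = {A} := by
    rw [← hA'.2]; exact Finset.powersetCard_self A
  rw [hself, Finset.sum_singleton]
  simp only [Finset.prod_const_one, one_mul]
  apply Finset.sum_congr _ (fun _ _ => rfl)
  ext p
  simp only [Finset.mem_filter, Fintype.mem_piFinset]
  constructor
  · rintro ⟨_, h2⟩
    refine ⟨fun i => ?_, h2⟩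
    rw [← h2]
    exact Finset.mem_image_of_mem _ (Finset.mem_univ i)
  · rintro ⟨h1, h2⟩
    exact ⟨fun i => hA'.1 (h1 i), h2⟩

end Crest.Agent.R168
end

-- ▼ part R168/MatrixTree
section

/-!
Weighted matrix-tree theorem for the finite pieces of `Def_SpanningTrees`:
`det (∑ e ∈ edgesIn G S, z e • b e (b e)ᵀ) = ∑ A spanning tree on S, ∏ e ∈ A, z e`.
-/

set_option autoImplicit false

namespace Crest.Agent.R168

open Matrix Finset Crest.ProbabilityR.SpanningTrees

variable {V : Type*} [DecidableEq V]

/-- signed incidence vector of an unordered pair, restricted to `S \ {r}`. -/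
noncomputable def bvec (R : Type*) [Ring R] (S : Finset V) (r : V) (e : Sym2 V) :
    ↥(S.erase r) → R :=
  fun v => (if (v : V) = (Quot.out e).1 then 1 else 0) - (if (v : V) = (Quot.out e).2 then 1 else 0)

/-- extended version: signed incidence evaluated against a function on `V`. -/
lemma out_cases (a b : V) :
    ((Quot.out s(a, b)).1 = a ∧ (Quot.out s(a, b)).2 = b) ∨
      ((Quot.out s(a, b)).1 = b ∧ (Quot.out s(a, b)).2 = a) := by
  have h : s((Quot.out s(a, b)).1, (Quot.out s(a, b)).2) = s(a, b) := Quot.out_eq s(a, b)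
  rw [Sym2.eq_iff] at h
  exact h

lemma mk_mem_edgesIn {G : SimpleGraph V} {S : Finset V} {a b : V} :
    s(a, b) ∈ edgesIn G S ↔ a ∈ S ∧ b ∈ S ∧ G.Adj a b := by
  unfold edgesIn
  simp only [Finset.mem_filter, Finset.mk_mem_sym2_iff, SimpleGraph.mem_edgeSet]
  tauto

/-- the graph on `S` with edge set `A`. -/
abbrev treeGraph (S : Finset V) (A : Finset (Sym2 V)) : SimpleGraph ↥(S : Set V) :=
  (SimpleGraph.fromEdgeSet (A : Set (Sym2 V))).induce (S : Set V)

lemma treeGraph_adj {S : Finset V} {A : Finset (Sym2 V)} {a b : ↥(S : Set V)} :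
    (treeGraph S A).Adj a b ↔ s((a : V), (b : V)) ∈ A ∧ (a : V) ≠ b := by
  simp [treeGraph, SimpleGraph.fromEdgeSet_adj]

lemma image_edgeSet {G : SimpleGraph V} {S : Finset V} {A : Finset (Sym2 V)}
    (hA : A ⊆ edgesIn G S) :
    Sym2.map (Subtype.val : ↥(S : Set V) → V) '' (treeGraph S A).edgeSet = (A : Set (Sym2 V)) := by
  ext e
  constructor
  · rintro ⟨e', he', rfl⟩
    induction e' with
    | h a b =>
      rw [SimpleGraph.mem_edgeSet, treeGraph_adj] at he'
      simpa using he'.1
  · intro he
    induction e with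
    | h a b =>
      have h := mk_mem_edgesIn.mp (hA (Finset.mem_coe.mp he))
      refine ⟨s(⟨a, Finset.mem_coe.mpr h.1⟩, ⟨b, Finset.mem_coe.mpr h.2.1⟩), ?_, by simp⟩
      rw [SimpleGraph.mem_edgeSet, treeGraph_adj]
      exact ⟨Finset.mem_coe.mp he, h.2.2.ne⟩

lemma card_edgeSet {G : SimpleGraph V} {S : Finset V} {A : Finset (Sym2 V)}
    (hA : A ⊆ edgesIn G S) :
    Nat.card (treeGraph S A).edgeSet = A.card := by
  rw [← Set.ncard_coe_finset A, ← image_edgeSet hA,
    Set.ncard_image_of_injective _ (Sym2.map.injective Subtype.val_injective)]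
  rfl

lemma isSpanningTreeOn_iff {G : SimpleGraph V} {S : Finset V} {r : V} (hr : r ∈ S)
    {A : Finset (Sym2 V)} :
    IsSpanningTreeOn G S A ↔
      A ⊆ edgesIn G S ∧ (treeGraph S A).Connected ∧ A.card = (S.erase r).card := by
  unfold IsSpanningTreeOn
  constructor
  · rintro ⟨hA, ht⟩
    have ht' : (treeGraph S A).IsTree := ht
    rw [SimpleGraph.isTree_iff_connected_and_card] at ht'
    refine ⟨hA, ht'.1, ?_⟩
    have h2 := ht'.2
    rw [card_edgeSet hA] at h2
    have h3 : Nat.card ↥(S : Set V) = S.card := by simp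
    rw [h3] at h2
    rw [Finset.card_erase_of_mem hr]
    omega
  · rintro ⟨hA, hc, hcard⟩
    refine ⟨hA, ?_⟩
    change (treeGraph S A).IsTree
    rw [SimpleGraph.isTree_iff_connected_and_card]
    refine ⟨hc, ?_⟩
    rw [card_edgeSet hA]
    have h3 : Nat.card ↥(S : Set V) = S.card := by simp
    rw [h3, hcard, Finset.card_erase_of_mem hr]
    have := Finset.card_pos.mpr ⟨r, hr⟩
    omega

/-- pairing of a function vanishing at `r` with the incidence vector. -/
lemma sum_mul_bvec {R : Type*} [CommRing R] {S : Finset V} {r : V} (X : V → R) (hXr : X r = 0)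
    {a b : V} (ha : a ∈ S) (hb : b ∈ S) (e : Sym2 V) (he : e = s(a, b)) :
    (∑ v : ↥(S.erase r), X v * bvec R S r e v) =
      X (Quot.out e).1 - X (Quot.out e).2 := by
  have key : ∀ c ∈ S, (∑ v : ↥(S.erase r), X v * (if (v : V) = c then (1 : R) else 0)) = X c := by
    intro c hc
    have h1 : (∑ v : ↥(S.erase r), X v * (if (v : V) = c then (1 : R) else 0)) =
        ∑ v ∈ S.erase r, X v * (if v = c then (1 : R) else 0) := by
      rw [← Finset.sum_coe_sort (S.erase r) (fun v => X v * (if v = c then (1 : R) else 0))]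
    rw [h1]
    by_cases hcr : c = r
    · subst hcr
      rw [hXr]
      apply Finset.sum_eq_zero
      intro v hv
      have : v ≠ c := Finset.ne_of_mem_erase hv
      simp [this]
    · rw [Finset.sum_eq_single c]
      · simp
      · intro v _ hvc; simp [hvc]
      · intro hn
        exact absurd (Finset.mem_erase.mpr ⟨hcr, hc⟩) hn
  have ho : (Quot.out e).1 ∈ S ∧ (Quot.out e).2 ∈ S := by
    subst he
    rcases out_cases a b with h | h
    · rw [h.1, h.2]; exact ⟨ha, hb⟩
    · rw [h.1, h.2]; exact ⟨hb, ha⟩
  unfold bvec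
  simp only [mul_sub, Finset.sum_sub_distrib]
  rw [key _ ho.1, key _ ho.2]

lemma bvec_cast (R : Type*) [CommRing R] (S : Finset V) (r : V) (e : Sym2 V) (v : ↥(S.erase r)) :
    bvec R S r e v = ((bvec ℤ S r e v : ℤ) : R) := by
  unfold bvec
  push_cast
  rfl

lemma gramSum_cast_det (R : Type*) [CommRing R] (S : Finset V) (r : V) (A : Finset (Sym2 V)) :
    (gramSum A (bvec R S r) (fun _ => 1)).det =
      (((gramSum A (bvec ℤ S r) (fun _ => 1)).det : ℤ) : R) := by
  have h : (gramSum A (bvec R S r) (fun _ => 1)) =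
      (Int.castRingHom R).mapMatrix (gramSum A (bvec ℤ S r) (fun _ => 1)) := by
    ext i j
    simp [gramSum, bvec_cast R]
  rw [h, ← RingHom.map_det]
  rfl

/-- if the graph with edge set `A` is not connected, the Gram determinant vanishes. -/
lemma det_eq_zero_of_not_connected {G : SimpleGraph V} {S : Finset V} {r : V} (hr : r ∈ S)
    {A : Finset (Sym2 V)} (hA : A ⊆ edgesIn G S) (hc : ¬ (treeGraph S A).Connected) :
    (gramSum A (bvec ℤ S r) (fun _ => 1)).det = 0 := by
  classical
  set H := treeGraph S A with hH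
  have hr' : r ∈ (S : Set V) := Finset.mem_coe.mpr hr
  have hex : ∃ u : ↥(S : Set V), ¬ H.Reachable u ⟨r, hr'⟩ := by
    by_contra hcon
    push Not at hcon
    apply hc
    haveI : Nonempty ↥(S : Set V) := ⟨⟨r, hr'⟩⟩
    exact ⟨fun u v => (hcon u).trans (hcon v).symm⟩
  obtain ⟨u, hu⟩ := hex
  let X : V → ℤ := fun v => if h : v ∈ (S : Set V) then (if H.Reachable ⟨v, h⟩ ⟨r, hr'⟩ then 0 else 1) else 0
  have hXr : X r = 0 := by simp [X, hr', hr]
  have hXu : X u = 1 := by
    have : (u : V) ∈ (S : Set V) := u.2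
    simp only [X, this, dif_pos]
    rw [if_neg hu]
  have hXA : ∀ a b, s(a, b) ∈ A → X a = X b := by
    intro a b hab
    have h := mk_mem_edgesIn.mp (hA hab)
    have ha : a ∈ (S : Set V) := h.1
    have hb : b ∈ (S : Set V) := h.2.1
    have hadj : H.Adj ⟨a, ha⟩ ⟨b, hb⟩ := treeGraph_adj.mpr ⟨hab, h.2.2.ne⟩
    simp only [X, ha, hb, dif_pos]
    have : H.Reachable ⟨a, ha⟩ ⟨r, hr'⟩ ↔ H.Reachable ⟨b, hb⟩ ⟨r, hr'⟩ :=
      ⟨fun hh => hadj.reachable.symm.trans hh, fun hh => hadj.reachable.trans hh⟩
    simp only [this]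
  rw [← Matrix.exists_vecMul_eq_zero_iff]
  refine ⟨fun v => X v, ?_, ?_⟩
  · intro h0
    have hur : (u : V) ≠ r := by
      intro h
      rw [h, hXr] at hXu
      exact absurd hXu (by norm_num)
    have := congrFun h0 ⟨u, Finset.mem_erase.mpr ⟨hur, u.2⟩⟩
    simp only [Pi.zero_apply] at this
    rw [hXu] at this
    exact absurd this (by norm_num)
  · ext w
    simp only [Matrix.vecMul, dotProduct, gramSum, of_apply, Pi.zero_apply, Finset.mul_sum]
    rw [Finset.sum_comm]
    apply Finset.sum_eq_zero
    intro e he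
    have h1 : (∑ v : ↥(S.erase r), X v * (1 * bvec ℤ S r e v * bvec ℤ S r e w)) =
        (∑ v : ↥(S.erase r), X v * bvec ℤ S r e v) * bvec ℤ S r e w := by
      rw [Finset.sum_mul]
      refine Finset.sum_congr rfl fun v _ => by ring
    rw [h1]
    induction e with
    | h a b =>
      have h := mk_mem_edgesIn.mp (hA he)
      rw [sum_mul_bvec X hXr h.1 h.2.1 _ rfl]
      rcases out_cases a b with ho | ho
      · rw [ho.1, ho.2, hXA a b he]; ring
      · rw [ho.1, ho.2, hXA a b he]; ring

lemma det_eq_one_of_connected {G : SimpleGraph V} {S : Finset V} {r : V} (hr : r ∈ S)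
    {A : Finset (Sym2 V)} (hA : A ⊆ edgesIn G S) (hc : (treeGraph S A).Connected)
    (hcard : A.card = (S.erase r).card) :
    (gramSum A (bvec ℤ S r) (fun _ => 1)).det = 1 := by
  classical
  set H := treeGraph S A with hH
  have hr' : r ∈ (S : Set V) := Finset.mem_coe.mpr hr
  -- integer combinations
  have hQ : ∀ u v : ↥(S : Set V), H.Reachable u v → ∃ c : Sym2 V → ℤ, ∀ w : ↥(S.erase r),
      (∑ e ∈ A, c e * bvec ℤ S r e w) =
        (if (w : V) = u then 1 else 0) - (if (w : V) = v then 1 else 0) := by
    intro u v huv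
    obtain ⟨p⟩ := huv
    induction p with
    | nil => exact ⟨fun _ => 0, fun w => by simp⟩
    | @cons a b c hab p ih =>
      obtain ⟨c1, hc1⟩ := ih
      have hadj := treeGraph_adj.mp hab
      have hstep : ∃ c : Sym2 V → ℤ, ∀ w : ↥(S.erase r),
          (∑ e ∈ A, c e * bvec ℤ S r e w) =
          (if (w : V) = a then 1 else 0) - (if (w : V) = b then 1 else 0) := by
        rcases out_cases (a : V) (b : V) with ho | ho
        · refine ⟨fun e => if e = s((a : V), (b : V)) then 1 else 0, fun w => ?_⟩
          rw [Finset.sum_eq_single s((a : V), (b : V))]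
          · simp only [if_true, one_mul, bvec, ho.1, ho.2]
          · intro e _ hne; simp [hne]
          · intro hn; exact absurd hadj.1 hn
        · refine ⟨fun e => if e = s((a : V), (b : V)) then -1 else 0, fun w => ?_⟩
          rw [Finset.sum_eq_single s((a : V), (b : V))]
          · simp only [if_true, bvec, ho.1, ho.2]; ring
          · intro e _ hne; simp [hne]
          · intro hn; exact absurd hadj.1 hn
      obtain ⟨c2, hc2⟩ := hstep
      refine ⟨fun e => c2 e + c1 e, fun w => ?_⟩
      simp only [add_mul, Finset.sum_add_distrib]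
      rw [hc1, hc2]; ring
  have hP : ∀ i : ↥(S.erase r), ∃ c : Sym2 V → ℤ, ∀ w : ↥(S.erase r),
      (∑ e ∈ A, c e * bvec ℤ S r e w) = if w = i then 1 else 0 := by
    intro i
    have hi : (i : V) ∈ (S : Set V) := Finset.mem_of_mem_erase i.2
    obtain ⟨c, hc'⟩ := hQ ⟨i, hi⟩ ⟨r, hr'⟩ (hc.preconnected _ _)
    refine ⟨c, fun w => ?_⟩
    rw [hc' w]
    have hwr : (w : V) ≠ r := Finset.ne_of_mem_erase w.2
    simp only [hwr, if_false, sub_zero]
    by_cases hwi : w = i
    · simp [hwi]
    · have : (w : V) ≠ i := fun h => hwi (Subtype.ext h)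
      simp [hwi, this]
  choose c hcc using hP
  have p : ↥(S.erase r) ≃ ↥A := (Finset.equivOfCardEq hcard).symm
  let B : Matrix ↥(S.erase r) ↥(S.erase r) ℤ := Matrix.of fun i k => bvec ℤ S r (p k) i
  let P : Matrix ↥(S.erase r) ↥(S.erase r) ℤ := Matrix.of fun k i => c i (p k)
  have hsumA : ∀ f : Sym2 V → ℤ, (∑ k : ↥(S.erase r), f (p k)) = ∑ e ∈ A, f e := by
    intro f
    rw [Equiv.sum_comp p (fun e : ↥A => f e)]
    exact Finset.sum_coe_sort A f
  have hBP : B * P = 1 := by
    ext w i
    rw [Matrix.mul_apply]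
    simp only [B, P, of_apply]
    rw [hsumA (fun e => bvec ℤ S r e w * c i e)]
    have : (∑ e ∈ A, bvec ℤ S r e w * c i e) = ∑ e ∈ A, c i e * bvec ℤ S r e w :=
      Finset.sum_congr rfl fun e _ => mul_comm _ _
    rw [this, hcc i w, Matrix.one_apply]
  have hgram : gramSum A (bvec ℤ S r) (fun _ => 1) = B * Bᵀ := by
    ext i j
    rw [Matrix.mul_apply]
    simp only [B, gramSum, of_apply, transpose_apply, one_mul]
    rw [hsumA (fun e => bvec ℤ S r e i * bvec ℤ S r e j)]
  rw [hgram, Matrix.det_mul, Matrix.det_transpose]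
  have hunit : IsUnit B.det := by
    have : B.det * P.det = 1 := by rw [← Matrix.det_mul, hBP, Matrix.det_one]
    exact IsUnit.of_mul_eq_one _ this
  exact Int.isUnit_mul_self hunit

/-- the weighted number of spanning trees. -/
noncomputable def treeSum {R : Type*} [CommRing R] (G : SimpleGraph V) (S : Finset V)
    (z : Sym2 V → R) : R :=
  haveI := Classical.decPred (fun A : Finset (Sym2 V) => IsSpanningTreeOn G S A)
  ∑ A ∈ (edgesIn G S).powerset.filter (fun A => IsSpanningTreeOn G S A), ∏ e ∈ A, z e

/-- **Weighted matrix-tree theorem.** -/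
theorem det_eq_treeSum {R : Type*} [CommRing R] (G : SimpleGraph V) {S : Finset V} {r : V}
    (hr : r ∈ S) (z : Sym2 V → R) :
    (gramSum (edgesIn G S) (bvec R S r) z).det = treeSum G S z := by
  classical
  rw [det_gramSum, treeSum]
  rw [← Finset.sum_filter_of_ne (p := fun A => IsSpanningTreeOn G S A)
    (s := (edgesIn G S).powersetCard (Fintype.card ↥(S.erase r)))]
  · apply Finset.sum_congr
    · ext A
      simp only [Finset.mem_filter, Finset.mem_powersetCard, Finset.mem_powerset,
        Fintype.card_coe]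
      constructor
      · rintro ⟨⟨h1, _⟩, h3⟩; exact ⟨h1, h3⟩
      · rintro ⟨h1, h3⟩; exact ⟨⟨h1, ((isSpanningTreeOn_iff hr).mp h3).2.2⟩, h3⟩
    · intro A hA
      have h3 := (Finset.mem_filter.mp hA).2
      have h4 := (isSpanningTreeOn_iff hr).mp h3
      rw [gramSum_cast_det, det_eq_one_of_connected hr h4.1 h4.2.1 h4.2.2]
      simp
  · intro A hA hne
    by_contra hnot
    apply hne
    have hA' := Finset.mem_powersetCard.mp hA
    have hcard : A.card = (S.erase r).card := by rw [hA'.2, Fintype.card_coe]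
    have hc : ¬ (treeGraph S A).Connected := fun hc =>
      hnot ((isSpanningTreeOn_iff hr).mpr ⟨hA'.1, hc, hcard⟩)
    rw [gramSum_cast_det, det_eq_zero_of_not_connected hr hA'.1 hc]
    simp

end Crest.Agent.R168
end

-- ▼ part R168/TreeNegCorr

/-!
Nonvanishing of the weighted spanning tree polynomial and pairwise negative correlation.
-/

set_option autoImplicit false

namespace Crest.Agent.R168

open Matrix Finset Crest.ProbabilityR.SpanningTrees

variable {V : Type*}

section
variable [DecidableEq V]

/-- Nonvanishing of the tree polynomial when every weight is either in the open upper half plane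
or a positive real. -/
theorem treeSum_ne_zero {G : SimpleGraph V} {S : Finset V}
    {A₀ : Finset (Sym2 V)} (hA₀ : IsSpanningTreeOn G S A₀) (z : Sym2 V → ℂ)
    (hz : ∀ f ∈ edgesIn G S, 0 < (z f).im ∨ ((z f).im = 0 ∧ 0 < (z f).re)) :
    treeSum G S z ≠ 0 := by
  classical
  obtain ⟨r, hr⟩ : S.Nonempty := by
    have hconn : (treeGraph S A₀).Connected := hA₀.2.connected
    obtain ⟨⟨x, hx⟩⟩ := hconn.nonempty
    exact ⟨x, Finset.mem_coe.mp hx⟩
  have hA := (isSpanningTreeOn_iff hr).mp hA₀
  rw [← det_eq_treeSum G hr z]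
  intro hdet
  rw [← Matrix.exists_mulVec_eq_zero_iff] at hdet
  obtain ⟨v, hv0, hv⟩ := hdet
  -- extension of v by zero
  let X : V → ℂ := fun x => if h : x ∈ S.erase r then v ⟨x, h⟩ else 0
  have hXr : X r = 0 := by simp [X]
  have hXv : ∀ x : ↥(S.erase r), X x = v x := by
    intro x
    simp only [X]
    rw [dif_pos x.2]
  let q : Sym2 V → ℂ := fun f => ∑ j : ↥(S.erase r), bvec ℂ S r f j * v j
  have hreal : ∀ (f : Sym2 V) (i : ↥(S.erase r)), star (bvec ℂ S r f i) = bvec ℂ S r f i := by
    intro f i
    rw [bvec_cast ℂ S r f i]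
    simp
  -- quadratic form
  have hquad : (∑ f ∈ edgesIn G S, z f * (Complex.normSq (q f) : ℂ)) = 0 := by
    have h1 : (∑ i : ↥(S.erase r), star (v i) * (gramSum (edgesIn G S) (bvec ℂ S r) z *ᵥ v) i) = 0 := by
      rw [hv]; simp
    rw [← h1]
    simp only [Matrix.mulVec, dotProduct, gramSum, of_apply, Finset.sum_mul, Finset.mul_sum]
    have hswap2 : (∑ i : ↥(S.erase r), ∑ j : ↥(S.erase r), ∑ f ∈ edgesIn G S,
        star (v i) * (z f * bvec ℂ S r f i * bvec ℂ S r f j * v j)) =
        ∑ f ∈ edgesIn G S, ∑ i : ↥(S.erase r), ∑ j : ↥(S.erase r),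
        star (v i) * (z f * bvec ℂ S r f i * bvec ℂ S r f j * v j) := by
      have : ∀ i : ↥(S.erase r), (∑ j : ↥(S.erase r), ∑ f ∈ edgesIn G S,
        star (v i) * (z f * bvec ℂ S r f i * bvec ℂ S r f j * v j)) =
        ∑ f ∈ edgesIn G S, ∑ j : ↥(S.erase r),
        star (v i) * (z f * bvec ℂ S r f i * bvec ℂ S r f j * v j) := fun i => Finset.sum_comm
      rw [Finset.sum_congr rfl fun i _ => this i, Finset.sum_comm]
    rw [hswap2]
    refine Finset.sum_congr rfl fun f _ => ?_
    have hns : (Complex.normSq (q f) : ℂ) = star (q f) * q f := by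
      rw [Complex.normSq_eq_conj_mul_self]; rfl
    rw [hns]
    simp only [q, star_sum, star_mul', hreal]
    rw [Finset.sum_mul_sum, Finset.mul_sum]
    refine Finset.sum_congr rfl fun i _ => ?_
    rw [Finset.mul_sum]
    refine Finset.sum_congr rfl fun j _ => ?_
    ring
  have him : (∑ f ∈ edgesIn G S, (z f).im * Complex.normSq (q f)) = 0 := by
    have := congrArg Complex.im hquad
    simpa [Complex.im_sum, Complex.mul_im] using this
  have hre : (∑ f ∈ edgesIn G S, (z f).re * Complex.normSq (q f)) = 0 := by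
    have := congrArg Complex.re hquad
    simpa [Complex.re_sum, Complex.mul_re] using this
  have him' : ∀ f ∈ edgesIn G S, (z f).im * Complex.normSq (q f) = 0 := by
    rw [Finset.sum_eq_zero_iff_of_nonneg] at him
    · exact him
    · intro f hf
      rcases hz f hf with h | h
      · exact mul_nonneg h.le (Complex.normSq_nonneg _)
      · rw [h.1]; simp
  have hre' : ∀ f ∈ edgesIn G S, (z f).re * Complex.normSq (q f) = 0 := by
    rw [Finset.sum_eq_zero_iff_of_nonneg] at hre
    · exact hre
    · intro f hf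
      rcases hz f hf with h | h
      · have := him' f hf
        have h0 : Complex.normSq (q f) = 0 := by
          rcases mul_eq_zero.mp this with h' | h'
          · exact absurd h' h.ne'
          · exact h'
        rw [h0]; simp
      · exact mul_nonneg h.2.le (Complex.normSq_nonneg _)
  have hq : ∀ f ∈ edgesIn G S, q f = 0 := by
    intro f hf
    rw [← Complex.normSq_eq_zero]
    rcases hz f hf with h | h
    · rcases mul_eq_zero.mp (him' f hf) with h' | h'
      · exact absurd h' h.ne'
      · exact h'
    · rcases mul_eq_zero.mp (hre' f hf) with h' | h'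
      · exact absurd h' h.2.ne'
      · exact h'
  have hXedge : ∀ a b, s(a, b) ∈ edgesIn G S → X a = X b := by
    intro a b hab
    have h := mk_mem_edgesIn.mp hab
    have h1 := sum_mul_bvec X hXr h.1 h.2.1 s(a, b) rfl
    have h2 : (∑ v : ↥(S.erase r), X v * bvec ℂ S r s(a, b) v) = q s(a, b) := by
      simp only [q]
      refine Finset.sum_congr rfl fun j _ => ?_
      rw [hXv, mul_comm]
    rw [h2, hq _ hab] at h1
    rcases out_cases a b with ho | ho
    · rw [ho.1, ho.2] at h1; exact (sub_eq_zero.mp h1.symm)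
    · rw [ho.1, ho.2] at h1; exact (sub_eq_zero.mp h1.symm).symm
  have hr' : r ∈ (S : Set V) := Finset.mem_coe.mpr hr
  have hXreach : ∀ a b : ↥(S : Set V), (treeGraph S A₀).Reachable a b → X a = X b := by
    intro a b hab
    obtain ⟨p⟩ := hab
    induction p with
    | nil => rfl
    | cons hadj p ih =>
      rw [← ih]
      exact hXedge _ _ (hA.1 (treeGraph_adj.mp hadj).1)
  apply hv0
  ext x
  have hxS : (x : V) ∈ (S : Set V) := Finset.mem_of_mem_erase x.2
  have := hXreach ⟨x, hxS⟩ ⟨r, hr'⟩ (hA.2.1.preconnected _ _)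
  simp only [] at this
  rw [← hXv x, Pi.zero_apply]
  exact this.trans hXr

end

/-- weighted sum over spanning trees with property `P`. -/
noncomputable def wST {R : Type*} [CommRing R] (G : SimpleGraph V) (S : Finset V)
    (z : Sym2 V → R) (P : Finset (Sym2 V) → Prop) : R :=
  haveI := Classical.decPred (fun A : Finset (Sym2 V) => IsSpanningTreeOn G S A ∧ P A)
  ∑ A ∈ (edgesIn G S).powerset.filter (fun A => IsSpanningTreeOn G S A ∧ P A), ∏ e ∈ A, z e


lemma wST_eq_sum_ite {R : Type*} [CommRing R] (G : SimpleGraph V) (S : Finset V)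
    (z : Sym2 V → R) (P : Finset (Sym2 V) → Prop) [DecidablePred P]
    [DecidablePred (fun A : Finset (Sym2 V) => IsSpanningTreeOn G S A)] :
    wST G S z P = ∑ A ∈ (edgesIn G S).powerset.filter (fun A => IsSpanningTreeOn G S A),
      if P A then ∏ e ∈ A, z e else 0 := by
  classical
  unfold wST
  rw [← Finset.sum_filter, Finset.filter_filter]
  apply Finset.sum_congr
  · ext A; simp
  · intros; rfl

lemma prod_split {R : Type*} [CommRing R] [DecidableEq (Sym2 V)] (z : Sym2 V → R)
    {e g : Sym2 V} (heg : e ≠ g) (A : Finset (Sym2 V)) :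
    (∏ f ∈ A, z f) = (if e ∈ A then z e else 1) * (if g ∈ A then z g else 1) *
      ∏ f ∈ (A.erase e).erase g, z f := by
  have h1 : ∀ (B : Finset (Sym2 V)) (x : Sym2 V), (∏ f ∈ B, z f) =
      (if x ∈ B then z x else 1) * ∏ f ∈ B.erase x, z f := by
    intro B x
    by_cases hx : x ∈ B
    · rw [if_pos hx, Finset.mul_prod_erase B z hx]
    · rw [if_neg hx, Finset.erase_eq_of_notMem hx, one_mul]
  rw [h1 A e, h1 (A.erase e) g]
  have : (g ∈ A.erase e) ↔ g ∈ A := by
    rw [Finset.mem_erase]
    exact ⟨fun h => h.2, fun h => ⟨heg.symm, h⟩⟩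
  simp only [this]
  ring

/-- **Pairwise negative correlation** of weighted spanning trees. -/
theorem wST_neg {G : SimpleGraph V} {S : Finset V} (z : Sym2 V → ℝ) (hz : ∀ e, 0 < z e)
    {e g : Sym2 V} (heg : e ≠ g) :
    wST G S z (fun A => e ∈ A ∧ g ∈ A) * wST G S z (fun _ => True) ≤
      wST G S z (fun A => e ∈ A) * wST G S z (fun A => g ∈ A) := by
  classical
  set 𝒯 := (edgesIn G S).powerset.filter (fun A => IsSpanningTreeOn G S A) with h𝒯
  let u : Finset (Sym2 V) → ℝ := fun A => ∏ f ∈ (A.erase e).erase g, z f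
  have hu : ∀ A, 0 < u A := fun A => Finset.prod_pos fun f _ => hz f
  let a : ℝ := ∑ A ∈ 𝒯, if e ∈ A then 0 else if g ∈ A then 0 else u A
  let b : ℝ := ∑ A ∈ 𝒯, if e ∈ A then (if g ∈ A then 0 else u A) else 0
  let c : ℝ := ∑ A ∈ 𝒯, if e ∈ A then 0 else if g ∈ A then u A else 0
  let d : ℝ := ∑ A ∈ 𝒯, if e ∈ A then (if g ∈ A then u A else 0) else 0
  have ha : 0 ≤ a := Finset.sum_nonneg fun A _ => by split_ifs <;> first | exact le_refl _ | exact (hu A).le
  have hb : 0 ≤ b := Finset.sum_nonneg fun A _ => by split_ifs <;> first | exact le_refl _ | exact (hu A).le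
  have hc : 0 ≤ c := Finset.sum_nonneg fun A _ => by split_ifs <;> first | exact le_refl _ | exact (hu A).le
  have hd : 0 ≤ d := Finset.sum_nonneg fun A _ => by split_ifs <;> first | exact le_refl _ | exact (hu A).le
  have h11 : wST G S z (fun A => e ∈ A ∧ g ∈ A) = z e * z g * d := by
    rw [wST_eq_sum_ite, Finset.mul_sum]
    refine Finset.sum_congr rfl fun A _ => ?_
    rw [prod_split z heg A]
    by_cases he : e ∈ A <;> by_cases hg : g ∈ A <;> simp [he, hg, u]
  have h10 : wST G S z (fun A => e ∈ A) = z e * b + z e * z g * d := by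
    rw [wST_eq_sum_ite, Finset.mul_sum, Finset.mul_sum, ← Finset.sum_add_distrib]
    refine Finset.sum_congr rfl fun A _ => ?_
    rw [prod_split z heg A]
    by_cases he : e ∈ A <;> by_cases hg : g ∈ A <;> simp [he, hg, u]
  have h01 : wST G S z (fun A => g ∈ A) = z g * c + z e * z g * d := by
    rw [wST_eq_sum_ite, Finset.mul_sum, Finset.mul_sum, ← Finset.sum_add_distrib]
    refine Finset.sum_congr rfl fun A _ => ?_
    rw [prod_split z heg A]
    by_cases he : e ∈ A <;> by_cases hg : g ∈ A <;> simp [he, hg, u]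
  have h00 : wST G S z (fun _ => True) = a + z e * b + z g * c + z e * z g * d := by
    rw [wST_eq_sum_ite, Finset.mul_sum, Finset.mul_sum, Finset.mul_sum,
      ← Finset.sum_add_distrib, ← Finset.sum_add_distrib, ← Finset.sum_add_distrib]
    refine Finset.sum_congr rfl fun A _ => ?_
    rw [prod_split z heg A]
    by_cases he : e ∈ A <;> by_cases hg : g ∈ A <;> simp [he, hg, u]
  -- Rayleigh inequality
  have key : a * d ≤ b * c := by
    by_contra hcon
    push Not at hcon
    have had : 0 < a * d := lt_of_le_of_lt (mul_nonneg hb hc) hcon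
    have hdpos : 0 < d := by
      rcases hd.lt_or_eq with h | h
      · exact h
      · rw [← h] at had; simp at had
    -- there is a spanning tree
    have hex : ∃ A, IsSpanningTreeOn G S A := by
      by_contra hno
      push Not at hno
      have : 𝒯 = ∅ := by
        rw [h𝒯, Finset.filter_eq_empty_iff]
        intro A _; exact hno A
      simp only [d, this, Finset.sum_empty] at hdpos
      exact lt_irrefl _ hdpos
    obtain ⟨A₀, hA₀⟩ := hex
    let x : ℂ := -((a : ℂ) + c * Complex.I) / ((b : ℂ) + d * Complex.I)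
    have hden : ((b : ℂ) + d * Complex.I) ≠ 0 := by
      intro h
      have := congrArg Complex.im h
      simp at this
      exact hdpos.ne' this
    have hxim : 0 < x.im := by
      have hns : 0 < b ^ 2 + d ^ 2 := by positivity
      have : x.im = (a * d - b * c) / (b ^ 2 + d ^ 2) := by
        have hmul : x * ((b : ℂ) + d * Complex.I) = -((a : ℂ) + c * Complex.I) :=
          div_mul_cancel₀ _ hden
        have hre := congrArg Complex.re hmul
        have him := congrArg Complex.im hmul
        simp at hre him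
        rw [eq_div_iff hns.ne']
        linear_combination b * him - d * hre
      rw [this]
      exact div_pos (by linarith) hns
    let z' : Sym2 V → ℂ := fun f => if f = e then x else if f = g then Complex.I else (z f : ℂ)
    have hne := treeSum_ne_zero hA₀ z' (by
      intro f _
      simp only [z']
      by_cases hfe : f = e
      · left; rw [if_pos hfe]; exact hxim
      · rw [if_neg hfe]
        by_cases hfg : f = g
        · left; rw [if_pos hfg]; simp
        · right; rw [if_neg hfg]; simp [hz f])
    apply hne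
    have hcoe : ∀ A, (∏ f ∈ (A.erase e).erase g, z' f) = (u A : ℂ) := by
      intro A
      simp only [u]
      push_cast
      refine Finset.prod_congr rfl fun f hf => ?_
      have hfg : f ≠ g := Finset.ne_of_mem_erase hf
      have hfe : f ≠ e := Finset.ne_of_mem_erase (Finset.mem_of_mem_erase hf)
      simp [z', hfg, hfe]
    have hz'e : z' e = x := by simp [z']
    have hz'g : z' g = Complex.I := by simp [z', heg.symm]
    have hsum : treeSum G S z' = (a : ℂ) + x * b + Complex.I * c + x * Complex.I * d := by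
      have htS : treeSum G S z' = ∑ A ∈ 𝒯, ∏ f ∈ A, z' f := by
        unfold treeSum
        apply Finset.sum_congr
        · ext A; simp [h𝒯]
        · intros; rfl
      rw [htS]
      simp only [a, b, c, d]
      push_cast
      rw [Finset.mul_sum, Finset.mul_sum, Finset.mul_sum,
        ← Finset.sum_add_distrib, ← Finset.sum_add_distrib, ← Finset.sum_add_distrib]
      refine Finset.sum_congr rfl fun A _ => ?_
      rw [prod_split z' heg A, hcoe, hz'e, hz'g]
      by_cases he : e ∈ A <;> by_cases hg : g ∈ A <;> simp [he, hg]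
    rw [hsum]
    have hmul : x * ((b : ℂ) + d * Complex.I) = -((a : ℂ) + c * Complex.I) :=
      div_mul_cancel₀ _ hden
    linear_combination hmul
  rw [h11, h10, h01, h00]
  have hze := hz e
  have hzg := hz g
  nlinarith [mul_nonneg (mul_pos hze hzg).le (sub_nonneg.mpr key)]

end Crest.Agent.R168
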