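import Mathlib
import Crest.Prelude.Def_SpanningTrees
import Crest.Agent.R168.TreeNegCorr
import Crest.Agent.R168.Defs
import Crest.Agent.R168.SR
import Crest.Agent.R168.Final0255

-- ▼ part R168/NegCorr
section

set_option autoImplicit false

/-!
Negative correlation for weighted finite set families.
`W 𝒜 z F` = sum over members `A` of `𝒜` containing `F` of the weight `∏ a ∈ A, z a`.
`NC 𝒜` : pairwise negative correlation for all positive weights.
-/

namespace Crest.Agent.R168.UST

open Finset Filter Topology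

variable {α : Type*} [DecidableEq α]

/-- weighted sum of the members of `𝒜` containing `F` -/
noncomputable def W (𝒜 : Finset (Finset α)) (z : α → ℝ) (F : Finset α) : ℝ :=
  ∑ A ∈ 𝒜.filter (fun A => F ⊆ A), ∏ a ∈ A, z a

/-- pairwise negative correlation for all positive weights -/
def NC (𝒜 : Finset (Finset α)) : Prop :=
  ∀ z : α → ℝ, (∀ a, 0 < z a) → ∀ e g : α, e ≠ g →
    W 𝒜 z {e, g} * W 𝒜 z ∅ ≤ W 𝒜 z {e} * W 𝒜 z {g}

theorem W_nonneg (𝒜 : Finset (Finset α)) {z : α → ℝ} (hz : ∀ a, 0 ≤ z a) (F : Finset α) :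
    0 ≤ W 𝒜 z F :=
  Finset.sum_nonneg fun _ _ => Finset.prod_nonneg fun a _ => hz a

theorem W_anti (𝒜 : Finset (Finset α)) {z : α → ℝ} (hz : ∀ a, 0 ≤ z a) {F F' : Finset α}
    (h : F ⊆ F') : W 𝒜 z F' ≤ W 𝒜 z F := by
  unfold W
  apply Finset.sum_le_sum_of_subset_of_nonneg
  · intro A hA
    simp only [mem_filter] at hA ⊢
    exact ⟨hA.1, h.trans hA.2⟩
  · intro A _ _
    exact Finset.prod_nonneg fun a _ => hz a

/-- weights with the elements of `F` multiplied by `t` -/
theorem W_scale_tendsto (𝒜 : Finset (Finset α)) (z : α → ℝ) (F F' : Finset α) :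
    Tendsto (fun t : ℝ => t⁻¹ ^ F.card * W 𝒜 (fun a => if a ∈ F then t * z a else z a) F')
      atTop (𝓝 (W 𝒜 z (F ∪ F'))) := by
  have h1 : ∀ t : ℝ, t⁻¹ ^ F.card * W 𝒜 (fun a => if a ∈ F then t * z a else z a) F' =
      ∑ A ∈ 𝒜.filter (fun A => F' ⊆ A),
        (t⁻¹ ^ F.card * t ^ (A ∩ F).card) * ∏ a ∈ A, z a := by
    intro t
    unfold W
    rw [Finset.mul_sum]
    refine Finset.sum_congr rfl fun A _ => ?_
    rw [mul_assoc]
    congr 1
    have : ∀ a ∈ A, (if a ∈ F then t * z a else z a) = (if a ∈ F then t else 1) * z a := by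
      intro a _; split_ifs <;> simp
    rw [Finset.prod_congr rfl this, Finset.prod_mul_distrib]
    congr 1
    rw [Finset.prod_ite]
    simp [Finset.filter_mem_eq_inter]
  have h2 : W 𝒜 z (F ∪ F') =
      ∑ A ∈ 𝒜.filter (fun A => F' ⊆ A), (if F ⊆ A then (1 : ℝ) else 0) * ∏ a ∈ A, z a := by
    unfold W
    have : 𝒜.filter (fun A => F ∪ F' ⊆ A) = (𝒜.filter (fun A => F' ⊆ A)).filter (fun A => F ⊆ A) := by
      ext A
      simp only [mem_filter, Finset.union_subset_iff]
      tauto
    rw [this, Finset.sum_filter]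
    refine Finset.sum_congr rfl fun A _ => ?_
    split_ifs <;> simp
  simp_rw [h1]
  rw [h2]
  refine tendsto_finsetSum _ fun A _ => ?_
  refine Tendsto.mul_const _ ?_
  by_cases hA : F ⊆ A
  · simp only [hA, if_true]
    have hc : (A ∩ F).card = F.card := by
      rw [Finset.inter_eq_right.mpr hA]
    rw [hc]
    refine tendsto_const_nhds.congr' ?_
    filter_upwards [eventually_gt_atTop (0 : ℝ)] with t ht
    rw [← mul_pow, inv_mul_cancel₀ ht.ne', one_pow]
  · simp only [hA, if_false]
    have hc : (A ∩ F).card < F.card := by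
      apply Finset.card_lt_card
      rw [Finset.ssubset_iff_subset_ne]
      refine ⟨Finset.inter_subset_right, fun h => hA ?_⟩
      rw [← h]; exact Finset.inter_subset_left
    obtain ⟨k, hk⟩ : ∃ k, F.card = (A ∩ F).card + (k + 1) := ⟨F.card - (A ∩ F).card - 1, by omega⟩
    have : (fun t : ℝ => t⁻¹ ^ (k + 1)) =ᶠ[atTop] fun t : ℝ => t⁻¹ ^ F.card * t ^ (A ∩ F).card := by
      filter_upwards [eventually_gt_atTop (0 : ℝ)] with t ht
      rw [hk, pow_add t⁻¹ (A ∩ F).card (k + 1), mul_comm (t⁻¹ ^ (A ∩ F).card), mul_assoc, ← mul_pow,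
        inv_mul_cancel₀ ht.ne', one_pow, mul_one]
    refine Tendsto.congr' this ?_
    have h0 : Tendsto (fun t : ℝ => t⁻¹) atTop (𝓝 0) := tendsto_inv_atTop_zero
    simpa using h0.pow (k + 1)

/-- negative correlation in the links -/
theorem NC.link {𝒜 : Finset (Finset α)} (h : NC 𝒜) {z : α → ℝ} (hz : ∀ a, 0 < z a)
    {e g : α} (heg : e ≠ g) (F : Finset α) :
    W 𝒜 z (F ∪ {e, g}) * W 𝒜 z F ≤ W 𝒜 z (F ∪ {e}) * W 𝒜 z (F ∪ {g}) := by
  have h1 := (W_scale_tendsto 𝒜 z F {e, g}).mul (W_scale_tendsto 𝒜 z F ∅)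
  have h2 := (W_scale_tendsto 𝒜 z F {e}).mul (W_scale_tendsto 𝒜 z F {g})
  rw [Finset.union_empty] at h1
  refine le_of_tendsto_of_tendsto h1 h2 ?_
  filter_upwards [eventually_gt_atTop (0 : ℝ)] with t ht
  have hz' : ∀ a, 0 < (fun a => if a ∈ F then t * z a else z a) a := by
    intro a
    dsimp only
    split_ifs
    · exact mul_pos ht (hz a)
    · exact hz a
  have := h _ hz' e g heg
  have hp : 0 ≤ t⁻¹ ^ F.card := by positivity
  calc _ = (t⁻¹ ^ F.card * t⁻¹ ^ F.card) *
        (W 𝒜 (fun a => if a ∈ F then t * z a else z a) {e, g} *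
          W 𝒜 (fun a => if a ∈ F then t * z a else z a) ∅) := by ring
    _ ≤ (t⁻¹ ^ F.card * t⁻¹ ^ F.card) *
        (W 𝒜 (fun a => if a ∈ F then t * z a else z a) {e} *
          W 𝒜 (fun a => if a ∈ F then t * z a else z a) {g}) := by
        exact mul_le_mul_of_nonneg_left this (mul_nonneg hp hp)
    _ = _ := by ring

/-- negative correlation between an element and a set of elements -/
theorem NC.cond {𝒜 : Finset (Finset α)} (h : NC 𝒜) {z : α → ℝ} (hz : ∀ a, 0 < z a)
    {e : α} (F : Finset α) (he : e ∉ F) :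
    W 𝒜 z (F ∪ {e}) * W 𝒜 z ∅ ≤ W 𝒜 z F * W 𝒜 z {e} := by
  induction F using Finset.induction_on with
  | empty => simp [mul_comm]
  | insert g F hg ih =>
    have hz0 : ∀ a, 0 ≤ z a := fun a => (hz a).le
    have heF : e ∉ F := fun h' => he (Finset.mem_insert_of_mem h')
    have heg : e ≠ g := fun h' => he (by rw [h']; exact Finset.mem_insert_self _ _)
    have ih := ih heF
    have hl := h.link hz heg F
    have e1 : insert g F ∪ {e} = F ∪ {e, g} := by
      ext a; simp only [mem_union, mem_insert, mem_singleton]; tauto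
    have e2 : insert g F = F ∪ {g} := by
      ext a; simp only [mem_union, mem_insert, mem_singleton]; tauto
    rw [e1, e2]
    rcases (W_nonneg 𝒜 hz0 (F ∪ {e})).eq_or_lt with h0 | hpos
    · have : W 𝒜 z (F ∪ {e, g}) = 0 := by
        refine le_antisymm ?_ (W_nonneg 𝒜 hz0 _)
        rw [h0]
        apply W_anti 𝒜 hz0
        intro a; simp only [mem_union, mem_insert, mem_singleton]; tauto
      rw [this, zero_mul]
      exact mul_nonneg (W_nonneg 𝒜 hz0 _) (W_nonneg 𝒜 hz0 _)
    · have hposF : 0 < W 𝒜 z F := lt_of_lt_of_le hpos (W_anti 𝒜 hz0 Finset.subset_union_left)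
      have hprod : 0 < W 𝒜 z F * W 𝒜 z (F ∪ {e}) := mul_pos hposF hpos
      refine le_of_mul_le_mul_left ?_ hprod
      calc W 𝒜 z F * W 𝒜 z (F ∪ {e}) * (W 𝒜 z (F ∪ {e, g}) * W 𝒜 z ∅)
          = (W 𝒜 z (F ∪ {e, g}) * W 𝒜 z F) * (W 𝒜 z (F ∪ {e}) * W 𝒜 z ∅) := by ring
        _ ≤ (W 𝒜 z (F ∪ {e}) * W 𝒜 z (F ∪ {g})) * (W 𝒜 z F * W 𝒜 z {e}) := by
            apply mul_le_mul hl ih
            · exact mul_nonneg (W_nonneg 𝒜 hz0 _) (W_nonneg 𝒜 hz0 _)
            · exact mul_nonneg (W_nonneg 𝒜 hz0 _) (W_nonneg 𝒜 hz0 _)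
        _ = W 𝒜 z F * W 𝒜 z (F ∪ {e}) * (W 𝒜 z (F ∪ {g}) * W 𝒜 z {e}) := by ring

end Crest.Agent.R168.UST
end

-- ▼ part R168/USTBasic
section

set_option autoImplicit false

/-!
Basic facts on the spanning trees of the finite pieces of a graph.
-/

namespace Crest.Agent.R168.UST

open Finset Filter Topology
open Crest.ProbabilityR.SpanningTrees

variable {V : Type*}

theorem mem_edgesIn {G : SimpleGraph V} {S : Finset V} {e : Sym2 V} :
    e ∈ edgesIn G S ↔ (∀ x ∈ e, x ∈ S) ∧ e ∈ G.edgeSet := by
  classical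
  unfold edgesIn
  simp only [Finset.mem_filter, Finset.mem_sym2_iff]

theorem card_edgeSet_induce (A : Finset (Sym2 V)) (S : Finset V)
    (hA : ∀ e ∈ A, ¬ e.IsDiag ∧ ∀ x ∈ e, x ∈ S) :
    Nat.card ((SimpleGraph.fromEdgeSet (A : Set (Sym2 V))).induce (S : Set V)).edgeSet
      = A.card := by
  have hinj : Function.Injective (Sym2.map (Subtype.val : ↥(S : Set V) → V)) :=
    Sym2.map.injective Subtype.val_injective
  have himg : (Sym2.map (Subtype.val : ↥(S : Set V) → V)) ''
      ((SimpleGraph.fromEdgeSet (A : Set (Sym2 V))).induce (S : Set V)).edgeSet = (A : Set (Sym2 V)) := by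
    ext e
    constructor
    · rintro ⟨e', he', rfl⟩
      induction e' using Sym2.ind with
      | _ x y =>
        simp only [SimpleGraph.mem_edgeSet, SimpleGraph.comap_adj, Function.Embedding.subtype_apply,
          SimpleGraph.fromEdgeSet_adj] at he'
        simpa using he'.1
    · intro he
      have h := hA e he
      induction e using Sym2.ind with
      | _ x y =>
        have hx : x ∈ S := h.2 x (Sym2.mem_mk_left x y)
        have hy : y ∈ S := h.2 y (Sym2.mem_mk_right x y)
        refine ⟨s(⟨x, hx⟩, ⟨y, hy⟩), ?_, by simp⟩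
        simp only [SimpleGraph.mem_edgeSet, SimpleGraph.comap_adj, Function.Embedding.subtype_apply,
          SimpleGraph.fromEdgeSet_adj]
        refine ⟨he, ?_⟩
        have := h.1
        simpa [Sym2.mk_isDiag_iff] using this
  have h1 : Nat.card ((SimpleGraph.fromEdgeSet (A : Set (Sym2 V))).induce (S : Set V)).edgeSet
      = ((SimpleGraph.fromEdgeSet (A : Set (Sym2 V))).induce (S : Set V)).edgeSet.ncard := rfl
  rw [h1, ← Set.ncard_image_of_injective _ hinj, himg, Set.ncard_coe_finset]

theorem isST_iff {G : SimpleGraph V} {S : Finset V} {A : Finset (Sym2 V)} :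
    IsSpanningTreeOn G S A ↔ A ⊆ edgesIn G S ∧
      ((SimpleGraph.fromEdgeSet (A : Set (Sym2 V))).induce (S : Set V)).Connected ∧
      A.card + 1 = S.card := by
  unfold IsSpanningTreeOn
  refine and_congr_right fun hA => ?_
  rw [SimpleGraph.isTree_iff_connected_and_card, card_edgeSet_induce]
  · simp
  · intro e he
    have := mem_edgesIn.mp (hA he)
    exact ⟨G.not_isDiag_of_mem_edgeSet this.2, this.1⟩

open Classical in
/-- the spanning trees of the piece of `G` on `S` -/
noncomputable def ST (G : SimpleGraph V) (S : Finset V) : Finset (Finset (Sym2 V)) :=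
  (edgesIn G S).powerset.filter (fun A => IsSpanningTreeOn G S A)

theorem mem_ST {G : SimpleGraph V} {S : Finset V} {A : Finset (Sym2 V)} :
    A ∈ ST G S ↔ IsSpanningTreeOn G S A := by
  classical
  unfold ST
  simp only [Finset.mem_filter, Finset.mem_powerset]
  exact ⟨fun h => h.2, fun h => ⟨h.1, h⟩⟩

/-- number of spanning trees containing `F` -/
theorem W_one [DecidableEq V] (𝒜 : Finset (Finset (Sym2 V))) (F : Finset (Sym2 V)) :
    W 𝒜 (fun _ => 1) F = ((𝒜.filter (fun A => F ⊆ A)).card : ℝ) := by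
  simp [W]

theorem ust_eq [DecidableEq V] (G : SimpleGraph V) (S : Finset V) (F : Finset (Sym2 V)) :
    ustContains G S F = W (ST G S) (fun _ => 1) F / W (ST G S) (fun _ => 1) ∅ := by
  rw [W_one, W_one]
  unfold ustContains
  congr 2
  · congr 1
    ext A
    simp only [Finset.mem_filter, mem_ST, Finset.mem_powerset]
    constructor
    · rintro ⟨_, h2, h3⟩; exact ⟨h2, h3⟩
    · rintro ⟨h2, h3⟩; exact ⟨h2.1, h2, h3⟩
  · congr 1
    ext A
    simp only [Finset.mem_filter, mem_ST, Finset.mem_powerset]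
    constructor
    · rintro ⟨_, h2⟩; exact ⟨h2, by simp⟩
    · rintro ⟨h2, h3⟩; exact ⟨h2.1, h2⟩

/-- a connected piece has a spanning tree -/
theorem ST_nonempty {G : SimpleGraph V} {S : Finset V} (h : (G.induce (S : Set V)).Connected) :
    (ST G S).Nonempty := by
  classical
  obtain ⟨T, hT, hTree⟩ := h.exists_isTree_le
  -- edge set of T pushed to V
  let A : Finset (Sym2 V) :=
    (T.edgeSet.toFinite.toFinset).image (Sym2.map (Subtype.val : ↥(S : Set V) → V))
  have hfe : (SimpleGraph.fromEdgeSet (A : Set (Sym2 V))).induce (S : Set V) = T := by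
    ext x y
    simp only [SimpleGraph.comap_adj, Function.Embedding.subtype_apply, SimpleGraph.fromEdgeSet_adj,
      A, Finset.coe_image, Set.Finite.coe_toFinset]
    constructor
    · rintro ⟨⟨e, he, hee⟩, hne⟩
      have hinj : Function.Injective (Sym2.map (Subtype.val : ↥(S : Set V) → V)) :=
        Sym2.map.injective Subtype.val_injective
      have : e = s(x, y) := hinj (by rw [hee]; simp)
      rw [this] at he
      exact he
    · intro hxy
      exact ⟨⟨s(x, y), hxy, by simp⟩, fun h => hxy.ne (Subtype.ext h)⟩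
  refine ⟨A, ?_⟩
  rw [mem_ST]
  refine ⟨?_, by rw [hfe]; exact hTree⟩
  intro e he
  simp only [A, Finset.mem_image, Set.Finite.mem_toFinset] at he
  obtain ⟨e', he', rfl⟩ := he
  rw [mem_edgesIn]
  induction e' using Sym2.ind with
  | _ x y =>
    have hadj : T.Adj x y := he'
    have := hT hadj
    simp only [Sym2.map_mk, SimpleGraph.mem_edgeSet]
    refine ⟨?_, by simpa using this⟩
    intro z hz
    rw [Sym2.mem_iff] at hz
    rcases hz with rfl | rfl
    · exact x.2
    · exact y.2

theorem card_of_mem_ST {G : SimpleGraph V} {S : Finset V} {A : Finset (Sym2 V)} (h : A ∈ ST G S) :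
    A.card + 1 = S.card := (isST_iff.mp (mem_ST.mp h)).2.2

end Crest.Agent.R168.UST
end

-- ▼ part R168/USTMono
section

set_option autoImplicit false

/-!
Monotonicity of `ustContains` in the finite piece, from pairwise negative correlation.
-/

namespace Crest.Agent.R168.UST

open Finset Filter Topology
open Crest.ProbabilityR.SpanningTrees

variable {V : Type*}

theorem edgesIn_deleteEdges [DecidableEq V] (G : SimpleGraph V) (S : Finset V)
    (D : Finset (Sym2 V)) :
    edgesIn (G.deleteEdges (D : Set (Sym2 V))) S = edgesIn G S \ D := by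
  ext e
  rw [mem_edgesIn, Finset.mem_sdiff, mem_edgesIn, SimpleGraph.edgeSet_deleteEdges]
  simp only [Set.mem_sdiff, Finset.mem_coe]
  tauto

theorem mem_ST_deleteEdges [DecidableEq V] {G : SimpleGraph V} {S : Finset V}
    {D A : Finset (Sym2 V)} :
    A ∈ ST (G.deleteEdges (D : Set (Sym2 V))) S ↔ A ∈ ST G S ∧ Disjoint A D := by
  rw [mem_ST, mem_ST]
  unfold IsSpanningTreeOn
  rw [edgesIn_deleteEdges, Finset.subset_sdiff]
  tauto

theorem ST_deleteEdges_subset [DecidableEq V] {G : SimpleGraph V} {S : Finset V}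
    {D : Finset (Sym2 V)} : ST (G.deleteEdges (D : Set (Sym2 V))) S ⊆ ST G S := by
  intro A hA
  exact (mem_ST_deleteEdges.mp hA).1

theorem W_pos_of_nonempty [DecidableEq V] {𝒜 : Finset (Finset (Sym2 V))} (h : 𝒜.Nonempty) :
    0 < W 𝒜 (fun _ => 1) ∅ := by
  rw [W_one]
  simpa using h

theorem ust_le_delete_one [DecidableEq V] {G : SimpleGraph V} {S : Finset V}
    (hNC : NC (ST G S)) {F : Finset (Sym2 V)} {e : Sym2 V} (he : e ∉ F)
    (hne : (ST (G.deleteEdges {e}) S).Nonempty) :
    ustContains G S F ≤ ustContains (G.deleteEdges {e}) S F := by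
  have hcoe : (({e} : Finset (Sym2 V)) : Set (Sym2 V)) = {e} := by simp
  have key : ∀ F : Finset (Sym2 V), W (ST G S) (fun _ => 1) F =
      W (ST (G.deleteEdges {e}) S) (fun _ => 1) F + W (ST G S) (fun _ => 1) (F ∪ {e}) := by
    intro F
    rw [W_one, W_one, W_one, ← Nat.cast_add]
    congr 1
    rw [← Finset.card_filter_add_card_filter_not (s := (ST G S).filter (fun A => F ⊆ A))
      (p := fun A => e ∉ A)]
    congr 1
    · congr 1
      ext A
      rw [← hcoe]
      simp only [Finset.mem_filter, mem_ST_deleteEdges, Finset.disjoint_singleton_right]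
      tauto
    · congr 1
      ext A
      simp only [Finset.mem_filter, Finset.union_subset_iff, Finset.singleton_subset_iff, not_not]
      tauto
  have hcond := hNC.cond (z := fun _ => 1) (fun _ => one_pos) F he
  rw [ust_eq, ust_eq]
  have hpos := W_pos_of_nonempty hne
  have k1 := key F
  have k2 := key ∅
  rw [Finset.empty_union] at k2
  have h3 : 0 ≤ W (ST G S) (fun _ => (1:ℝ)) {e} := W_nonneg _ (fun _ => zero_le_one) _
  have hpos' : 0 < W (ST G S) (fun _ => (1:ℝ)) ∅ := by rw [k2]; linarith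
  rw [div_le_div_iff₀ hpos' hpos]
  have e1 : W (ST (G.deleteEdges {e}) S) (fun _ => (1:ℝ)) F =
    W (ST G S) (fun _ => 1) F - W (ST G S) (fun _ => 1) (F ∪ {e}) := by linarith
  have e2 : W (ST (G.deleteEdges {e}) S) (fun _ => (1:ℝ)) ∅ =
    W (ST G S) (fun _ => 1) ∅ - W (ST G S) (fun _ => 1) {e} := by linarith
  rw [e1, e2, mul_sub, sub_mul]
  linarith

theorem ust_le_delete [DecidableEq V] (hNC : ∀ (G : SimpleGraph V) (S : Finset V), NC (ST G S))
    {G : SimpleGraph V} {S : Finset V}
    {F : Finset (Sym2 V)} (D : Finset (Sym2 V)) (hD : Disjoint D F)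
    (hne : (ST (G.deleteEdges (D : Set (Sym2 V))) S).Nonempty) :
    ustContains G S F ≤ ustContains (G.deleteEdges (D : Set (Sym2 V))) S F := by
  induction D using Finset.induction_on with
  | empty => simp
  | insert e D heD ih =>
    have hG : G.deleteEdges ((insert e D : Finset (Sym2 V)) : Set (Sym2 V)) =
        (G.deleteEdges (D : Set (Sym2 V))).deleteEdges {e} := by
      rw [SimpleGraph.deleteEdges_deleteEdges]
      congr 1
      rw [Finset.coe_insert, Set.union_singleton]
    rw [Finset.disjoint_insert_left] at hD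
    have hne' : (ST (G.deleteEdges (D : Set (Sym2 V))) S).Nonempty := by
      rw [hG] at hne
      have hcoe : (({e} : Finset (Sym2 V)) : Set (Sym2 V)) = {e} := by simp
      rw [← hcoe] at hne
      exact hne.mono ST_deleteEdges_subset
    refine (ih hD.2 hne').trans ?_
    rw [hG] at hne ⊢
    exact ust_le_delete_one (hNC _ _) hD.1 hne

/-- adding a pendant vertex keeps the tree connected -/
theorem connected_insert [DecidableEq V] {S : Finset V} {A : Finset (Sym2 V)} {u v : V}
    (hu : u ∈ S) (huv : u ≠ v)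
    (h : ((SimpleGraph.fromEdgeSet (A : Set (Sym2 V))).induce (S : Set V)).Connected) :
    ((SimpleGraph.fromEdgeSet ((insert s(u, v) A : Finset (Sym2 V)) : Set (Sym2 V))).induce
      ((insert v S : Finset V) : Set V)).Connected := by
  set H := SimpleGraph.fromEdgeSet ((insert s(u, v) A : Finset (Sym2 V)) : Set (Sym2 V)) with hH
  have h1 : (H.induce (S : Set V)).Connected := by
    refine h.mono ?_
    intro x y hxy
    simp only [SimpleGraph.comap_adj, Function.Embedding.subtype_apply,
      SimpleGraph.fromEdgeSet_adj, hH] at hxy ⊢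
    refine ⟨?_, hxy.2⟩
    simp only [Finset.coe_insert, Set.mem_insert_iff]
    exact Or.inr hxy.1
  have hadj : H.Adj u v := by
    rw [hH, SimpleGraph.fromEdgeSet_adj]
    exact ⟨by simp, huv⟩
  have h2 : (H.induce ({u, v} : Set V)).Connected := by
    rw [SimpleGraph.connected_iff]
    refine ⟨?_, ⟨⟨u, by simp⟩⟩⟩
    rintro ⟨a, ha⟩ ⟨b, hb⟩
    have hab : (H.induce ({u, v} : Set V)).Adj ⟨u, by simp⟩ ⟨v, by simp⟩ := by
      simpa using hadj
    rcases ha with rfl | ha <;> rcases hb with rfl | hb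
    · exact SimpleGraph.Reachable.refl _
    · rw [Set.mem_singleton_iff] at hb; subst hb; exact hab.reachable
    · rw [Set.mem_singleton_iff] at ha; subst ha; exact hab.reachable.symm
    · rw [Set.mem_singleton_iff] at ha hb; subst ha; subst hb; exact SimpleGraph.Reachable.refl _
  have h3 := SimpleGraph.induce_union_connected h1.preconnected h2.preconnected ⟨u, by simpa using hu, by simp⟩
  have h4 : (S : Set V) ∪ {u, v} = ((insert v S : Finset V) : Set V) := by
    ext x
    simp only [Set.mem_union, Finset.mem_coe, Set.mem_insert_iff, Set.mem_singleton_iff,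
      Finset.coe_insert]
    constructor
    · rintro (h | rfl | rfl) <;> simp_all
    · rintro (rfl | h) <;> simp_all
  rw [h4] at h3
  exact h3

theorem connected_of_insert [DecidableEq V] {S : Finset V} {A : Finset (Sym2 V)} {u v : V}
    (hu : u ∈ S) (hv : v ∉ S) (hA : ∀ e ∈ A, ∀ x ∈ e, x ∈ S)
    (h : ((SimpleGraph.fromEdgeSet ((insert s(u, v) A : Finset (Sym2 V)) : Set (Sym2 V))).induce
      ((insert v S : Finset V) : Set V)).Connected) :
    ((SimpleGraph.fromEdgeSet (A : Set (Sym2 V))).induce (S : Set V)).Connected := by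
  set H := ((SimpleGraph.fromEdgeSet ((insert s(u, v) A : Finset (Sym2 V)) : Set (Sym2 V))).induce
      ((insert v S : Finset V) : Set V)) with hH
  have h1 : (H.induce {x | x.1 ∈ S}).Preconnected := by
    apply h.preconnected.induce_of_degree_eq_one
    rintro ⟨x, hx⟩ hxS
    have hxv : x = v := by
      simp only [Finset.coe_insert, Set.mem_insert_iff, Finset.mem_coe] at hx
      rcases hx with h | h
      · exact h
      · exact absurd h hxS
    subst hxv
    have : ∀ y, H.Adj ⟨x, hx⟩ y → y.1 = u := by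
      rintro ⟨y, hy⟩ hxy
      simp only [hH, SimpleGraph.comap_adj, Function.Embedding.subtype_apply,
        SimpleGraph.fromEdgeSet_adj, Finset.coe_insert, Set.mem_insert_iff, Finset.mem_coe] at hxy
      rcases hxy.1 with h | h
      · rw [Sym2.eq_iff] at h
        rcases h with ⟨h1, h2⟩ | ⟨h1, h2⟩
        · exact absurd (h1 ▸ hu) hv
        · exact h2
      · exact absurd (hA _ h x (Sym2.mem_mk_left _ _)) hv
    intro y hy z hz
    exact Subtype.ext ((this y hy).trans (this z hz).symm)
  let f : (H.induce {x | x.1 ∈ S}) →g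
      ((SimpleGraph.fromEdgeSet (A : Set (Sym2 V))).induce (S : Set V)) :=
    { toFun := fun x => ⟨x.1.1, x.2⟩
      map_rel' := by
        rintro ⟨⟨x, hx⟩, hx'⟩ ⟨⟨y, hy⟩, hy'⟩ hxy
        simp only [hH, SimpleGraph.comap_adj, Function.Embedding.subtype_apply,
          SimpleGraph.fromEdgeSet_adj, Finset.coe_insert, Set.mem_insert_iff, Finset.mem_coe] at hxy
        simp only [SimpleGraph.comap_adj, Function.Embedding.subtype_apply,
          SimpleGraph.fromEdgeSet_adj, Finset.mem_coe]
        refine ⟨?_, hxy.2⟩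
        rcases hxy.1 with h | h
        · exfalso
          rw [Sym2.eq_iff] at h
          rcases h with ⟨h1, h2⟩ | ⟨h1, h2⟩
          · exact hv (h2 ▸ hy')
          · exact hv (h1 ▸ hx')
        · exact h }
  have hf : Function.Surjective f := by
    rintro ⟨x, hx⟩
    have hx2 : x ∈ S := hx
    exact ⟨⟨⟨x, by simp [hx2]⟩, hx⟩, rfl⟩
  rw [SimpleGraph.connected_iff]
  exact ⟨h1.map f hf, ⟨⟨u, hu⟩⟩⟩

/-- the piece `insert v S` after deletion of all new edges but `s(u,v)`: spanning trees are the
spanning trees of the piece `S` with the pendant edge added. -/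
theorem mem_ST_pendant [DecidableEq V] {G : SimpleGraph V} {S : Finset V} {u v : V}
    (hu : u ∈ S) (hv : v ∉ S) (huv : G.Adj u v) {D : Finset (Sym2 V)}
    (hD : edgesIn G (insert v S) \ D = insert s(u, v) (edgesIn G S)) (B : Finset (Sym2 V)) :
    B ∈ ST (G.deleteEdges (D : Set (Sym2 V))) (insert v S) ↔
      ∃ A ∈ ST G S, B = insert s(u, v) A := by
  have hne : u ≠ v := huv.ne
  have hnotmem : s(u, v) ∉ edgesIn G S := by
    intro h
    exact hv ((mem_edgesIn.mp h).1 v (Sym2.mem_mk_right u v))
  have hcardS : (insert v S).card = S.card + 1 := Finset.card_insert_of_notMem hv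
  rw [mem_ST, isST_iff, edgesIn_deleteEdges, hD, hcardS]
  constructor
  · rintro ⟨hB, hconn, hcard⟩
    -- the pendant edge belongs to `B`
    have heB : s(u, v) ∈ B := by
      by_contra hcon
      have hB' : B ⊆ edgesIn G S := by
        intro e he
        rcases Finset.mem_insert.mp (hB he) with h | h
        · exact absurd (h ▸ he) hcon
        · exact h
      -- `v` is isolated
      obtain ⟨w⟩ := hconn.preconnected ⟨v, by simp⟩ ⟨u, by simp [hu]⟩
      cases w with
      | nil => exact hne rfl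
      | cons h p =>
        rename_i x
        have hx : ((SimpleGraph.fromEdgeSet (B : Set (Sym2 V)))).Adj v x.1 := h
        rw [SimpleGraph.fromEdgeSet_adj] at hx
        have := (mem_edgesIn.mp (hB' hx.1)).1 v (Sym2.mem_mk_left _ _)
        exact hv this
    refine ⟨B.erase s(u, v), ?_, (Finset.insert_erase heB).symm⟩
    have hA : B.erase s(u, v) ⊆ edgesIn G S := by
      intro e he
      rw [Finset.mem_erase] at he
      rcases Finset.mem_insert.mp (hB he.2) with h | h
      · exact absurd h he.1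
      · exact h
    rw [mem_ST, isST_iff]
    refine ⟨hA, ?_, ?_⟩
    · apply connected_of_insert hu hv (u := u) (v := v)
      · intro e he
        exact (mem_edgesIn.mp (hA he)).1
      · rw [Finset.insert_erase heB]
        exact hconn
    · have := Finset.card_erase_add_one heB
      omega
  · rintro ⟨A, hA, rfl⟩
    rw [mem_ST, isST_iff] at hA
    have hnA : s(u, v) ∉ A := fun h => hnotmem (hA.1 h)
    refine ⟨Finset.insert_subset_insert _ hA.1, connected_insert hu hne hA.2.1, ?_⟩
    rw [Finset.card_insert_of_notMem hnA, hA.2.2]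

theorem ust_pendant [DecidableEq V] {G : SimpleGraph V} {S : Finset V} {u v : V}
    (hu : u ∈ S) (hv : v ∉ S) (huv : G.Adj u v) {D : Finset (Sym2 V)}
    (hD : edgesIn G (insert v S) \ D = insert s(u, v) (edgesIn G S)) {F : Finset (Sym2 V)}
    (hF : F ⊆ edgesIn G S) :
    ustContains (G.deleteEdges (D : Set (Sym2 V))) (insert v S) F = ustContains G S F := by
  have hnotmem : s(u, v) ∉ edgesIn G S := by
    intro h
    exact hv ((mem_edgesIn.mp h).1 v (Sym2.mem_mk_right u v))
  have key : ∀ F' : Finset (Sym2 V), F' ⊆ edgesIn G S →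
      W (ST (G.deleteEdges (D : Set (Sym2 V))) (insert v S)) (fun _ => 1) F' =
      W (ST G S) (fun _ => 1) F' := by
    intro F' hF'
    rw [W_one, W_one]
    congr 1
    symm
    apply Finset.card_bij (fun A _ => insert s(u, v) A)
    · intro A hA
      rw [Finset.mem_filter] at hA ⊢
      refine ⟨(mem_ST_pendant hu hv huv hD _).mpr ⟨A, hA.1, rfl⟩, ?_⟩
      exact hA.2.trans (Finset.subset_insert _ _)
    · intro A hA B hB h
      have hA' : s(u, v) ∉ A := fun h' => hnotmem ((mem_ST.mp (Finset.mem_filter.mp hA).1).1 h')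
      have hB' : s(u, v) ∉ B := fun h' => hnotmem ((mem_ST.mp (Finset.mem_filter.mp hB).1).1 h')
      rw [← Finset.erase_insert hA', ← Finset.erase_insert hB', h]
    · intro B hB
      rw [Finset.mem_filter] at hB
      obtain ⟨A, hA, rfl⟩ := (mem_ST_pendant hu hv huv hD _).mp hB.1
      refine ⟨A, ?_, rfl⟩
      rw [Finset.mem_filter]
      refine ⟨hA, ?_⟩
      intro e he
      rcases Finset.mem_insert.mp (hB.2 he) with h | h
      · exact absurd (h ▸ hF' he) hnotmem
      · exact h
  rw [ust_eq, ust_eq, key F hF, key ∅ (Finset.empty_subset _)]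

theorem ust_anti_one [DecidableEq V]
    (hNC : ∀ (G : SimpleGraph V) (S : Finset V), NC (ST G S))
    {G : SimpleGraph V} {S : Finset V} {u v : V}
    (hS : (G.induce (S : Set V)).Connected)
    (hu : u ∈ S) (hv : v ∉ S) (huv : G.Adj u v) {F : Finset (Sym2 V)}
    (hF : F ⊆ edgesIn G S) :
    ustContains G (insert v S) F ≤ ustContains G S F := by
  set D : Finset (Sym2 V) := edgesIn G (insert v S) \ insert s(u, v) (edgesIn G S) with hDdef
  have hsub : insert s(u, v) (edgesIn G S) ⊆ edgesIn G (insert v S) := by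
    intro e he
    rw [mem_edgesIn]
    rcases Finset.mem_insert.mp he with rfl | h
    · refine ⟨?_, huv⟩
      intro x hx
      rw [Sym2.mem_iff] at hx
      rcases hx with rfl | rfl
      · exact Finset.mem_insert_of_mem hu
      · exact Finset.mem_insert_self _ _
    · rw [mem_edgesIn] at h
      exact ⟨fun x hx => Finset.mem_insert_of_mem (h.1 x hx), h.2⟩
  have hD : edgesIn G (insert v S) \ D = insert s(u, v) (edgesIn G S) := by
    rw [hDdef, sdiff_sdiff_right_self]
    exact Finset.inter_eq_right.mpr hsub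
  rw [← ust_pendant hu hv huv hD hF]
  apply ust_le_delete hNC
  · rw [hDdef]
    refine Finset.disjoint_left.mpr fun e he heF => ?_
    rw [Finset.mem_sdiff] at he
    exact he.2 (Finset.mem_insert_of_mem (hF heF))
  · obtain ⟨A, hA⟩ := ST_nonempty hS
    exact ⟨_, (mem_ST_pendant hu hv huv hD _).mpr ⟨A, hA, rfl⟩⟩

/-- exit edge -/
theorem exists_exit_edge {G : SimpleGraph V} {S S' : Finset V} (hS : S.Nonempty) (hSS' : S ⊆ S')
    (hne : S ≠ S') (hS' : (G.induce (S' : Set V)).Connected) :
    ∃ u ∈ S, ∃ v ∈ S', v ∉ S ∧ G.Adj u v := by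
  by_contra hcon
  push Not at hcon
  obtain ⟨a, ha⟩ := hS
  have : ∃ b ∈ S', b ∉ S := by
    by_contra h
    push Not at h
    exact hne (Finset.Subset.antisymm hSS' h)
  obtain ⟨b, hb, hbS⟩ := this
  obtain ⟨w⟩ := hS'.preconnected ⟨a, hSS' ha⟩ ⟨b, hb⟩
  have : ∀ (x y : ↥(S' : Set V)) (p : (G.induce (S' : Set V)).Walk x y), x.1 ∈ S → y.1 ∈ S := by
    intro x y p
    induction p with
    | nil => exact id
    | cons h p ih =>
      intro hx
      apply ih
      by_contra hy
      exact hcon _ hx _ (by exact Subtype.property _) hy h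
  exact hbS (this _ _ w ha)

theorem connected_insert_piece [DecidableEq V] {G : SimpleGraph V} {S : Finset V} {u v : V}
    (hS : (G.induce (S : Set V)).Connected) (hu : u ∈ S) (huv : G.Adj u v) :
    (G.induce ((insert v S : Finset V) : Set V)).Connected := by
  have h2 : (G.induce ({u, v} : Set V)).Connected := by
    rw [SimpleGraph.connected_iff]
    refine ⟨?_, ⟨⟨u, by simp⟩⟩⟩
    rintro ⟨a, ha⟩ ⟨b, hb⟩
    have hab : (G.induce ({u, v} : Set V)).Adj ⟨u, by simp⟩ ⟨v, by simp⟩ := by
      simpa using huv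
    rcases ha with rfl | ha <;> rcases hb with rfl | hb
    · exact SimpleGraph.Reachable.refl _
    · rw [Set.mem_singleton_iff] at hb; subst hb; exact hab.reachable
    · rw [Set.mem_singleton_iff] at ha; subst ha; exact hab.reachable.symm
    · rw [Set.mem_singleton_iff] at ha hb; subst ha; subst hb; exact SimpleGraph.Reachable.refl _
  have h3 := SimpleGraph.induce_union_connected hS.preconnected h2.preconnected
    ⟨u, by simpa using hu, by simp⟩
  have h4 : (S : Set V) ∪ {u, v} = ((insert v S : Finset V) : Set V) := by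
    ext x
    simp only [Set.mem_union, Finset.mem_coe, Set.mem_insert_iff, Set.mem_singleton_iff,
      Finset.coe_insert]
    constructor
    · rintro (h | rfl | rfl) <;> simp_all
    · rintro (rfl | h) <;> simp_all
  rw [h4] at h3
  exact h3

theorem edgesIn_mono {G : SimpleGraph V} {S S' : Finset V} (h : S ⊆ S') :
    edgesIn G S ⊆ edgesIn G S' := by
  intro e he
  rw [mem_edgesIn] at he ⊢
  exact ⟨fun x hx => h (he.1 x hx), he.2⟩

theorem ust_anti [DecidableEq V]
    (hNC : ∀ (G : SimpleGraph V) (S : Finset V), NC (ST G S))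
    {G : SimpleGraph V} {S S' : Finset V} (hSS' : S ⊆ S')
    (hS : (G.induce (S : Set V)).Connected) (hS' : (G.induce (S' : Set V)).Connected)
    {F : Finset (Sym2 V)} (hF : F ⊆ edgesIn G S) :
    ustContains G S' F ≤ ustContains G S F := by
  obtain ⟨n, hn⟩ : ∃ n, (S' \ S).card = n := ⟨_, rfl⟩
  induction n generalizing S with
  | zero =>
    have : S = S' := by
      rw [Finset.card_eq_zero, Finset.sdiff_eq_empty_iff_subset] at hn
      exact Finset.Subset.antisymm hSS' hn
    rw [this]
  | succ n ih =>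
    have hne : S ≠ S' := by
      rintro rfl
      simp at hn
    have hSne : S.Nonempty := by
      obtain ⟨⟨x, hx⟩⟩ := hS.nonempty
      exact ⟨x, hx⟩
    obtain ⟨u, hu, v, hv, hvS, huv⟩ := exists_exit_edge hSne hSS' hne hS'
    have h1 : insert v S ⊆ S' := Finset.insert_subset hv hSS'
    have h2 := connected_insert_piece hS hu huv
    have h3 : (S' \ insert v S).card = n := by
      rw [Finset.sdiff_insert, Finset.card_erase_of_mem (Finset.mem_sdiff.mpr ⟨hv, hvS⟩), hn]
      rfl
    exact (ih h1 h2 (hF.trans (edgesIn_mono (Finset.subset_insert _ _))) h3).trans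
      (ust_anti_one hNC hS hu hvS huv hF)

end Crest.Agent.R168.UST
end

-- ▼ part R168/USTLimit
section

set_option autoImplicit false

/-!
Convergence of `ustContains` along exhaustions.
-/

namespace Crest.Agent.R168.UST

open Finset Filter Topology
open Crest.ProbabilityR.SpanningTrees

theorem W_eq_wST {V : Type*} [DecidableEq V] (G : SimpleGraph V) (S : Finset V) (z : Sym2 V → ℝ)
    (F : Finset (Sym2 V)) : W (ST G S) z F = wST G S z (fun A => F ⊆ A) := by
  classical
  unfold W wST
  apply Finset.sum_congr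
  · ext A
    simp only [Finset.mem_filter, mem_ST, Finset.mem_powerset]
    constructor
    · rintro ⟨h1, h2⟩; exact ⟨h1.1, h1, h2⟩
    · rintro ⟨_, h1, h2⟩; exact ⟨h1, h2⟩
  · intros; rfl

theorem NC_ST {V : Type*} [DecidableEq V] (G : SimpleGraph V) (S : Finset V) : NC (ST G S) := by
  intro z hz e g heg
  have h := wST_neg (G := G) (S := S) z hz heg
  rw [W_eq_wST, W_eq_wST, W_eq_wST, W_eq_wST]
  have e1 : (fun A : Finset (Sym2 V) => ({e, g} : Finset (Sym2 V)) ⊆ A) =
      fun A => e ∈ A ∧ g ∈ A := by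
    funext A; simp [Finset.insert_subset_iff]
  have e2 : (fun A : Finset (Sym2 V) => (∅ : Finset (Sym2 V)) ⊆ A) = fun _ => True := by
    funext A; simp
  have e3 : ∀ e : Sym2 V, (fun A : Finset (Sym2 V) => ({e} : Finset (Sym2 V)) ⊆ A) =
      fun A => e ∈ A := by
    intro e; funext A; simp
  rw [e1, e2, e3, e3]
  exact h

theorem ust_nonneg {V : Type*} (G : SimpleGraph V) (S : Finset V) (F : Finset (Sym2 V)) :
    0 ≤ ustContains G S F := by
  unfold ustContains
  positivity

/-- existence of limits of `ustContains` along exhaustions, independent of the exhaustion. -/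
theorem exists_limit (G : SimpleGraph ℕ)
    (A : Finset (Sym2 ℕ)) (hA : (A : Set (Sym2 ℕ)) ⊆ G.edgeSet) :
    ∃ q : ℝ, ∀ S : ℕ → Finset ℕ, Monotone S → (∀ v : ℕ, ∃ n, v ∈ S n) →
      (∀ n, (G.induce (S n : Set ℕ)).Connected) →
      Tendsto (fun n => ustContains G (S n) A) atTop (𝓝 q) := by
  classical
  -- infimum over all finite connected pieces containing `A`
  let P : Set ℝ := {r | ∃ S : Finset ℕ, (G.induce (S : Set ℕ)).Connected ∧ A ⊆ edgesIn G S ∧
    r = ustContains G S A}
  refine ⟨sInf P, fun S hmono hcov hconn => ?_⟩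
  have hcovF : ∀ T : Finset ℕ, ∃ n, ∀ m, n ≤ m → T ⊆ S m := by
    intro T
    induction T using Finset.induction_on with
    | empty => exact ⟨0, fun m _ => by simp⟩
    | insert a T _ ih =>
      obtain ⟨n, hn⟩ := ih
      obtain ⟨k, hk⟩ := hcov a
      refine ⟨max n k, fun m hm => Finset.insert_subset ?_ (hn m (le_trans (le_max_left _ _) hm))⟩
      exact hmono (le_trans (le_max_right _ _) hm) hk
  have hAin : ∃ n, ∀ m, n ≤ m → A ⊆ edgesIn G (S m) := by
    let T : Finset ℕ := A.biUnion (fun e => e.toFinset)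
    obtain ⟨n, hn⟩ := hcovF T
    refine ⟨n, fun m hm e he => ?_⟩
    rw [mem_edgesIn]
    refine ⟨fun x hx => hn m hm ?_, hA he⟩
    simp only [T, Finset.mem_biUnion]
    exact ⟨e, he, by simpa using hx⟩
  obtain ⟨n0, hn0⟩ := hAin
  have hbdd : BddBelow P := ⟨0, by
    rintro r ⟨T, _, _, rfl⟩
    exact ust_nonneg _ _ _⟩
  have hPne : P.Nonempty := ⟨_, S n0, hconn n0, hn0 n0 le_rfl, rfl⟩
  rw [Metric.tendsto_atTop]
  intro ε hε
  obtain ⟨r, ⟨T, hT1, hT2, rfl⟩, hr⟩ := exists_lt_of_csInf_lt hPne
    (show sInf P < sInf P + ε by linarith)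
  obtain ⟨n1, hn1⟩ := hcovF T
  refine ⟨max n0 n1, fun m hm => ?_⟩
  have h0 : A ⊆ edgesIn G (S m) := hn0 m (le_trans (le_max_left _ _) hm)
  have h1 : T ⊆ S m := hn1 m (le_trans (le_max_right _ _) hm)
  have h2 : sInf P ≤ ustContains G (S m) A := csInf_le hbdd ⟨S m, hconn m, h0, rfl⟩
  have h3 : ustContains G (S m) A ≤ ustContains G T A :=
    ust_anti NC_ST h1 hT1 (hconn m) hT2
  rw [Real.dist_eq, abs_lt]
  constructor <;> linarith

end Crest.Agent.R168.UST
end

-- ▼ part R168/Tree
section

/-! T7: matrix-tree theorem for `IsSpanningTreeOn` and its two consequences. -/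

set_option autoImplicit false

namespace Crest.Agent.R168

open MeasureTheory ProbabilityTheory Filter Topology
open Crest.ProbabilityR.SpanningTrees



/-- convergence of `P(A ⊆ UST)` along exhaustions, with a limit independent of the exhaustion.
Proof idea (transfer current): `ustContains G S A = det (b_e^T L_S^{-1} b_f)_{e,f ∈ A}` and
`b^T L_S^{-1} b` is nonincreasing in `S` for fixed `b`; polarise. (Or: negative correlation ⇒
`ustContains G S A` nonincreasing in `S`.) -/
theorem exists_ust_limit (G : SimpleGraph ℕ) (hG : G.Connected)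
    (A : Finset (Sym2 ℕ)) (hA : (A : Set (Sym2 ℕ)) ⊆ G.edgeSet) :
    ∃ q : ℝ, ∀ S : ℕ → Finset ℕ, Monotone S → (∀ v : ℕ, ∃ n, v ∈ S n) →
      (∀ n, (G.induce (S n : Set ℕ)).Connected) →
      Tendsto (fun n => ustContains G (S n) A) atTop (𝓝 q) :=
  UST.exists_limit G A hA

end Crest.Agent.R168
end

-- ▼ part R168/Sandwich
section

/-! Sandwich lemma: monotonicity in the other coordinates, logistic dependence on the own
coordinate and a Lipschitz bound for diagonal shifts give a sup-norm Lipschitz bound.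
Used both for strongly Rayleigh laws and for weighted spanning trees. -/

set_option autoImplicit false

namespace Crest.Agent.R168

open Finset

/-- logistic function is `1/4`-Lipschitz (one-sided form). -/
lemma logistic_le (p : ℝ) (hp0 : 0 ≤ p) (hp1 : p ≤ 1) (u : ℝ) (hu : 0 ≤ u) :
    p ≤ p * Real.exp u / (1 + (Real.exp u - 1) * p) ∧
      p * Real.exp u / (1 + (Real.exp u - 1) * p) ≤ p + u / 4 := by
  have hden : ∀ v : ℝ, 0 < 1 + (Real.exp v - 1) * p := by
    intro v
    have hv := Real.exp_pos v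
    rcases eq_or_lt_of_le hp0 with h | h
    · rw [← h]; simp
    · rcases eq_or_lt_of_le hp1 with h1 | h1
      · rw [h1]; simp [hv]
      · nlinarith
  let φ : ℝ → ℝ := fun v => p * Real.exp v / (1 + (Real.exp v - 1) * p)
  have hφd : ∀ v, HasDerivAt φ (φ v * (1 - φ v)) v := by
    intro v
    have h1 : HasDerivAt (fun v => p * Real.exp v) (p * Real.exp v) v :=
      (Real.hasDerivAt_exp v).const_mul p
    have h2 : HasDerivAt (fun v => 1 + (Real.exp v - 1) * p) (Real.exp v * p) v := by
      have := (((Real.hasDerivAt_exp v).sub_const 1).mul_const p).const_add 1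
      simpa using this
    have h3 := h1.div h2 (hden v).ne'
    have hne := (hden v).ne'
    have hval : φ v * (1 - φ v) =
        (p * Real.exp v * (1 + (Real.exp v - 1) * p) - p * Real.exp v * (Real.exp v * p)) /
          (1 + (Real.exp v - 1) * p) ^ 2 := by
      rw [eq_div_iff (pow_ne_zero 2 hne)]
      have hφv : φ v * (1 + (Real.exp v - 1) * p) = p * Real.exp v := div_mul_cancel₀ _ hne
      linear_combination (1 + (Real.exp v - 1) * p - p * Real.exp v -
        φ v * (1 + (Real.exp v - 1) * p)) * hφv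
    rw [hval]
    exact h3
  have hφ0 : φ 0 = p := by simp [φ]
  have hφnn : ∀ v, 0 ≤ φ v ∧ φ v ≤ 1 := by
    intro v
    have hv := Real.exp_pos v
    refine ⟨div_nonneg (mul_nonneg hp0 hv.le) (hden v).le, ?_⟩
    rw [div_le_one (hden v)]
    nlinarith
  constructor
  · have hmono : Monotone φ := by
      apply monotone_of_deriv_nonneg (fun v => (hφd v).differentiableAt)
      intro v
      rw [(hφd v).deriv]
      exact mul_nonneg (hφnn v).1 (by linarith [(hφnn v).2])
    have := hmono hu
    rw [hφ0] at this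
    exact this
  · have hmono : Monotone (fun v => v / 4 - φ v) := by
      apply monotone_of_deriv_nonneg
      · intro v
        exact ((differentiableAt_id).div_const 4).sub (hφd v).differentiableAt
      · intro v
        have h1 : HasDerivAt (fun v : ℝ => v / 4 - φ v) (1 / 4 - φ v * (1 - φ v)) v :=
          ((hasDerivAt_id v).div_const 4).sub (hφd v)
        rw [h1.deriv]
        nlinarith [sq_nonneg (φ v - 1 / 2)]
    have := hmono hu
    simp only [hφ0, zero_div, zero_sub] at this
    have h2 : φ u ≤ p + u / 4 := by linarith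
    exact h2

variable {V : Type*} [DecidableEq V]

lemma multi_mono (F : Finset V) (i : V) (p : (V → ℝ) → ℝ)
    (hdep : ∀ h h' : V → ℝ, (∀ j ∈ F, h j = h' j) → p h = p h')
    (hmon : ∀ (h : V → ℝ) (j : V), j ∈ F → j ≠ i → ∀ t, h j ≤ t →
      p (Function.update h j t) ≤ p h)
    (a b : V → ℝ) (hab : ∀ j ∈ F, j ≠ i → a j ≤ b j) (hi : a i = b i) : p b ≤ p a := by
  have key : ∀ D : Finset V, D ⊆ F.erase i → p (fun j => if j ∈ D then b j else a j) ≤ p a := by
    intro D
    induction D using Finset.induction_on with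
    | empty => intro _; simp
    | insert g D hg ih =>
      intro hD
      have hgF := Finset.mem_erase.mp (hD (Finset.mem_insert_self g D))
      have ih' := ih (fun x hx => hD (Finset.mem_insert_of_mem hx))
      refine le_trans ?_ ih'
      have := hmon (fun j => if j ∈ D then b j else a j) g hgF.2 hgF.1 (b g)
        (by simp only [hg, if_false]; exact hab g hgF.2 hgF.1)
      refine le_trans (le_of_eq ?_) this
      congr 1
      ext j
      by_cases hj : j = g
      · subst hj; simp
      · simp [hj]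
  refine le_trans (le_of_eq ?_) (key (F.erase i) (subset_refl _))
  apply hdep
  intro j hj
  by_cases hji : j = i
  · subst hji; simp [hi]
  · simp [hji, hj]

/-- **Sandwich lemma.** -/
theorem sandwich (F : Finset V) (i : V) (p : (V → ℝ) → ℝ) (C0 : ℝ)
    (hdep : ∀ h h' : V → ℝ, (∀ j ∈ F, h j = h' j) → p h = p h')
    (hmon : ∀ (h : V → ℝ) (j : V), j ∈ F → j ≠ i → ∀ t, h j ≤ t →
      p (Function.update h j t) ≤ p h)
    (hown : ∀ (h : V → ℝ) (t : ℝ), h i ≤ t →
      p h ≤ p (Function.update h i t) ∧ p (Function.update h i t) ≤ p h + (t - h i) / 4)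
    (hshift : ∀ (h : V → ℝ) (c : ℝ), |p (fun j => h j + c) - p h| ≤ C0 * |c|)
    (hiF : i ∈ F) (h h' : V → ℝ) (s : ℝ) (hs : ∀ j ∈ F, |h j - h' j| ≤ s) :
    |p h - p h'| ≤ (C0 + 1 / 2) * s := by
  have hs0 : 0 ≤ s := le_trans (abs_nonneg _) (hs i hiF)
  have key : ∀ h h' : V → ℝ, (∀ j ∈ F, |h j - h' j| ≤ s) → p h' ≤ p h + (C0 + 1 / 2) * s := by
    intro h h' hs
    set h1 : V → ℝ := fun j => h j + (-s) with hh1
    set h2 : V → ℝ := Function.update h1 i (h i + s) with hh2
    set h3 : V → ℝ := Function.update h' i (h i + s) with hh3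
    have e1 : p h1 ≤ p h + C0 * s := by
      have := (abs_le.mp (hshift h (-s))).2
      rw [abs_neg, abs_of_nonneg hs0] at this
      linarith
    have e2 : p h2 ≤ p h1 + (2 * s) / 4 := by
      have := (hown h1 (h i + s) (by simp only [hh1]; linarith)).2
      simp only [hh1] at this
      have h4 : (h i + s - (h i + -s)) = 2 * s := by ring
      rw [h4] at this
      exact this
    have e3 : p h' ≤ p h3 := (hown h' (h i + s) (by
      have := (abs_le.mp (hs i hiF)).1; linarith)).1
    have e4 : p h3 ≤ p h2 := by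
      apply multi_mono F i p hdep hmon
      · intro j hj hji
        simp only [hh2, hh3, Function.update_of_ne hji, hh1]
        have := (abs_le.mp (hs j hj)).2
        linarith
      · simp [hh2, hh3]
    linarith
  rw [abs_le]
  constructor
  · have := key h h' hs
    linarith
  · have := key h' h (fun j hj => by rw [abs_sub_comm]; exact hs j hj)
    linarith

end Crest.Agent.R168
end

-- ▼ part R168/FamLip
section

/-! A finite uniform (constant cardinality) family with pairwise negative correlation has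
`1/2`-Lipschitz tilted occupation probabilities for the sup norm. -/

set_option autoImplicit false

namespace Crest.Agent.R168.UST

open Finset

variable {α : Type*} [DecidableEq α]

/-- occupation probability of `e` for the family `𝒜` tilted by the field `h`. -/
noncomputable def Pf (𝒜 : Finset (Finset α)) (e : α) (h : α → ℝ) : ℝ :=
  W 𝒜 (fun a => Real.exp (h a)) {e} / W 𝒜 (fun a => Real.exp (h a)) ∅

lemma W_pos {𝒜 : Finset (Finset α)} (hne : 𝒜.Nonempty) (h : α → ℝ) :
    0 < W 𝒜 (fun a => Real.exp (h a)) ∅ := by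
  unfold W
  apply Finset.sum_pos
  · intro A _
    exact Finset.prod_pos fun a _ => Real.exp_pos _
  · obtain ⟨A, hA⟩ := hne
    exact ⟨A, by simp [hA]⟩

lemma W_update (𝒜 : Finset (Finset α)) (h : α → ℝ) (g : α) (t : ℝ) (F : Finset α) :
    W 𝒜 (fun a => Real.exp (Function.update h g t a)) F =
      W 𝒜 (fun a => Real.exp (h a)) F +
        (Real.exp (t - h g) - 1) * W 𝒜 (fun a => Real.exp (h a)) (F ∪ {g}) := by
  unfold W
  have h2 : (𝒜.filter (fun A => F ∪ {g} ⊆ A)) =
      (𝒜.filter (fun A => F ⊆ A)).filter (fun A => g ∈ A) := by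
    ext A
    simp only [mem_filter, Finset.union_subset_iff, Finset.singleton_subset_iff]
    tauto
  rw [h2, Finset.sum_filter (p := fun A => g ∈ A), Finset.mul_sum, ← Finset.sum_add_distrib]
  refine Finset.sum_congr rfl fun A _ => ?_
  by_cases hg : g ∈ A
  · rw [if_pos hg]
    have h3 : (∏ a ∈ A, Real.exp (Function.update h g t a)) =
        Real.exp t * ∏ a ∈ A.erase g, Real.exp (h a) := by
      rw [← Finset.mul_prod_erase A _ hg]
      congr 1
      · simp
      · refine Finset.prod_congr rfl fun a ha => ?_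
        rw [Function.update_of_ne (Finset.ne_of_mem_erase ha)]
    have h4 : (∏ a ∈ A, Real.exp (h a)) =
        Real.exp (h g) * ∏ a ∈ A.erase g, Real.exp (h a) :=
      (Finset.mul_prod_erase A _ hg).symm
    rw [h3, h4, Real.exp_sub]
    field_simp
    ring
  · rw [if_neg hg, mul_zero, add_zero]
    refine Finset.prod_congr rfl fun a ha => ?_
    have hag : a ≠ g := by rintro rfl; exact hg ha
    simp only [Function.update_of_ne hag]

theorem Pf_lip {𝒜 : Finset (Finset α)} (hNC : NC 𝒜) (hne : 𝒜.Nonempty) (k : ℕ)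
    (hk : ∀ A ∈ 𝒜, A.card = k) (e : α) (h h' : α → ℝ) (s : ℝ)
    (hs : ∀ j, |h j - h' j| ≤ s) :
    |Pf 𝒜 e h - Pf 𝒜 e h'| ≤ 1 / 2 * s := by
  have := sandwich (insert e (𝒜.biUnion id)) e (Pf 𝒜 e) 0 ?_ ?_ ?_ ?_
    (Finset.mem_insert_self _ _) h h' s (fun j _ => hs j)
  · simpa using this
  · -- dependence
    intro h h' hh
    have key : ∀ F, W 𝒜 (fun a => Real.exp (h a)) F = W 𝒜 (fun a => Real.exp (h' a)) F := by
      intro F
      unfold W
      refine Finset.sum_congr rfl fun A hA => ?_
      refine Finset.prod_congr rfl fun a ha => ?_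
      have hA' := (Finset.mem_filter.mp hA).1
      have hha := hh a (Finset.mem_insert_of_mem (Finset.mem_biUnion.mpr ⟨A, hA', ha⟩))
      simp only [hha]
    unfold Pf
    rw [key, key]
  · -- monotonicity
    intro h g _ hge t ht
    unfold Pf
    rw [W_update, W_update, Finset.empty_union]
    have hρ : 0 ≤ Real.exp (t - h g) - 1 := by
      have := Real.add_one_le_exp (t - h g)
      linarith
    have hpos := W_pos hne h
    have hg0 : 0 ≤ W 𝒜 (fun a => Real.exp (h a)) {g} :=
      W_nonneg _ (fun a => (Real.exp_pos _).le) _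
    have hnc := hNC (fun a => Real.exp (h a)) (fun a => Real.exp_pos _) e g (Ne.symm hge)
    have hden : 0 < W 𝒜 (fun a => Real.exp (h a)) ∅ +
        (Real.exp (t - h g) - 1) * W 𝒜 (fun a => Real.exp (h a)) {g} := by
      have := mul_nonneg hρ hg0
      linarith
    rw [div_le_div_iff₀ hden hpos]
    have heq : ({e} ∪ {g} : Finset α) = {e, g} := rfl
    rw [heq]
    have := mul_le_mul_of_nonneg_left hnc hρ
    nlinarith [this]
  · -- own coordinate
    intro h t ht
    have hpos := W_pos hne h
    set p := Pf 𝒜 e h with hp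
    have hnum : W 𝒜 (fun a => Real.exp (h a)) {e} = p * W 𝒜 (fun a => Real.exp (h a)) ∅ := by
      rw [hp, Pf, div_mul_cancel₀ _ hpos.ne']
    have he0 : 0 ≤ W 𝒜 (fun a => Real.exp (h a)) {e} :=
      W_nonneg _ (fun a => (Real.exp_pos _).le) _
    have hle : W 𝒜 (fun a => Real.exp (h a)) {e} ≤ W 𝒜 (fun a => Real.exp (h a)) ∅ :=
      W_anti _ (fun a => (Real.exp_pos _).le) (Finset.empty_subset _)
    have hp0 : 0 ≤ p := div_nonneg he0 hpos.le
    have hp1 : p ≤ 1 := (div_le_one hpos).mpr hle
    have hval : Pf 𝒜 e (Function.update h e t) =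
        p * Real.exp (t - h e) / (1 + (Real.exp (t - h e) - 1) * p) := by
      unfold Pf
      rw [W_update, W_update, Finset.empty_union, Finset.union_self, hnum]
      have : W 𝒜 (fun a => Real.exp (h a)) ∅ +
          (Real.exp (t - h e) - 1) * (p * W 𝒜 (fun a => Real.exp (h a)) ∅) =
          (1 + (Real.exp (t - h e) - 1) * p) * W 𝒜 (fun a => Real.exp (h a)) ∅ := by ring
      rw [this]
      have h2 : p * W 𝒜 (fun a => Real.exp (h a)) ∅ +
          (Real.exp (t - h e) - 1) * (p * W 𝒜 (fun a => Real.exp (h a)) ∅) =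
          p * Real.exp (t - h e) * W 𝒜 (fun a => Real.exp (h a)) ∅ := by ring
      rw [h2, mul_div_mul_right _ _ hpos.ne']
    rw [hval]
    exact logistic_le p hp0 hp1 (t - h e) (by linarith)
  · -- homogeneity
    intro h c
    have key : ∀ F, W 𝒜 (fun a => Real.exp (h a + c)) F =
        Real.exp c ^ k * W 𝒜 (fun a => Real.exp (h a)) F := by
      intro F
      unfold W
      rw [Finset.mul_sum]
      refine Finset.sum_congr rfl fun A hA => ?_
      have hA' := (Finset.mem_filter.mp hA).1
      have : (∏ a ∈ A, Real.exp (h a + c)) = ∏ a ∈ A, (Real.exp c * Real.exp (h a)) :=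
        Finset.prod_congr rfl fun a _ => by rw [Real.exp_add, mul_comm]
      rw [this, Finset.prod_mul_distrib, Finset.prod_const, hk A hA']
    unfold Pf
    rw [key, key, mul_div_mul_left _ _ (pow_pos (Real.exp_pos c) k).ne', sub_self]
    simp

end Crest.Agent.R168.UST
end

-- ▼ part R168/Fusf
section

/-! T8: the free uniform spanning forest measure exists and satisfies (L). -/

set_option autoImplicit false

namespace Crest.Agent.R168

open MeasureTheory ProbabilityTheory Filter Topology
open Crest.ProbabilityR.SpanningTrees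

namespace FusfAux

/-- existence of a connected exhaustion. -/
lemma exists_exhaustion (G : SimpleGraph ℕ) (hG : G.Connected) :
    ∃ S : ℕ → Finset ℕ, Monotone S ∧ (∀ v : ℕ, ∃ n, v ∈ S n) ∧
      (∀ n, (G.induce (S n : Set ℕ)).Connected) := by
  classical
  have h1 : ∀ t : Finset ℕ, ∃ t' : Finset ℕ, t ⊆ t' ∧ (t.Nonempty → (G.induce (t' : Set ℕ)).Connected) := by
    intro t
    by_cases ht : t.Nonempty
    · obtain ⟨t', h1, h2⟩ := G.extend_finset_to_connected hG.preconnected ht
      exact ⟨t', h1, fun _ => h2⟩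
    · exact ⟨t, subset_rfl, fun h => absurd h ht⟩
  choose f hf1 hf2 using h1
  let S : ℕ → Finset ℕ := fun n => Nat.rec (f {0}) (fun n T => f (insert (n + 1) T)) n
  have hS0 : S 0 = f {0} := rfl
  have hSs : ∀ n, S (n + 1) = f (insert (n + 1) (S n)) := fun n => rfl
  refine ⟨S, ?_, ?_, ?_⟩
  · apply monotone_nat_of_le_succ
    intro n
    rw [hSs]
    exact (Finset.subset_insert _ _).trans (hf1 _)
  · intro v
    refine ⟨v, ?_⟩
    cases v with
    | zero => rw [hS0]; exact hf1 _ (Finset.mem_singleton_self 0)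
    | succ n => rw [hSs]; exact hf1 _ (Finset.mem_insert_self _ _)
  · intro n
    cases n with
    | zero => rw [hS0]; exact hf2 _ (Finset.singleton_nonempty 0)
    | succ n => rw [hSs]; exact hf2 _ (Finset.insert_nonempty _ _)

open scoped Classical in
/-- configuration of an edge set. -/
noncomputable def conf (G : SimpleGraph ℕ) (A : Finset (Sym2 ℕ)) : G.edgeSet → Bool :=
  fun e => decide ((e : Sym2 ℕ) ∈ A)

lemma conf_eq_true {G : SimpleGraph ℕ} {A : Finset (Sym2 ℕ)} {e : G.edgeSet} :
    conf G A e = true ↔ (e : Sym2 ℕ) ∈ A := by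
  simp [conf]

/-- law of the uniform spanning tree of the piece `S`, as a law on `G.edgeSet → Bool`. -/
noncomputable def ustLaw (G : SimpleGraph ℕ) (S : Finset ℕ) : Measure (G.edgeSet → Bool) :=
  ((UST.ST G S).card : ENNReal)⁻¹ • ∑ A ∈ UST.ST G S, Measure.dirac (conf G A)

open scoped Classical in
lemma ustLaw_apply (G : SimpleGraph ℕ) (S : Finset ℕ) {B : Set (G.edgeSet → Bool)}
    (hB : MeasurableSet B) :
    (ustLaw G S B).toReal = (((UST.ST G S).filter (fun A => conf G A ∈ B)).card : ℝ) /
      ((UST.ST G S).card : ℝ) := by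
  unfold ustLaw
  rw [Measure.smul_apply, Measure.finsetSum_apply]
  have : (∑ A ∈ UST.ST G S, (Measure.dirac (conf G A)) B) =
      (((UST.ST G S).filter (fun A => conf G A ∈ B)).card : ENNReal) := by
    rw [Finset.card_filter, Nat.cast_sum]
    refine Finset.sum_congr rfl fun A _ => ?_
    rw [Measure.dirac_apply' _ hB]
    by_cases h : conf G A ∈ B <;> simp [h]
  rw [this, smul_eq_mul, ENNReal.toReal_mul, ENNReal.toReal_inv, ENNReal.toReal_natCast,
    ENNReal.toReal_natCast]
  rw [div_eq_mul_inv, mul_comm]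

lemma isProb_ustLaw {G : SimpleGraph ℕ} {S : Finset ℕ} (hS : (G.induce (S : Set ℕ)).Connected) :
    IsProbabilityMeasure (ustLaw G S) := by
  constructor
  unfold ustLaw
  rw [Measure.smul_apply, Measure.finsetSum_apply]
  simp only [measure_univ, Finset.sum_const, nsmul_eq_mul, mul_one, smul_eq_mul]
  apply ENNReal.inv_mul_cancel
  · have := UST.ST_nonempty hS
    simpa using this.ne_empty
  · exact ENNReal.natCast_ne_top _

lemma isClopen_eval {ι : Type*} (i : ι) (B : Set Bool) :
    IsClopen {ω : ι → Bool | ω i ∈ B} :=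
  (isClopen_discrete B).preimage (continuous_apply i)

lemma isClopen_cyl {ι : Type*} (F S : Finset ι) :
    IsClopen {ω : ι → Bool | ∀ i ∈ F, (ω i = true ↔ i ∈ S)} := by
  have : {ω : ι → Bool | ∀ i ∈ F, (ω i = true ↔ i ∈ S)} =
      ⋂ i ∈ F, {ω : ι → Bool | ω i ∈ {b : Bool | b = true ↔ i ∈ S}} := by
    ext ω; simp
  rw [this]
  exact isClopen_biInter_finset fun i _ => isClopen_eval i _

lemma isClopen_cont (G : SimpleGraph ℕ) (A : Finset (Sym2 ℕ)) :
    IsClopen {ω : G.edgeSet → Bool | ∀ e : G.edgeSet, (e : Sym2 ℕ) ∈ A → ω e = true} := by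
  classical
  have : {ω : G.edgeSet → Bool | ∀ e : G.edgeSet, (e : Sym2 ℕ) ∈ A → ω e = true} =
      ⋂ i ∈ A.subtype (fun e => e ∈ G.edgeSet), {ω : G.edgeSet → Bool | ω i ∈ ({true} : Set Bool)} := by
    ext ω; simp
  rw [this]
  exact isClopen_biInter_finset fun i _ => isClopen_eval i _

/-- extension of an external field from `F` to all unordered pairs. -/
noncomputable def ext (G : SimpleGraph ℕ) (F : Finset G.edgeSet) (h : G.edgeSet → ℝ) :
    Sym2 ℕ → ℝ :=
  haveI := Classical.decPred (fun a : Sym2 ℕ => a ∈ G.edgeSet)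
  haveI := Classical.decEq G.edgeSet
  fun a => if ha : a ∈ G.edgeSet then (if (⟨a, ha⟩ : G.edgeSet) ∈ F then h ⟨a, ha⟩ else 0) else 0

open scoped Classical in
lemma sum_ext (G : SimpleGraph ℕ) (F : Finset G.edgeSet) (h : G.edgeSet → ℝ)
    (A : Finset (Sym2 ℕ)) :
    (∑ a ∈ A, ext G F h a) = ∑ j ∈ F.filter (fun j : G.edgeSet => (j : Sym2 ℕ) ∈ A), h j := by
  have h1 : (∑ j ∈ F.filter (fun j : G.edgeSet => (j : Sym2 ℕ) ∈ A), h j) =
      ∑ a ∈ (F.filter (fun j : G.edgeSet => (j : Sym2 ℕ) ∈ A)).map (Function.Embedding.subtype _), ext G F h a := by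
    rw [Finset.sum_map]
    refine Finset.sum_congr rfl fun j hj => ?_
    have hjF := (Finset.mem_filter.mp hj).1
    simp only [Function.Embedding.subtype_apply, ext, j.2, dif_pos, Subtype.coe_eta, hjF, if_pos]
  rw [h1]
  symm
  apply Finset.sum_subset
  · intro a ha
    rw [Finset.mem_map] at ha
    obtain ⟨j, hj, rfl⟩ := ha
    exact (Finset.mem_filter.mp hj).2
  · intro a haA hna
    unfold ext
    split_ifs with h2 h3
    · exfalso
      apply hna
      rw [Finset.mem_map]
      exact ⟨⟨a, h2⟩, Finset.mem_filter.mpr ⟨h3, haA⟩, rfl⟩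
    · rfl
    · rfl

open scoped Classical in
lemma sum_cyl_ustLaw (G : SimpleGraph ℕ) (S : Finset ℕ) (F : Finset G.edgeSet)
    (φ : Finset G.edgeSet → ℝ) :
    (∑ T ∈ F.powerset, cyl (ustLaw G S) F T * φ T) =
      (∑ A ∈ UST.ST G S, φ (F.filter (fun j : G.edgeSet => (j : Sym2 ℕ) ∈ A))) / ((UST.ST G S).card : ℝ) := by
  have hcyl : ∀ T ∈ F.powerset, cyl (ustLaw G S) F T =
      (((UST.ST G S).filter (fun A => F.filter (fun j : G.edgeSet => (j : Sym2 ℕ) ∈ A) = T)).card : ℝ) /
        ((UST.ST G S).card : ℝ) := by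
    intro T hT
    rw [Finset.mem_powerset] at hT
    unfold cyl
    rw [ustLaw_apply _ _ (isClopen_cyl F T).isOpen.measurableSet]
    congr 3
    ext A
    simp only [Finset.mem_filter, Set.mem_ofPred_eq, conf_eq_true]
    refine and_congr_right fun _ => ?_
    constructor
    · intro h
      ext j
      rw [Finset.mem_filter]
      constructor
      · rintro ⟨h1, h2⟩; exact (h j h1).mp h2
      · intro hj; exact ⟨hT hj, (h j (hT hj)).mpr hj⟩
    · intro h j hj
      rw [← h, Finset.mem_filter]
      tauto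
  rw [Finset.sum_congr rfl fun T hT => by rw [hcyl T hT]]
  rw [Finset.sum_div]
  rw [← Finset.sum_fiberwise_of_maps_to (s := UST.ST G S) (t := F.powerset)
    (g := fun A => F.filter (fun j : G.edgeSet => (j : Sym2 ℕ) ∈ A))
    (fun A _ => Finset.mem_powerset.mpr (Finset.filter_subset _ _))]
  refine Finset.sum_congr rfl fun T _ => ?_
  rw [Finset.sum_congr rfl (g := fun _ => φ T / ((UST.ST G S).card : ℝ))
    (fun A hA => by rw [(Finset.mem_filter.mp hA).2])]
  rw [Finset.sum_const, nsmul_eq_mul]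
  ring

lemma Zw_ustLaw (G : SimpleGraph ℕ) (S : Finset ℕ) (F : Finset G.edgeSet) (h : G.edgeSet → ℝ) :
    Zw (cyl (ustLaw G S)) F h =
      UST.W (UST.ST G S) (fun a => Real.exp (ext G F h a)) ∅ / ((UST.ST G S).card : ℝ) := by
  classical
  unfold Zw
  rw [sum_cyl_ustLaw G S F (fun T => Real.exp (∑ j ∈ T, h j))]
  congr 1
  unfold UST.W
  simp only [Finset.empty_subset, Finset.filter_true]
  refine Finset.sum_congr rfl fun A _ => ?_
  rw [← Real.exp_sum, sum_ext]

lemma Zo_ustLaw (G : SimpleGraph ℕ) (S : Finset ℕ) (F : Finset G.edgeSet) (i : G.edgeSet)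
    (hi : i ∈ F) (h : G.edgeSet → ℝ) :
    Zo (cyl (ustLaw G S)) F i h =
      UST.W (UST.ST G S) (fun a => Real.exp (ext G F h a)) {(i : Sym2 ℕ)} /
        ((UST.ST G S).card : ℝ) := by
  classical
  unfold Zo
  have h1 : ∀ T ∈ F.powerset, (if i ∈ T then cyl (ustLaw G S) F T * Real.exp (∑ j ∈ T, h j) else 0) =
      cyl (ustLaw G S) F T * (if i ∈ T then Real.exp (∑ j ∈ T, h j) else 0) := by
    intro T _; split_ifs <;> simp
  have h2 : (∑ T ∈ F.powerset, if i ∈ T then cyl (ustLaw G S) F T * Real.exp (∑ j ∈ T, h j) else 0) =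
      ∑ T ∈ F.powerset, cyl (ustLaw G S) F T * (if i ∈ T then Real.exp (∑ j ∈ T, h j) else 0) :=
    Finset.sum_congr rfl h1
  refine Eq.trans ?_ (h2.trans ?_)
  · refine Finset.sum_congr rfl fun T _ => ?_
    congr
  rw [sum_cyl_ustLaw G S F (fun T => if i ∈ T then Real.exp (∑ j ∈ T, h j) else 0)]
  congr 1
  unfold UST.W
  rw [Finset.sum_filter]
  refine Finset.sum_congr rfl fun A _ => ?_
  simp only [Finset.mem_filter, hi, true_and, Finset.singleton_subset_iff]
  rw [← Real.exp_sum, sum_ext]

lemma occ_ustLaw (G : SimpleGraph ℕ) {S : Finset ℕ} (hS : (G.induce (S : Set ℕ)).Connected)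
    (F : Finset G.edgeSet) (i : G.edgeSet) (hi : i ∈ F) (h : G.edgeSet → ℝ) :
    occ (cyl (ustLaw G S)) F i h = UST.Pf (UST.ST G S) (i : Sym2 ℕ) (ext G F h) := by
  unfold occ UST.Pf
  rw [Zw_ustLaw, Zo_ustLaw G S F i hi]
  have hne := UST.ST_nonempty hS
  have hc : ((UST.ST G S).card : ℝ) ≠ 0 := by
    simpa using hne.ne_empty
  rw [div_div_div_cancel_right₀ hc]

lemma lip_ustLaw (G : SimpleGraph ℕ) {S : Finset ℕ} (hS : (G.induce (S : Set ℕ)).Connected) :
    LipOcc (ustLaw G S) 2 := by
  intro F i hi h h' s hs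
  have hs0 : 0 ≤ s := le_trans (abs_nonneg _) (hs i hi)
  rw [occ_ustLaw G hS F i hi, occ_ustLaw G hS F i hi]
  have := UST.Pf_lip (UST.NC_ST G S) (UST.ST_nonempty hS) (S.card - 1)
    (fun A hA => by have := UST.card_of_mem_ST hA; omega) (i : Sym2 ℕ) (ext G F h) (ext G F h') s
    (by
      intro a
      unfold ext
      split_ifs with h1 h2
      · exact hs _ h2
      · simpa using hs0
      · simpa using hs0)
  linarith

lemma Zw_lower {G : SimpleGraph ℕ} {S : Finset ℕ} (hS : (G.induce (S : Set ℕ)).Connected)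
    (F : Finset G.edgeSet) (h : G.edgeSet → ℝ) :
    Real.exp (-∑ j ∈ F, |h j|) ≤ Zw (cyl (ustLaw G S)) F h := by
  classical
  unfold Zw
  rw [sum_cyl_ustLaw G S F (fun T => Real.exp (∑ j ∈ T, h j))]
  have hne := UST.ST_nonempty hS
  have hc : 0 < ((UST.ST G S).card : ℝ) := by
    have := hne.card_pos
    exact_mod_cast this
  rw [le_div_iff₀ hc]
  have : ∀ A ∈ UST.ST G S, Real.exp (-∑ j ∈ F, |h j|) ≤
      Real.exp (∑ j ∈ F.filter (fun j : G.edgeSet => (j : Sym2 ℕ) ∈ A), h j) := by
    intro A _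
    apply Real.exp_le_exp.mpr
    have h3 : (∑ j ∈ F.filter (fun j : G.edgeSet => (j : Sym2 ℕ) ∈ A), |h j|) ≤ ∑ j ∈ F, |h j| :=
      Finset.sum_le_sum_of_subset_of_nonneg (Finset.filter_subset _ _)
        (fun j _ _ => abs_nonneg _)
    have h4 := Finset.abs_sum_le_sum_abs h (F.filter (fun j : G.edgeSet => (j : Sym2 ℕ) ∈ A))
    have h5 := neg_abs_le (∑ j ∈ F.filter (fun j : G.edgeSet => (j : Sym2 ℕ) ∈ A), h j)
    linarith
  have h2 := Finset.sum_le_sum this
  rw [Finset.sum_const, nsmul_eq_mul] at h2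
  linarith

end FusfAux

open FusfAux in
/-- Proof: weak limit (ultrafilter / `CompactSpace (ProbabilityMeasure _)`) of the uniform spanning
tree laws of an exhaustion; each of these satisfies `LipOcc _ 2`; cylinders are clopen; `LipOcc`
passes to the limit; values by `exists_ust_limit`. -/
theorem exists_fusf (G : SimpleGraph ℕ) (hG : G.Connected) :
    ∃ ν : Measure (G.edgeSet → Bool), IsProbabilityMeasure ν ∧ LipOcc ν 2 ∧
      ∀ (A : Finset (Sym2 ℕ)), (A : Set (Sym2 ℕ)) ⊆ G.edgeSet →
        ∀ S : ℕ → Finset ℕ, Monotone S → (∀ v : ℕ, ∃ n, v ∈ S n) →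
          (∀ n, (G.induce (S n : Set ℕ)).Connected) →
          Tendsto (fun n => ustContains G (S n) A) atTop
            (𝓝 (ν {ω | ∀ e : G.edgeSet, (e : Sym2 ℕ) ∈ A → ω e = true}).toReal) := by
  classical
  obtain ⟨S, hSm, hSc, hSconn⟩ := exists_exhaustion G hG
  let μ : ℕ → ProbabilityMeasure (G.edgeSet → Bool) :=
    fun n => ⟨ustLaw G (S n), isProb_ustLaw (hSconn n)⟩
  -- ultrafilter limit
  let 𝒰 : Ultrafilter ℕ := Ultrafilter.of atTop
  have h𝒰 : (𝒰 : Filter ℕ) ≤ atTop := Ultrafilter.of_le atTop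
  obtain ⟨ν, -, hν⟩ := isCompact_univ.ultrafilter_le_nhds (𝒰.map μ) (by simp)
  have hν' : Tendsto μ 𝒰 (𝓝 ν) := hν
  have hclopen : ∀ {E : Set (G.edgeSet → Bool)}, IsClopen E →
      Tendsto (fun n => (ustLaw G (S n) E).toReal) 𝒰 (𝓝 ((ν : Measure (G.edgeSet → Bool)) E).toReal) := by
    intro E hE
    have h1 : Tendsto (fun n => ((μ n : ProbabilityMeasure (G.edgeSet → Bool)) : Measure (G.edgeSet → Bool)) E)
        𝒰 (𝓝 ((ν : Measure (G.edgeSet → Bool)) E)) :=
      ProbabilityMeasure.tendsto_measure_of_null_frontier_of_tendsto' hν' (by simp [hE.frontier_eq])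
    have h2 := (ENNReal.tendsto_toReal (measure_ne_top (ν : Measure (G.edgeSet → Bool)) E)).comp h1
    exact h2
  refine ⟨ν, inferInstance, ?_, ?_⟩
  · -- LipOcc
    intro F i hi h h' s hs
    have hcyl : ∀ T, Tendsto (fun n => cyl (ustLaw G (S n)) F T) 𝒰 (𝓝 (cyl ν F T)) :=
      fun T => hclopen (isClopen_cyl F T)
    have hZw : ∀ h, Tendsto (fun n => Zw (cyl (ustLaw G (S n))) F h) 𝒰 (𝓝 (Zw (cyl ν) F h)) := by
      intro h
      unfold Zw
      exact tendsto_finsetSum _ fun T _ => (hcyl T).mul_const _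
    have hZo : ∀ h, Tendsto (fun n => Zo (cyl (ustLaw G (S n))) F i h) 𝒰 (𝓝 (Zo (cyl ν) F i h)) := by
      intro h
      unfold Zo
      refine tendsto_finsetSum _ fun T _ => ?_
      split_ifs
      · exact (hcyl T).mul_const _
      · exact tendsto_const_nhds
    have hZpos : ∀ h, 0 < Zw (cyl ν) F h := by
      intro h
      have := ge_of_tendsto (hZw h) (Eventually.of_forall fun n => Zw_lower (hSconn n) F h)
      exact lt_of_lt_of_le (Real.exp_pos _) this
    have hocc : ∀ h, Tendsto (fun n => occ (cyl (ustLaw G (S n))) F i h) 𝒰 (𝓝 (occ (cyl ν) F i h)) :=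
      fun h => (hZo h).div (hZw h) (hZpos h).ne'
    have hlim := ((hocc h).sub (hocc h')).abs
    exact le_of_tendsto hlim (Eventually.of_forall fun n => lip_ustLaw G (hSconn n) F i hi h h' s hs)
  · intro A hA T hTm hTc hTconn
    obtain ⟨q, hq⟩ := exists_ust_limit G hG A hA
    have h1 := hq T hTm hTc hTconn
    have h2 := (hq S hSm hSc hSconn).mono_left h𝒰
    have h3 := hclopen (isClopen_cont G A)
    have h4 : ∀ n, ustContains G (S n) A =
        (ustLaw G (S n) {ω | ∀ e : G.edgeSet, (e : Sym2 ℕ) ∈ A → ω e = true}).toReal := by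
      intro n
      rw [ustLaw_apply _ _ (isClopen_cont G A).isOpen.measurableSet, UST.ust_eq, UST.W_one, UST.W_one]
      congr 3
      · ext B
        simp only [Finset.mem_filter, Set.mem_ofPred_eq, conf_eq_true]
        refine and_congr_right fun _ => ?_
        constructor
        · intro h e he; exact h he
        · intro h e he; exact h ⟨e, hA he⟩ he
      · simp
    have h5 : q = ((ν : Measure (G.edgeSet → Bool))
        {ω | ∀ e : G.edgeSet, (e : Sym2 ℕ) ∈ A → ω e = true}).toReal := by
      apply tendsto_nhds_unique h2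
      simp_rw [h4]
      exact h3
    rw [← h5]
    exact h1

end Crest.Agent.R168
end

-- ▼ part R168/Zip
section

/-! Zipping two infinite product probability measures. -/

set_option autoImplicit false

namespace Crest.Agent.R168

open MeasureTheory

/-- The product of two infinite product measures over the same index set is the infinite product
of the products. -/
theorem infinitePi_zip {ι α β : Type*} [MeasurableSpace α] [MeasurableSpace β]
    (μ : ι → Measure α) (ν : ι → Measure β) [∀ i, IsProbabilityMeasure (μ i)]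
    [∀ i, IsProbabilityMeasure (ν i)] :
    ((Measure.infinitePi μ).prod (Measure.infinitePi ν)).map (fun p (i : ι) => (p.1 i, p.2 i)) =
      Measure.infinitePi (fun i => (μ i).prod (ν i)) := by
  refine ((Measure.isProjectiveLimit_infinitePi (fun i => (μ i).prod (ν i))).unique ?_).symm
  intro I
  have hzip : Measurable (fun (p : (ι → α) × (ι → β)) (i : ι) => (p.1 i, p.2 i)) := by fun_prop
  rw [Measure.map_map (by fun_prop) hzip]
  have h1 : (I.restrict ∘ fun (p : (ι → α) × (ι → β)) (i : ι) => (p.1 i, p.2 i)) =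
      (MeasurableEquiv.arrowProdEquivProdArrow α β I).symm ∘
        Prod.map (I.restrict (π := fun _ => α)) (I.restrict (π := fun _ => β)) := by
    ext p i <;> rfl
  rw [h1, ← Measure.map_map (by fun_prop) (by fun_prop),
    ← Measure.map_prod_map _ _ (by fun_prop) (by fun_prop), Measure.infinitePi_map_restrict,
    Measure.infinitePi_map_restrict]
  exact (measurePreserving_arrowProdEquivProdArrow α β I (fun i => μ i) (fun i => ν i)).symm.map_eq

end Crest.Agent.R168
end

-- ▼ part R168/EdgeLab
section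

/-! T9: i.i.d. edge labels from i.i.d. vertex labels, equivariantly. -/

set_option autoImplicit false

namespace Crest.Agent.R168

open MeasureTheory ProbabilityTheory Filter Topology
open Crest.ProbabilityR.GraphTables

noncomputable section

/-- decoded vertex label: an own uniform and a list of edge labels. -/
abbrev VLab := ℝ × (ℕ → ℝ × (ℕ → ℝ))

/-- law of a decoded vertex label. -/
def vlab : Measure VLab := U01.prod (Measure.infinitePi fun _ : ℕ => lab)

instance : IsProbabilityMeasure vlab := by unfold vlab; infer_instance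

/-- rank of `v` among the neighbours of `u` for the order given by `s`. -/
def rank (G : SimpleGraph ℕ) (s : ℕ → ℝ) (u v : ℕ) : ℕ := {w | G.Adj u w ∧ s w < s v}.ncard

open scoped Classical in
/-- label of the pair `{u,v}`: taken from the endpoint with the smaller own uniform. -/
def elab0 (G : SimpleGraph ℕ) (x : ℕ → VLab) (u v : ℕ) : ℝ × (ℕ → ℝ) :=
  if (x u).1 < (x v).1 then (x u).2 (rank G (fun w => (x w).1) u v)
  else if (x v).1 < (x u).1 then (x v).2 (rank G (fun w => (x w).1) v u)
  else (0, fun _ => 0)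

theorem elab0_symm (G : SimpleGraph ℕ) (x : ℕ → VLab) (u v : ℕ) :
    elab0 G x u v = elab0 G x v u := by
  unfold elab0
  split_ifs with h1 h2 h3
  · exact absurd h2 (lt_asymm h1)
  all_goals rfl

/-- labels of unordered pairs. -/
def edgeLab (G : SimpleGraph ℕ) (x : ℕ → VLab) : Sym2 ℕ → ℝ × (ℕ → ℝ) :=
  Sym2.lift ⟨elab0 G x, elab0_symm G x⟩

theorem rank_comap (σ : Equiv.Perm ℕ) (G : SimpleGraph ℕ) (s : ℕ → ℝ) (u v : ℕ) :
    rank (G.comap ⇑σ) (fun w => s (σ w)) u v = rank G s (σ u) (σ v) := by
  unfold rank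
  have : {w | G.Adj (σ u) w ∧ s w < s (σ v)} = σ '' {w | (G.comap ⇑σ).Adj u w ∧ s (σ w) < s (σ v)} := by
    ext w
    simp only [Set.mem_ofPred_eq, Set.mem_image, SimpleGraph.comap_adj]
    constructor
    · intro h
      exact ⟨σ.symm w, by simpa using h, by simp⟩
    · rintro ⟨w', h, rfl⟩
      exact h
  rw [this, Set.ncard_image_of_injective _ σ.injective]

theorem edgeLab_comap (σ : Equiv.Perm ℕ) (G : SimpleGraph ℕ) (x : ℕ → VLab) :
    edgeLab (G.comap ⇑σ) (x ∘ ⇑σ) = edgeLab G x ∘ Sym2.map ⇑σ := by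
  funext e
  induction e using Sym2.ind with
  | _ u v =>
    simp only [edgeLab, Sym2.lift_mk, Function.comp_apply, Sym2.map_mk]
    have h1 := rank_comap σ G (fun w => (x w).1) u v
    have h2 := rank_comap σ G (fun w => (x w).1) v u
    simp only [elab0, Function.comp_apply, h1, h2]

theorem measurable_ncard {Ω : Type*} [MeasurableSpace Ω] (S : Ω → Set ℕ)
    (hS : ∀ w, MeasurableSet {p | w ∈ S p}) : Measurable fun p => (S p).ncard := by
  -- the event that `S p` equals a given finite set
  have hF : ∀ F : Finset ℕ, MeasurableSet {p | S p = (F : Set ℕ)} := by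
    intro F
    have : {p | S p = (F : Set ℕ)} = ⋂ w, {p | w ∈ S p ↔ w ∈ F} := by
      ext p
      simp [Set.ext_iff]
    rw [this]
    refine MeasurableSet.iInter fun w => ?_
    by_cases hw : w ∈ F
    · have : {p | w ∈ S p ↔ w ∈ F} = {p | w ∈ S p} := by ext p; simp [hw]
      rw [this]
      exact hS w
    · have : {p | w ∈ S p ↔ w ∈ F} = {p | w ∈ S p}ᶜ := by ext p; simp [hw]
      rw [this]
      exact (hS w).compl
  have hpos : ∀ n : ℕ, n ≠ 0 → MeasurableSet {p | (S p).ncard = n} := by
    intro n hn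
    have : {p | (S p).ncard = n} = ⋃ F : {F : Finset ℕ // F.card = n}, {p | S p = (F.1 : Set ℕ)} := by
      ext p
      simp only [Set.mem_ofPred_eq, Set.mem_iUnion]
      constructor
      · intro h
        have hfin : (S p).Finite := Set.finite_of_ncard_ne_zero (by rw [h]; exact hn)
        refine ⟨⟨hfin.toFinset, ?_⟩, by simp⟩
        rw [← h, Set.ncard_eq_toFinset_card _ hfin]
      · rintro ⟨⟨F, hF⟩, h⟩
        rw [h, Set.ncard_coe_finset, hF]
    rw [this]
    exact MeasurableSet.iUnion fun F => hF F.1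
  refine measurable_to_countable' fun n => ?_
  by_cases hn : n = 0
  · have : (fun p => (S p).ncard) ⁻¹' {n} =
        (⋃ m : {m : ℕ // m ≠ 0}, {p | (S p).ncard = m.1})ᶜ := by
      ext p
      simp only [Set.mem_preimage, Set.mem_singleton_iff, Set.mem_compl_iff, Set.mem_iUnion,
        Set.mem_ofPred_eq, not_exists, hn]
      constructor
      · intro h m hm
        exact m.2 (hm.symm.trans h)
      · intro h
        by_contra h0
        exact h ⟨_, h0⟩ rfl
    rw [this]
    exact (MeasurableSet.iUnion fun m : {m : ℕ // m ≠ 0} => hpos m.1 m.2).compl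
  · exact hpos n hn

theorem measurable_edgeLab :
    Measurable (fun p : (ℕ → ℕ → Bool) × (ℕ → VLab) => edgeLab (graphOfTable p.1) p.2) := by
  refine measurable_pi_iff.2 fun e => ?_
  induction e using Sym2.ind with
  | _ u v =>
    simp only [edgeLab, Sym2.lift_mk]
    have hlt : ∀ a b : ℕ, MeasurableSet {p : (ℕ → ℕ → Bool) × (ℕ → VLab) | (p.2 a).1 < (p.2 b).1} := by
      intro a b
      exact measurableSet_lt (by fun_prop) (by fun_prop)
    have hadj : ∀ a b : ℕ, MeasurableSet {p : (ℕ → ℕ → Bool) × (ℕ → VLab) |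
        (graphOfTable p.1).Adj a b} := by
      intro a b
      have : {p : (ℕ → ℕ → Bool) × (ℕ → VLab) | (graphOfTable p.1).Adj a b} =
          {p | a ≠ b ∧ (p.1 a b = true ∨ p.1 b a = true)} := by
        ext p
        simp [graphOfTable, SimpleGraph.fromRel_adj]
      rw [this]
      have h1 : ∀ a b : ℕ, Measurable (fun p : (ℕ → ℕ → Bool) × (ℕ → VLab) => p.1 a b) := by
        intro a b
        fun_prop
      exact (MeasurableSet.const _).inter ((h1 a b (measurableSet_singleton true)).union
        (h1 b a (measurableSet_singleton true)))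
    have hrank : ∀ a b : ℕ, Measurable (fun p : (ℕ → ℕ → Bool) × (ℕ → VLab) =>
        rank (graphOfTable p.1) (fun w => (p.2 w).1) a b) := by
      intro a b
      exact measurable_ncard _ fun w => (hadj a w).inter (hlt w b)
    have hsel : ∀ a b : ℕ, Measurable (fun p : (ℕ → ℕ → Bool) × (ℕ → VLab) =>
        (p.2 a).2 (rank (graphOfTable p.1) (fun w => (p.2 w).1) a b)) := by
      intro a b
      have h1 : Measurable (fun q : ((ℕ → ℕ → Bool) × (ℕ → VLab)) × ℕ => (q.1.2 a).2 q.2) := by
        refine measurable_from_prod_countable_left fun n => ?_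
        change Measurable fun x : (ℕ → ℕ → Bool) × (ℕ → VLab) => (x.2 a).2 n
        fun_prop
      exact h1.comp (measurable_id.prodMk (hrank a b))
    exact Measurable.ite (hlt u v) (hsel u v) (Measurable.ite (hlt v u) (hsel v u) measurable_const)

theorem U01_prod_diag : (U01.prod U01) {p : ℝ × ℝ | p.1 = p.2} = 0 := by
  have hm : MeasurableSet {p : ℝ × ℝ | p.1 = p.2} := measurableSet_eq_fun measurable_fst measurable_snd
  rw [Measure.prod_apply hm]
  have : ∀ x : ℝ, U01 (Prod.mk x ⁻¹' {p : ℝ × ℝ | p.1 = p.2}) = 0 := by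
    intro x
    have h1 : (Prod.mk x ⁻¹' {p : ℝ × ℝ | p.1 = p.2}) = {x} := by
      ext y
      simp [eq_comm]
    rw [h1]
    exact Measure.absolutelyContinuous_of_le Measure.restrict_le_self (Real.volume_singleton)
  rw [lintegral_congr this, lintegral_zero]

/-- independent uniform labels are almost surely distinct. -/
theorem ae_injective_nat :
    ∀ᵐ a ∂(Measure.infinitePi fun _ : ℕ => U01), Function.Injective a := by
  have h : ∀ i j : ℕ, i ≠ j → ∀ᵐ a ∂(Measure.infinitePi fun _ : ℕ => U01), a i ≠ a j := by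
    intro i j hij
    have h1 := Measure.infinitePi_map_eval_prod (P := fun _ : ℕ => U01) hij
    have h2 : MeasurableSet {p : ℝ × ℝ | p.1 = p.2} :=
      measurableSet_eq_fun measurable_fst measurable_snd
    rw [ae_iff]
    have h3 : {a : ℕ → ℝ | ¬ a i ≠ a j} = (fun ω : ℕ → ℝ => (ω i, ω j)) ⁻¹' {p | p.1 = p.2} := by
      ext a
      simp
    rw [h3, ← Measure.map_apply (by fun_prop) h2, h1]
    exact U01_prod_diag
  have h' : ∀ᵐ a ∂(Measure.infinitePi fun _ : ℕ => U01), ∀ i j : ℕ, i ≠ j → a i ≠ a j := by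
    rw [ae_all_iff]
    intro i
    rw [ae_all_iff]
    intro j
    by_cases hij : i = j
    · simp [hij]
    · exact (h i j hij).mono fun a ha _ => ha
  refine h'.mono fun a ha i j hij => ?_
  by_contra hne
  exact ha i j hne hij

open scoped Classical in
/-- position of the label of a pair. -/
def key0 (G : SimpleGraph ℕ) (a : ℕ → ℝ) (u v : ℕ) : ℕ × ℕ :=
  if a u < a v then (u, rank G a u v) else if a v < a u then (v, rank G a v u) else (0, 0)

theorem key0_symm (G : SimpleGraph ℕ) (a : ℕ → ℝ) (u v : ℕ) : key0 G a u v = key0 G a v u := by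
  unfold key0
  split_ifs with h1 h2 h3
  · exact absurd h2 (lt_asymm h1)
  all_goals rfl

/-- position of the label of an unordered pair. -/
def key (G : SimpleGraph ℕ) (a : ℕ → ℝ) : Sym2 ℕ → ℕ × ℕ := Sym2.lift ⟨key0 G a, key0_symm G a⟩

theorem key_of_lt (G : SimpleGraph ℕ) (a : ℕ → ℝ) (u v : ℕ) (h : a u < a v) :
    key G a s(u, v) = (u, rank G a u v) := by
  simp [key, key0, h]

/-- choose the endpoint with the smaller label first. -/
theorem exists_ordered (G : SimpleGraph ℕ) (a : ℕ → ℝ) (ha : Function.Injective a) (e : Sym2 ℕ)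
    (he : e ∈ G.edgeSet) : ∃ u v, e = s(u, v) ∧ G.Adj u v ∧ a u < a v := by
  induction e using Sym2.ind with
  | _ u v =>
    rw [SimpleGraph.mem_edgeSet] at he
    rcases lt_trichotomy (a u) (a v) with h | h | h
    · exact ⟨u, v, rfl, he, h⟩
    · exact absurd (ha h) he.ne
    · exact ⟨v, u, Sym2.eq_swap, he.symm, h⟩

theorem rank_lt (G : SimpleGraph ℕ) (hlf : ∀ v : ℕ, (G.neighborSet v).Finite) (a : ℕ → ℝ)
    (u v v' : ℕ) (hv : G.Adj u v) (h : a v < a v') : rank G a u v < rank G a u v' := by
  unfold rank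
  refine Set.ncard_lt_ncard ?_ ((hlf u).subset fun w hw => hw.1)
  refine ⟨fun w hw => ⟨hw.1, hw.2.trans h⟩, fun hsub => ?_⟩
  exact lt_irrefl _ (hsub (show v ∈ {w | G.Adj u w ∧ a w < a v'} from ⟨hv, h⟩)).2

theorem key_injective (G : SimpleGraph ℕ) (hlf : ∀ v : ℕ, (G.neighborSet v).Finite) (a : ℕ → ℝ)
    (ha : Function.Injective a) : Function.Injective fun e : G.edgeSet => key G a e := by
  rintro ⟨e, he⟩ ⟨e', he'⟩ h
  obtain ⟨u, v, rfl, huv, hlt⟩ := exists_ordered G a ha e he
  obtain ⟨u', v', rfl, huv', hlt'⟩ := exists_ordered G a ha e' he'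
  simp only [key_of_lt G a u v hlt, key_of_lt G a u' v' hlt', Prod.mk.injEq] at h
  obtain ⟨rfl, hr⟩ := h
  have : v = v' := by
    rcases lt_trichotomy (a v) (a v') with h | h | h
    · exact absurd hr (rank_lt G hlf a u v v' huv h).ne
    · exact ha h
    · exact absurd hr (rank_lt G hlf a u v' v huv' h).ne'
  subst this
  rfl

theorem edgeLab_eq_key (G : SimpleGraph ℕ) (a : ℕ → ℝ) (ha : Function.Injective a)
    (L : ℕ → ℕ → ℝ × (ℕ → ℝ)) (e : Sym2 ℕ) (he : e ∈ G.edgeSet) :
    edgeLab G (fun i => (a i, L i)) e = L (key G a e).1 (key G a e).2 := by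
  obtain ⟨u, v, rfl, huv, hlt⟩ := exists_ordered G a ha e he
  rw [key_of_lt G a u v hlt]
  simp [edgeLab, elab0, hlt]

theorem graphOfTable_tableOf (G : SimpleGraph ℕ) : graphOfTable (tableOf G) = G := by
  ext i j
  simp only [graphOfTable, SimpleGraph.fromRel_adj, tableOf, decide_eq_true_eq]
  constructor
  · rintro ⟨-, h | h⟩
    · exact h
    · exact h.symm
  · intro h
    exact ⟨h.ne, Or.inl h⟩

theorem measurable_edgeLab_fixed (G : SimpleGraph ℕ) :
    Measurable (fun x : ℕ → VLab => edgeLab G x) := by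
  have h := measurable_edgeLab.comp
    (measurable_prodMk_left (x := tableOf G) : Measurable (Prod.mk (tableOf G) : (ℕ → VLab) → _))
  have h2 : (fun p : (ℕ → ℕ → Bool) × (ℕ → VLab) => edgeLab (graphOfTable p.1) p.2) ∘
      Prod.mk (tableOf G) = fun x : ℕ → VLab => edgeLab G x := by
    funext x
    simp [graphOfTable_tableOf]
  rwa [h2] at h

theorem edgeLab_law (G : SimpleGraph ℕ) (hlf : ∀ v : ℕ, (G.neighborSet v).Finite) :
    (Measure.infinitePi fun _ : ℕ => vlab).map (fun x (e : G.edgeSet) => edgeLab G x e) =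
      Measure.infinitePi (fun _ : G.edgeSet => lab) := by
  have hF : Measurable (fun (x : ℕ → VLab) (e : G.edgeSet) => edgeLab G x e) := by
    refine measurable_pi_iff.2 fun e => ?_
    exact (measurable_pi_iff.1 (measurable_edgeLab_fixed G)) e
  have hzip : Measurable (fun (p : (ℕ → ℝ) × (ℕ → ℕ → ℝ × (ℕ → ℝ))) (i : ℕ) =>
      (p.1 i, p.2 i)) := by fun_prop
  have h1 : (Measure.infinitePi fun _ : ℕ => vlab) =
      ((Measure.infinitePi fun _ : ℕ => U01).prod
        (Measure.infinitePi fun _ : ℕ => Measure.infinitePi fun _ : ℕ => lab)).map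
          (fun p (i : ℕ) => (p.1 i, p.2 i)) :=
    (infinitePi_zip (fun _ : ℕ => U01) (fun _ : ℕ => Measure.infinitePi fun _ : ℕ => lab)).symm
  rw [h1, Measure.map_map hF hzip]
  ext S hS
  rw [Measure.map_apply (hF.comp hzip) hS, Measure.prod_apply ((hF.comp hzip) hS)]
  have h2 : ∀ᵐ a ∂(Measure.infinitePi fun _ : ℕ => U01),
      (Measure.infinitePi fun _ : ℕ => Measure.infinitePi fun _ : ℕ => lab)
        (Prod.mk a ⁻¹' (((fun (x : ℕ → VLab) (e : G.edgeSet) => edgeLab G x e) ∘
          fun (p : (ℕ → ℝ) × (ℕ → ℕ → ℝ × (ℕ → ℝ))) (i : ℕ) => (p.1 i, p.2 i)) ⁻¹' S)) =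
      Measure.infinitePi (fun _ : G.edgeSet => lab) S := by
    refine ae_injective_nat.mono fun a ha => ?_
    have h3 : (Prod.mk a ⁻¹' (((fun (x : ℕ → VLab) (e : G.edgeSet) => edgeLab G x e) ∘
          fun (p : (ℕ → ℝ) × (ℕ → ℕ → ℝ × (ℕ → ℝ))) (i : ℕ) => (p.1 i, p.2 i)) ⁻¹' S)) =
        (fun (L : ℕ → ℕ → ℝ × (ℕ → ℝ)) (e : G.edgeSet) => L (key G a e).1 (key G a e).2) ⁻¹' S := by
      ext L
      simp only [Set.mem_preimage, Function.comp_apply]
      have : (fun e : G.edgeSet => edgeLab G (fun i => (a i, L i)) e) =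
          fun e : G.edgeSet => L (key G a e).1 (key G a e).2 := by
        funext e
        exact edgeLab_eq_key G a ha L e e.2
      rw [this]
    have hk : Measurable (fun (L : ℕ → ℕ → ℝ × (ℕ → ℝ)) (e : G.edgeSet) =>
        L (key G a e).1 (key G a e).2) := by fun_prop
    rw [h3, ← Measure.map_apply hk hS, ← Measure.infinitePi_map_curry (fun _ _ : ℕ => lab),
      Measure.map_map hk (by fun_prop)]
    have h4 := Measure.map_infinitePi_infinitePi_of_inj (P := fun _ : ℕ × ℕ => lab)
      (key_injective G hlf a ha)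
    rw [← h4]
    rfl
  rw [lintegral_congr_ae h2]
  simp

end

end Crest.Agent.R168
end

-- ▼ part R168/GraphP
section

/-! T10: the prediction functions of the FUSF, as canonical measurable functions of the graph. -/

set_option autoImplicit false

namespace Crest.Agent.R168

open MeasureTheory ProbabilityTheory Filter Topology
open Crest.ProbabilityR.SpanningTrees Crest.ProbabilityR.GraphTables

noncomputable section

/-- vertices within distance `n` of the pair `e`. -/
def bset (G : SimpleGraph ℕ) (e : Sym2 ℕ) : ℕ → Set ℕ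
  | 0 => {v | v ∈ e}
  | n + 1 => bset G e n ∪ {v | ∃ w ∈ bset G e n, G.Adj w v}

open scoped Classical in
/-- the same as a finset (empty if infinite). -/
def ball (G : SimpleGraph ℕ) (e : Sym2 ℕ) (n : ℕ) : Finset ℕ :=
  if h : (bset G e n).Finite then h.toFinset else ∅

/-- limit of `P(A ⊆ UST)` along balls around `e`. -/
def qG (G : SimpleGraph ℕ) (e : Sym2 ℕ) (A : Finset (Sym2 ℕ)) : ℝ :=
  limsup (fun n => ustContains G (ball G e n) A) atTop

open scoped Classical in
/-- cylinder probabilities by inclusion-exclusion. -/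
def cG (G : SimpleGraph ℕ) (e : Sym2 ℕ) (F S : Finset (Sym2 ℕ)) : ℝ :=
  ∑ A ∈ F.powerset, if S ⊆ A then (-1 : ℝ) ^ (A.card - S.card) * qG G e A else 0

/-- prediction functions. -/
def PG (G : SimpleGraph ℕ) (e : Sym2 ℕ) (n : ℕ) (h : Sym2 ℕ → ℝ) : ℝ :=
  occ (cG G e) (edgesIn G (ball G e n)) e h

/-! ### measurability -/

theorem meas_of_discrete {Ω D γ : Type*} [MeasurableSpace Ω] [MeasurableSpace γ] [Countable D]
    (F : Ω → D) (hF : ∀ d, MeasurableSet {ω | F ω = d}) (K : D → Ω → γ)
    (hK : ∀ d, Measurable (K d)) : Measurable (fun ω => K (F ω) ω) := by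
  intro s hs
  have : (fun ω => K (F ω) ω) ⁻¹' s = ⋃ d, ({ω | F ω = d} ∩ (K d) ⁻¹' s) := by
    ext ω
    simp
  rw [this]
  exact MeasurableSet.iUnion fun d => (hF d).inter (hK d hs)

theorem graphOfTable_adj (A : ℕ → ℕ → Bool) (i j : ℕ) :
    (graphOfTable A).Adj i j ↔ i ≠ j ∧ (A i j = true ∨ A j i = true) := by
  simp [graphOfTable]

theorem meas_entry (i j : ℕ) : MeasurableSet {A : ℕ → ℕ → Bool | A i j = true} := by
  have h : Measurable (fun A : ℕ → ℕ → Bool => A i j) :=
    (measurable_pi_apply j).comp (measurable_pi_apply i)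
  exact h (MeasurableSet.singleton true)

theorem meas_adj (i j : ℕ) : MeasurableSet {A : ℕ → ℕ → Bool | (graphOfTable A).Adj i j} := by
  have : {A : ℕ → ℕ → Bool | (graphOfTable A).Adj i j} =
      {A | i ≠ j} ∩ ({A : ℕ → ℕ → Bool | A i j = true} ∪ {A : ℕ → ℕ → Bool | A j i = true}) := by
    ext A
    simp [graphOfTable_adj]
  rw [this]
  exact (MeasurableSet.const _).inter ((meas_entry i j).union (meas_entry j i))

theorem meas_edge (f : Sym2 ℕ) :
    MeasurableSet {A : ℕ → ℕ → Bool | f ∈ (graphOfTable A).edgeSet} := by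
  induction f using Sym2.ind with
  | _ i j => simpa using meas_adj i j

theorem meas_bset (e : Sym2 ℕ) (n v : ℕ) :
    MeasurableSet {A : ℕ → ℕ → Bool | v ∈ bset (graphOfTable A) e n} := by
  induction n generalizing v with
  | zero => exact MeasurableSet.const _
  | succ n ih =>
    have : {A : ℕ → ℕ → Bool | v ∈ bset (graphOfTable A) e (n + 1)} =
        {A | v ∈ bset (graphOfTable A) e n} ∪
          ⋃ w, ({A | w ∈ bset (graphOfTable A) e n} ∩ {A | (graphOfTable A).Adj w v}) := by
      ext A
      simp [bset]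
    rw [this]
    exact (ih v).union (MeasurableSet.iUnion fun w => (ih w).inter (meas_adj w v))

theorem meas_bset_finite (e : Sym2 ℕ) (n : ℕ) :
    MeasurableSet {A : ℕ → ℕ → Bool | (bset (graphOfTable A) e n).Finite} := by
  have : {A : ℕ → ℕ → Bool | (bset (graphOfTable A) e n).Finite} =
      ⋃ N : ℕ, ⋂ v : ℕ, ({A | v ∈ bset (graphOfTable A) e n}ᶜ ∪ {A | v ≤ N}) := by
    ext A
    simp only [Set.mem_ofPred_eq, Set.mem_iUnion, Set.mem_iInter, Set.mem_union, Set.mem_compl_iff]
    constructor
    · intro h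
      obtain ⟨N, hN⟩ := h.bddAbove
      refine ⟨N, fun v => ?_⟩
      by_cases hv : v ∈ bset (graphOfTable A) e n
      · exact Or.inr (hN hv)
      · exact Or.inl hv
    · rintro ⟨N, hN⟩
      refine (Set.finite_Iic N).subset fun v hv => ?_
      rcases hN v with h | h
      · exact absurd hv h
      · exact h
  rw [this]
  exact MeasurableSet.iUnion fun N => MeasurableSet.iInter fun v =>
    (meas_bset e n v).compl.union (MeasurableSet.const _)

theorem mem_ball_iff (G : SimpleGraph ℕ) (e : Sym2 ℕ) (n v : ℕ) :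
    v ∈ ball G e n ↔ (bset G e n).Finite ∧ v ∈ bset G e n := by
  unfold ball
  split_ifs with h
  · simp [h]
  · simp [h]

theorem meas_ball (e : Sym2 ℕ) (n : ℕ) (S : Finset ℕ) :
    MeasurableSet {A : ℕ → ℕ → Bool | ball (graphOfTable A) e n = S} := by
  have : {A : ℕ → ℕ → Bool | ball (graphOfTable A) e n = S} =
      ⋂ v : ℕ, {A | (v ∈ S ↔ (bset (graphOfTable A) e n).Finite ∧
        v ∈ bset (graphOfTable A) e n)} := by
    ext A
    simp only [Set.mem_ofPred_eq, Set.mem_iInter]
    constructor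
    · rintro rfl v
      exact mem_ball_iff _ _ _ _
    · intro h
      ext v
      rw [mem_ball_iff, h v]
  rw [this]
  refine MeasurableSet.iInter fun v => ?_
  by_cases hv : v ∈ S
  · have := (meas_bset_finite e n).inter (meas_bset e n v)
    convert this using 1
    ext A
    simp [hv]
  · have := ((meas_bset_finite e n).inter (meas_bset e n v)).compl
    convert this using 1
    ext A
    simp [hv]

instance : Countable (Sym2 ℕ) := by
  unfold Sym2
  infer_instance

theorem mem_edgesIn_iff (G : SimpleGraph ℕ) (S : Finset ℕ) (f : Sym2 ℕ) :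
    f ∈ edgesIn G S ↔ (∀ v ∈ f, v ∈ S) ∧ f ∈ G.edgeSet := by
  simp [edgesIn, Finset.mem_sym2_iff]

theorem meas_edgesIn (S : Finset ℕ) (F : Finset (Sym2 ℕ)) :
    MeasurableSet {A : ℕ → ℕ → Bool | edgesIn (graphOfTable A) S = F} := by
  have : {A : ℕ → ℕ → Bool | edgesIn (graphOfTable A) S = F} =
      ⋂ f : Sym2 ℕ, {A | (f ∈ F ↔ (∀ v ∈ f, v ∈ S) ∧ f ∈ (graphOfTable A).edgeSet)} := by
    ext A
    simp only [Set.mem_ofPred_eq, Set.mem_iInter]
    constructor
    · rintro rfl v
      exact mem_edgesIn_iff _ _ _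
    · intro h
      ext v
      rw [mem_edgesIn_iff, h v]
  rw [this]
  refine MeasurableSet.iInter fun f => ?_
  by_cases hf : f ∈ F
  · by_cases hS : ∀ v ∈ f, v ∈ S
    · have := meas_edge f
      convert this using 1
      ext A
      simp only [Set.mem_ofPred_eq]
      tauto
    · simp [hf, hS]
  · by_cases hS : ∀ v ∈ f, v ∈ S
    · have := (meas_edge f).compl
      convert this using 1
      ext A
      simp only [Set.mem_ofPred_eq, Set.mem_compl_iff]
      tauto
    · simp [hf, hS]

open scoped Classical in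
/-- `ustContains` as a function of the edge set of the piece. -/
def ustE (E : Finset (Sym2 ℕ)) (S : Finset ℕ) (F : Finset (Sym2 ℕ)) : ℝ :=
  ((E.powerset.filter (fun A => (A ⊆ E ∧
    ((SimpleGraph.fromEdgeSet (A : Set (Sym2 ℕ))).induce (S : Set ℕ)).IsTree) ∧ F ⊆ A)).card : ℝ) /
  ((E.powerset.filter (fun A => (A ⊆ E ∧
    ((SimpleGraph.fromEdgeSet (A : Set (Sym2 ℕ))).induce (S : Set ℕ)).IsTree))).card : ℝ)

theorem ustContains_eq (G : SimpleGraph ℕ) (S : Finset ℕ) (F : Finset (Sym2 ℕ)) :
    ustContains G S F = ustE (edgesIn G S) S F := by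
  unfold ustContains ustE IsSpanningTreeOn
  congr!

theorem meas_ust (S : Finset ℕ) (F : Finset (Sym2 ℕ)) :
    Measurable (fun A : ℕ → ℕ → Bool => ustContains (graphOfTable A) S F) := by
  simp only [ustContains_eq]
  exact meas_of_discrete (fun A : ℕ → ℕ → Bool => edgesIn (graphOfTable A) S)
    (fun d => meas_edgesIn S d) (fun E _ => ustE E S F) (fun _ => measurable_const)

theorem meas_ust_ball (e : Sym2 ℕ) (n : ℕ) (F : Finset (Sym2 ℕ)) :
    Measurable (fun A : ℕ → ℕ → Bool =>
      ustContains (graphOfTable A) (ball (graphOfTable A) e n) F) :=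
  meas_of_discrete (fun A : ℕ → ℕ → Bool => ball (graphOfTable A) e n)
    (fun d => meas_ball e n d) (fun S A => ustContains (graphOfTable A) S F)
    (fun S => meas_ust S F)

theorem meas_qG (e : Sym2 ℕ) (F : Finset (Sym2 ℕ)) :
    Measurable (fun A : ℕ → ℕ → Bool => qG (graphOfTable A) e F) :=
  Measurable.limsup fun n => meas_ust_ball e n F

theorem meas_cG (e : Sym2 ℕ) (F S : Finset (Sym2 ℕ)) :
    Measurable (fun A : ℕ → ℕ → Bool => cG (graphOfTable A) e F S) := by
  unfold cG
  refine Finset.measurable_fun_sum _ fun B _ => ?_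
  split_ifs
  · exact (meas_qG e B).const_mul _
  · exact measurable_const

theorem meas_occ (e : Sym2 ℕ) (F : Finset (Sym2 ℕ)) :
    Measurable (fun q : (ℕ → ℕ → Bool) × (Sym2 ℕ → ℝ) =>
      occ (cG (graphOfTable q.1) e) F e q.2) := by
  have hexp : ∀ S : Finset (Sym2 ℕ), Measurable
      (fun q : (ℕ → ℕ → Bool) × (Sym2 ℕ → ℝ) =>
        cG (graphOfTable q.1) e F S * Real.exp (∑ j ∈ S, q.2 j)) := by
    intro S
    refine ((meas_cG e F S).comp measurable_fst).mul (Real.measurable_exp.comp ?_)
    exact Finset.measurable_fun_sum _ fun j _ => (measurable_pi_apply j).comp measurable_snd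
  unfold occ Zo Zw
  refine Measurable.div ?_ ?_
  · refine Finset.measurable_fun_sum _ fun S _ => ?_
    split_ifs
    · exact hexp S
    · exact measurable_const
  · exact Finset.measurable_fun_sum _ fun S _ => hexp S

theorem measurable_PG (e : Sym2 ℕ) (n : ℕ) :
    Measurable (fun q : (ℕ → ℕ → Bool) × (Sym2 ℕ → ℝ) => PG (graphOfTable q.1) e n q.2) := by
  unfold PG
  refine meas_of_discrete (fun q : (ℕ → ℕ → Bool) × (Sym2 ℕ → ℝ) =>
      edgesIn (graphOfTable q.1) (ball (graphOfTable q.1) e n)) (fun d => ?_)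
    (fun F q => occ (cG (graphOfTable q.1) e) F e q.2) (fun F => meas_occ e F)
  have h1 : MeasurableSet {A : ℕ → ℕ → Bool |
      edgesIn (graphOfTable A) (ball (graphOfTable A) e n) = d} := by
    have : {A : ℕ → ℕ → Bool | edgesIn (graphOfTable A) (ball (graphOfTable A) e n) = d} =
        ⋃ S : Finset ℕ, ({A | ball (graphOfTable A) e n = S} ∩
          {A | edgesIn (graphOfTable A) S = d}) := by
      ext A
      simp
    rw [this]
    exact MeasurableSet.iUnion fun S => (meas_ball e n S).inter (meas_edgesIn S d)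
  exact measurable_fst h1

/-! ### equivariance -/

theorem powerset_map' {α β : Type*} (f : α ↪ β) (s : Finset α) :
    (s.map f).powerset = s.powerset.map (Finset.mapEmbedding f).toEmbedding := by
  ext t
  simp only [Finset.mem_powerset, Finset.mem_map, RelEmbedding.coe_toEmbedding,
    Finset.mapEmbedding_apply]
  constructor
  · intro h
    obtain ⟨u, hu, rfl⟩ := Finset.subset_map_iff.1 h
    exact ⟨u, hu, rfl⟩
  · rintro ⟨u, hu, rfl⟩
    exact Finset.map_subset_map.2 hu

theorem sum_powerset_map {α β : Type*} (f : α ↪ β) (s : Finset α) (g : Finset β → ℝ) :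
    ∑ t ∈ (s.map f).powerset, g t = ∑ t ∈ s.powerset, g (t.map f) := by
  rw [powerset_map', Finset.sum_map]
  rfl

/-- the embedding of pairs induced by a permutation. -/
def sE (σ : Equiv.Perm ℕ) : Sym2 ℕ ↪ Sym2 ℕ := σ.toEmbedding.sym2Map

theorem sE_apply (σ : Equiv.Perm ℕ) (f : Sym2 ℕ) : sE σ f = Sym2.map ⇑σ f := rfl

theorem bset_comap (σ : Equiv.Perm ℕ) (G : SimpleGraph ℕ) (e : Sym2 ℕ) (n v : ℕ) :
    v ∈ bset (G.comap ⇑σ) e n ↔ σ v ∈ bset G (Sym2.map ⇑σ e) n := by
  induction n generalizing v with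
  | zero =>
    simp [bset, Sym2.mem_map]
  | succ n ih =>
    simp only [bset, Set.mem_union, Set.mem_ofPred_eq, ih, SimpleGraph.comap_adj]
    constructor
    · rintro (h | ⟨w, hw, hwv⟩)
      · exact Or.inl h
      · exact Or.inr ⟨σ w, hw, hwv⟩
    · rintro (h | ⟨w, hw, hwv⟩)
      · exact Or.inl h
      · exact Or.inr ⟨σ.symm w, by simpa using hw, by simpa using hwv⟩

theorem bset_comap_finite (σ : Equiv.Perm ℕ) (G : SimpleGraph ℕ) (e : Sym2 ℕ) (n : ℕ) :
    (bset (G.comap ⇑σ) e n).Finite ↔ (bset G (Sym2.map ⇑σ e) n).Finite := by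
  have : bset (G.comap ⇑σ) e n = ⇑σ ⁻¹' bset G (Sym2.map ⇑σ e) n := by
    ext v
    exact bset_comap σ G e n v
  rw [this]
  exact ⟨fun h => h.of_preimage σ.surjective, fun h => h.preimage σ.injective.injOn⟩

theorem ball_comap (σ : Equiv.Perm ℕ) (G : SimpleGraph ℕ) (e : Sym2 ℕ) (n : ℕ) :
    ball G (Sym2.map ⇑σ e) n = (ball (G.comap ⇑σ) e n).map σ.toEmbedding := by
  ext v
  simp only [Finset.mem_map, mem_ball_iff, bset_comap_finite, bset_comap, Equiv.coe_toEmbedding]
  constructor
  · rintro ⟨h1, h2⟩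
    exact ⟨σ.symm v, ⟨h1, by simpa using h2⟩, by simp⟩
  · rintro ⟨w, ⟨h1, h2⟩, rfl⟩
    exact ⟨h1, h2⟩

theorem edgesIn_comap (σ : Equiv.Perm ℕ) (G : SimpleGraph ℕ) (S : Finset ℕ) :
    edgesIn G (S.map σ.toEmbedding) = (edgesIn (G.comap ⇑σ) S).map (sE σ) := by
  ext f
  simp only [Finset.mem_map, mem_edgesIn_iff, sE_apply]
  constructor
  · rintro ⟨h1, h2⟩
    refine ⟨Sym2.map ⇑σ.symm f, ⟨?_, ?_⟩, ?_⟩
    · intro v hv
      obtain ⟨w, hw, rfl⟩ := Sym2.mem_map.1 hv
      obtain ⟨u, hu, hu'⟩ := h1 w hw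
      rw [← hu']
      simpa using hu
    · induction f using Sym2.ind with
      | _ i j => simpa using h2
    · rw [Sym2.map_map]
      simp
  · rintro ⟨g, ⟨h1, h2⟩, rfl⟩
    constructor
    · intro v hv
      obtain ⟨w, hw, rfl⟩ := Sym2.mem_map.1 hv
      exact ⟨w, h1 w hw, rfl⟩
    · induction g using Sym2.ind with
      | _ i j => simpa using h2

/-- the isomorphism of edge graphs induced by a permutation. -/
def fesIso (σ : Equiv.Perm ℕ) (A : Finset (Sym2 ℕ)) :
    SimpleGraph.fromEdgeSet (A : Set (Sym2 ℕ)) ≃g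
      SimpleGraph.fromEdgeSet ((A.map (sE σ) : Finset (Sym2 ℕ)) : Set (Sym2 ℕ)) where
  toEquiv := σ
  map_rel_iff' := by
    intro a b
    simp only [SimpleGraph.fromEdgeSet_adj, Finset.coe_map, ne_eq,
      EmbeddingLike.apply_eq_iff_eq]
    have : s(σ a, σ b) = sE σ s(a, b) := rfl
    rw [this, (sE σ).injective.mem_set_image]

theorem fromEdgeSet_iso (σ : Equiv.Perm ℕ) (A : Finset (Sym2 ℕ)) (S : Finset ℕ) :
    ((SimpleGraph.fromEdgeSet ((A.map (sE σ) : Finset (Sym2 ℕ)) : Set (Sym2 ℕ))).induce
      ((S.map σ.toEmbedding : Finset ℕ) : Set ℕ)).IsTree ↔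
    ((SimpleGraph.fromEdgeSet (A : Set (Sym2 ℕ))).induce (S : Set ℕ)).IsTree := by
  have hb : Set.BijOn (fesIso σ A) (S : Set ℕ) ((S.map σ.toEmbedding : Finset ℕ) : Set ℕ) := by
    have h : Set.BijOn (⇑σ) (S : Set ℕ) ((S.map σ.toEmbedding : Finset ℕ) : Set ℕ) := by
      rw [Finset.coe_map]
      exact σ.injective.injOn.bijOn_image
    exact h
  exact ((fesIso σ A).induce hb).isTree_iff.symm

theorem card_filter_powerset_map {α β : Type*} (f : α ↪ β) (E : Finset α)
    (p : Finset β → Prop) (p' : Finset α → Prop) [DecidablePred p] [DecidablePred p']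
    (h : ∀ A, p (A.map f) ↔ p' A) :
    ((E.map f).powerset.filter p).card = (E.powerset.filter p').card := by
  rw [powerset_map', Finset.filter_map, Finset.card_map]
  congr 1
  exact Finset.filter_congr fun A _ => h A

open scoped Classical in
theorem ustE_map (σ : Equiv.Perm ℕ) (E : Finset (Sym2 ℕ)) (S : Finset ℕ)
    (F : Finset (Sym2 ℕ)) :
    ustE (E.map (sE σ)) (S.map σ.toEmbedding) (F.map (sE σ)) = ustE E S F := by
  unfold ustE
  congr 2
  · refine card_filter_powerset_map (sE σ) E _ _ fun A => ?_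
    simp only [Finset.map_subset_map, fromEdgeSet_iso]
  · refine card_filter_powerset_map (sE σ) E _ _ fun A => ?_
    simp only [Finset.map_subset_map, fromEdgeSet_iso]

theorem ustContains_comap (σ : Equiv.Perm ℕ) (G : SimpleGraph ℕ) (S : Finset ℕ)
    (A : Finset (Sym2 ℕ)) :
    ustContains G (S.map σ.toEmbedding) (A.map (sE σ)) = ustContains (G.comap ⇑σ) S A := by
  rw [ustContains_eq, ustContains_eq, edgesIn_comap, ustE_map]

theorem qG_comap (σ : Equiv.Perm ℕ) (G : SimpleGraph ℕ) (e : Sym2 ℕ) (A : Finset (Sym2 ℕ)) :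
    qG G (Sym2.map ⇑σ e) (A.map (sE σ)) = qG (G.comap ⇑σ) e A := by
  unfold qG
  simp only [ball_comap, ustContains_comap]

theorem cG_comap (σ : Equiv.Perm ℕ) (G : SimpleGraph ℕ) (e : Sym2 ℕ)
    (F S : Finset (Sym2 ℕ)) :
    cG G (Sym2.map ⇑σ e) (F.map (sE σ)) (S.map (sE σ)) = cG (G.comap ⇑σ) e F S := by
  unfold cG
  rw [sum_powerset_map]
  refine Finset.sum_congr rfl fun A _ => ?_
  simp only [Finset.map_subset_map, Finset.card_map, qG_comap]

theorem PG_comap (σ : Equiv.Perm ℕ) (G : SimpleGraph ℕ) (e : Sym2 ℕ) (n : ℕ)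
    (h : Sym2 ℕ → ℝ) :
    PG G (Sym2.map ⇑σ e) n h = PG (G.comap ⇑σ) e n (h ∘ Sym2.map ⇑σ) := by
  unfold PG occ Zo Zw
  rw [ball_comap, edgesIn_comap, sum_powerset_map, sum_powerset_map]
  congr 1
  · refine Finset.sum_congr rfl fun A _ => ?_
    rw [cG_comap, Finset.sum_map]
    have : Sym2.map ⇑σ e ∈ A.map (sE σ) ↔ e ∈ A := Finset.mem_map' (sE σ)
    by_cases he : e ∈ A
    · rw [if_pos (this.2 he), if_pos he]
      rfl
    · rw [if_neg (fun h => he (this.1 h)), if_neg he]
  · refine Finset.sum_congr rfl fun A _ => ?_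
    rw [cG_comap, Finset.sum_map]
    rfl

/-! ### balls exhaust -/

theorem bset_finite (G : SimpleGraph ℕ) (hlf : ∀ v : ℕ, (G.neighborSet v).Finite) (e : Sym2 ℕ)
    (n : ℕ) : (bset G e n).Finite := by
  induction n with
  | zero =>
    induction e using Sym2.ind with
    | _ i j =>
      refine (Set.toFinite ({i, j} : Set ℕ)).subset fun v hv => ?_
      simpa [bset] using hv
  | succ n ih =>
    refine ih.union ?_
    have : {v | ∃ w ∈ bset G e n, G.Adj w v} = ⋃ w ∈ bset G e n, G.neighborSet w := by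
      ext v
      simp
    rw [this]
    exact ih.biUnion fun w _ => hlf w

theorem bset_mono (G : SimpleGraph ℕ) (e : Sym2 ℕ) : Monotone (bset G e) :=
  monotone_nat_of_le_succ fun _ => Set.subset_union_left

theorem coe_ball (G : SimpleGraph ℕ) (hlf : ∀ v : ℕ, (G.neighborSet v).Finite) (e : Sym2 ℕ)
    (n : ℕ) : (ball G e n : Set ℕ) = bset G e n := by
  ext v
  simp [mem_ball_iff, bset_finite G hlf e n]

theorem bset_connected (G : SimpleGraph ℕ) (e : Sym2 ℕ) (he : e ∈ G.edgeSet) (n : ℕ) :
    (G.induce (bset G e n)).Connected := by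
  induction e using Sym2.ind with
  | _ a b =>
    have hab : G.Adj a b := by simpa using he
    have ha : ∀ n, a ∈ bset G s(a, b) n := fun n =>
      bset_mono G s(a, b) (Nat.zero_le n) (by simp [bset])
    rw [SimpleGraph.connected_iff_exists_forall_reachable]
    refine ⟨⟨a, ha n⟩, ?_⟩
    rintro ⟨v, hv⟩
    induction n generalizing v with
    | zero =>
      have hv' : v = a ∨ v = b := by simpa [bset] using hv
      rcases hv' with rfl | rfl
      · exact SimpleGraph.Reachable.refl _
      · refine SimpleGraph.Adj.reachable ?_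
        simpa using hab
    | succ n ih =>
      have hsub : bset G s(a, b) n ⊆ bset G s(a, b) (n + 1) := bset_mono G _ (Nat.le_succ n)
      have hmap : ∀ w (hw : w ∈ bset G s(a, b) n),
          (G.induce (bset G s(a, b) (n + 1))).Reachable ⟨a, ha (n + 1)⟩ ⟨w, hsub hw⟩ := by
        intro w hw
        have := (ih w hw).map (G.induceHomOfLE hsub).toHom
        exact this
      rcases hv with hv | ⟨w, hw, hwv⟩
      · exact hmap v hv
      · refine (hmap w hw).trans (SimpleGraph.Adj.reachable ?_)
        simpa using hwv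

theorem exists_mem_bset (G : SimpleGraph ℕ) (hG : G.Connected) (e : Sym2 ℕ) (v : ℕ) :
    ∃ n, v ∈ bset G e n := by
  induction e using Sym2.ind with
  | _ a b =>
    obtain ⟨p⟩ := hG.preconnected a v
    have key : ∀ {x y : ℕ} (p : G.Walk x y) (n : ℕ), x ∈ bset G s(a, b) n →
        ∃ m, y ∈ bset G s(a, b) m := by
      intro x y p
      induction p with
      | nil => exact fun n hn => ⟨n, hn⟩
      | cons h p ih => exact fun n hn => ih (n + 1) (Or.inr ⟨_, hn, h⟩)
    exact key p 0 (by simp [bset])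

theorem ball_spec (G : SimpleGraph ℕ) (hG : G.Connected)
    (hlf : ∀ v : ℕ, (G.neighborSet v).Finite) (e : Sym2 ℕ) (he : e ∈ G.edgeSet) :
    Monotone (ball G e) ∧ (∀ v : ℕ, ∃ n, v ∈ ball G e n) ∧
      (∀ n, (G.induce (ball G e n : Set ℕ)).Connected) ∧
      (∀ n, e ∈ edgesIn G (ball G e n)) ∧
      (∀ n, (edgesIn G (ball G e n) : Set (Sym2 ℕ)) ⊆ G.edgeSet) ∧
      (∀ f ∈ G.edgeSet, ∃ n, f ∈ edgesIn G (ball G e n)) := by
  have hmem : ∀ n v, v ∈ ball G e n ↔ v ∈ bset G e n := fun n v => by
    simp [mem_ball_iff, bset_finite G hlf e n]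
  have hmono : Monotone (ball G e) := by
    intro m n hmn v hv
    rw [hmem] at hv ⊢
    exact bset_mono G e hmn hv
  have hex : ∀ v : ℕ, ∃ n, v ∈ ball G e n := fun v => by
    obtain ⟨n, hn⟩ := exists_mem_bset G hG e v
    exact ⟨n, (hmem n v).2 hn⟩
  refine ⟨hmono, hex, ?_, ?_, ?_, ?_⟩
  · intro n
    rw [coe_ball G hlf]
    exact bset_connected G e he n
  · intro n
    rw [mem_edgesIn_iff]
    refine ⟨fun v hv => ?_, he⟩
    rw [hmem]
    exact bset_mono G e (Nat.zero_le n) hv
  · intro n f hf
    exact ((mem_edgesIn_iff _ _ _).1 (by simpa using hf)).2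
  · intro f hf
    induction f using Sym2.ind with
    | _ i j =>
      obtain ⟨m, hm⟩ := hex i
      obtain ⟨n, hn⟩ := hex j
      refine ⟨max m n, ?_⟩
      rw [mem_edgesIn_iff]
      refine ⟨fun v hv => ?_, hf⟩
      rcases Sym2.mem_iff.1 hv with rfl | rfl
      · exact hmono (le_max_left m n) hm
      · exact hmono (le_max_right m n) hn

/-! ### identification with the cylinder probabilities -/

open scoped Classical in
theorem cyl_eq_incl_excl {V : Type*} (ν : Measure (V → Bool)) [IsProbabilityMeasure ν]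
    (F S : Finset V) (hS : S ⊆ F) :
    cyl ν F S = ∑ A ∈ F.powerset, if S ⊆ A then
      (-1 : ℝ) ^ (A.card - S.card) * (ν {ω | ∀ i ∈ A, ω i = true}).toReal else 0 := by
  set x : V → (V → Bool) → ℝ := fun i ω => if ω i = true then 1 else 0 with hx
  have hms : ∀ i : V, MeasurableSet {ω : V → Bool | ω i = true} := fun i => by
    have h : Measurable (fun ω : V → Bool => ω i) := measurable_pi_apply i
    exact h (MeasurableSet.singleton true)
  have hxm : ∀ i, Measurable (x i) := fun i =>
    Measurable.ite (hms i) measurable_const measurable_const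
  have hall : ∀ A : Finset V, MeasurableSet {ω : V → Bool | ∀ i ∈ A, ω i = true} := by
    intro A
    have : {ω : V → Bool | ∀ i ∈ A, ω i = true} = ⋂ i ∈ A, {ω | ω i = true} := by
      ext ω
      simp
    rw [this]
    exact A.measurableSet_biInter fun i _ => hms i
  have hprod : ∀ A : Finset V, (fun ω => ∏ i ∈ A, x i ω) =
      Set.indicator {ω : V → Bool | ∀ i ∈ A, ω i = true} 1 := by
    intro A
    ext ω
    by_cases h : ∀ i ∈ A, ω i = true
    · rw [Set.indicator_of_mem (show ω ∈ {ω : V → Bool | ∀ i ∈ A, ω i = true} from h)]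
      exact Finset.prod_eq_one fun i hi => by simp [hx, h i hi]
    · rw [Set.indicator_of_notMem (show ω ∉ {ω : V → Bool | ∀ i ∈ A, ω i = true} from h)]
      push Not at h
      obtain ⟨i, hi, hi'⟩ := h
      exact Finset.prod_eq_zero hi (by simp [hx, hi'])
  have hint : ∀ A : Finset V, ∫ ω, ∏ i ∈ A, x i ω ∂ν =
      (ν {ω | ∀ i ∈ A, ω i = true}).toReal := by
    intro A
    rw [hprod A, integral_indicator_one (hall A)]
    rfl
  have hcyl : MeasurableSet {ω : V → Bool | ∀ i ∈ F, (ω i = true ↔ i ∈ S)} := by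
    have : {ω : V → Bool | ∀ i ∈ F, (ω i = true ↔ i ∈ S)} =
        ⋂ i ∈ F, {ω | (ω i = true ↔ i ∈ S)} := by
      ext ω
      simp
    rw [this]
    refine F.measurableSet_biInter fun i _ => ?_
    by_cases hi : i ∈ S
    · simpa [hi] using hms i
    · have := (hms i).compl
      convert this using 1
      ext ω
      simp [hi]
  have hpt : (fun ω => ∑ T ∈ (F \ S).powerset, (-1 : ℝ) ^ T.card * ∏ i ∈ S ∪ T, x i ω) =
      Set.indicator {ω : V → Bool | ∀ i ∈ F, (ω i = true ↔ i ∈ S)} 1 := by
    ext ω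
    have h1 : ∑ T ∈ (F \ S).powerset, (-1 : ℝ) ^ T.card * ∏ i ∈ S ∪ T, x i ω =
        (∏ i ∈ S, x i ω) * ∏ i ∈ F \ S, (1 - x i ω) := by
      have h2 : ∏ i ∈ F \ S, (1 - x i ω) = ∏ i ∈ F \ S, (-x i ω + 1) :=
        Finset.prod_congr rfl fun i _ => by ring
      rw [h2, Finset.prod_add, Finset.mul_sum]
      refine Finset.sum_congr rfl fun T hT => ?_
      have hdisj : Disjoint S T := by
        rw [Finset.mem_powerset] at hT
        exact Finset.disjoint_of_subset_right hT Finset.disjoint_sdiff
      rw [Finset.prod_union hdisj, Finset.prod_neg]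
      simp
      ring
    rw [h1]
    by_cases h : ∀ i ∈ F, (ω i = true ↔ i ∈ S)
    · rw [Set.indicator_of_mem
        (show ω ∈ {ω : V → Bool | ∀ i ∈ F, (ω i = true ↔ i ∈ S)} from h)]
      have ha : ∏ i ∈ S, x i ω = 1 := Finset.prod_eq_one fun i hi => by
        simp [hx, (h i (hS hi)).2 hi]
      have hb : ∏ i ∈ F \ S, (1 - x i ω) = 1 := Finset.prod_eq_one fun i hi => by
        rw [Finset.mem_sdiff] at hi
        have : ¬ (ω i = true) := fun hc => hi.2 ((h i hi.1).1 hc)
        simp [hx, this]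
      rw [ha, hb]
      simp
    · rw [Set.indicator_of_notMem
        (show ω ∉ {ω : V → Bool | ∀ i ∈ F, (ω i = true ↔ i ∈ S)} from h)]
      push Not at h
      obtain ⟨i, hi, hi'⟩ := h
      rcases hi' with ⟨h1, h2⟩ | ⟨h1, h2⟩
      · have : ∏ i ∈ F \ S, (1 - x i ω) = 0 :=
          Finset.prod_eq_zero (Finset.mem_sdiff.2 ⟨hi, h2⟩) (by simp [hx, h1])
        rw [this, mul_zero]
      · have : ∏ i ∈ S, x i ω = 0 :=
          Finset.prod_eq_zero h2 (by simp [hx, h1])
        rw [this, zero_mul]
  have hbdd : ∀ A : Finset V, Integrable (fun ω => ∏ i ∈ A, x i ω) ν := by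
    intro A
    rw [hprod A]
    exact (integrable_const (1 : ℝ)).indicator (hall A)
  have e1 : cyl ν F S = ∑ T ∈ (F \ S).powerset,
      (-1 : ℝ) ^ T.card * (ν {ω | ∀ i ∈ S ∪ T, ω i = true}).toReal := by
    have : cyl ν F S = ∫ ω, Set.indicator {ω : V → Bool | ∀ i ∈ F, (ω i = true ↔ i ∈ S)} 1 ω ∂ν := by
      rw [integral_indicator_one hcyl]
      rfl
    rw [this, ← hpt, integral_finsetSum _ fun T _ => (hbdd (S ∪ T)).const_mul _]
    refine Finset.sum_congr rfl fun T _ => ?_
    rw [integral_const_mul, hint]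
  rw [e1, ← Finset.sum_filter, ← Finset.Icc_eq_filter_powerset, Finset.Icc_eq_image_powerset hS,
    Finset.sum_image]
  · refine Finset.sum_congr rfl fun T hT => ?_
    have hdisj : Disjoint S T := by
      rw [Finset.mem_powerset] at hT
      exact Finset.disjoint_of_subset_right hT Finset.disjoint_sdiff
    rw [Finset.card_union_of_disjoint hdisj, Nat.add_sub_cancel_left]
  · intro T hT T' hT' hTT
    have hd : ∀ U ∈ (F \ S).powerset, (S ∪ U) \ S = U := by
      intro U hU
      rw [Finset.mem_powerset] at hU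
      exact Finset.union_sdiff_cancel_left (Finset.disjoint_of_subset_right hU Finset.disjoint_sdiff)
    have hTT' : S ∪ T = S ∪ T' := hTT
    rw [← hd T hT, ← hd T' hT', hTT']

open scoped Classical in
/-- on a good graph, `PG` is `occ` for the FUSF measure `ν` on `G.edgeSet → Bool`. -/
theorem PG_eq_occ (G : SimpleGraph ℕ) (hG : G.Connected)
    (hlf : ∀ v : ℕ, (G.neighborSet v).Finite)
    (ν : Measure (G.edgeSet → Bool)) [IsProbabilityMeasure ν]
    (hν : ∀ (A : Finset (Sym2 ℕ)), (A : Set (Sym2 ℕ)) ⊆ G.edgeSet →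
        ∀ S : ℕ → Finset ℕ, Monotone S → (∀ v : ℕ, ∃ n, v ∈ S n) →
          (∀ n, (G.induce (S n : Set ℕ)).Connected) →
          Tendsto (fun n => ustContains G (S n) A) atTop
            (𝓝 (ν {ω | ∀ e : G.edgeSet, (e : Sym2 ℕ) ∈ A → ω e = true}).toReal))
    (e : G.edgeSet) (n : ℕ) (h : Sym2 ℕ → ℝ) :
    PG G e n h = occ (cyl ν)
      ((edgesIn G (ball G e n)).subtype (· ∈ G.edgeSet)) e (fun f => h f) := by
  obtain ⟨h1, h2, h3, -, h5, -⟩ := ball_spec G hG hlf e e.2
  set emb : G.edgeSet ↪ Sym2 ℕ := Function.Embedding.subtype (· ∈ G.edgeSet) with hemb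
  have hq : ∀ A : Finset G.edgeSet, qG G e (A.map emb) =
      (ν {ω | ∀ i ∈ A, ω i = true}).toReal := by
    intro A
    have hA : ((A.map emb : Finset (Sym2 ℕ)) : Set (Sym2 ℕ)) ⊆ G.edgeSet := by
      intro f hf
      obtain ⟨g, -, rfl⟩ := Finset.mem_map.1 (Finset.mem_coe.1 hf)
      exact g.2
    have := (hν (A.map emb) hA (ball G e) h1 h2 h3).limsup_eq
    rw [qG, this]
    have hset : {ω : G.edgeSet → Bool | ∀ e : G.edgeSet, (e : Sym2 ℕ) ∈ A.map emb → ω e = true} =
        {ω | ∀ i ∈ A, ω i = true} := by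
      ext ω
      simp only [Set.mem_ofPred_eq]
      refine forall_congr' fun f => ?_
      have : (f : Sym2 ℕ) ∈ A.map emb ↔ f ∈ A := Finset.mem_map' emb
      rw [this]
    rw [hset]
  have hc : ∀ F S : Finset G.edgeSet, S ⊆ F → cG G e (F.map emb) (S.map emb) = cyl ν F S := by
    intro F S hS
    rw [cyl_eq_incl_excl ν F S hS, cG, sum_powerset_map]
    refine Finset.sum_congr rfl fun A _ => ?_
    by_cases hSA : S ⊆ A
    · rw [if_pos hSA, if_pos (Finset.map_subset_map.2 hSA), Finset.card_map, Finset.card_map, hq]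
    · rw [if_neg hSA, if_neg (fun h => hSA (Finset.map_subset_map.1 h))]
  set F := (edgesIn G (ball G e n)).subtype (· ∈ G.edgeSet) with hF
  have hFm : edgesIn G (ball G e n) = F.map emb := by
    rw [hF, hemb, Finset.subtype_map_of_mem]
    exact fun x hx => h5 n hx
  unfold PG occ Zo Zw
  rw [hFm, sum_powerset_map, sum_powerset_map]
  congr 1
  · refine Finset.sum_congr rfl fun A hA => ?_
    rw [Finset.mem_powerset] at hA
    rw [hc F A hA, Finset.sum_map]
    have : (e : Sym2 ℕ) ∈ A.map emb ↔ e ∈ A := Finset.mem_map' emb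
    by_cases he : e ∈ A
    · rw [if_pos (this.2 he), if_pos he]
      rfl
    · rw [if_neg (fun h => he (this.1 h)), if_neg he]
  · refine Finset.sum_congr rfl fun A hA => ?_
    rw [Finset.mem_powerset] at hA
    rw [hc F A hA, Finset.sum_map]
    rfl

end

end Crest.Agent.R168
private theorem rz_0784fd76d1 : type_of% @_root_.Crest.Agent.R168.bset.eq_def := @_root_.Crest.Agent.R168.bset.eq_def -- L15
private theorem rz_977bf78677 : type_of% @_root_.Crest.Agent.R168.bset.eq_1 := @_root_.Crest.Agent.R168.bset.eq_1 -- L15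
end

-- ▼ part R168/Final0254

/-! T11: assembly of S0254. `Φ G x = Xi (PG G) (edgeLab G (dec ∘ x))`. -/

set_option autoImplicit false

namespace Crest.Agent.R168

open MeasureTheory ProbabilityTheory Filter Topology

attribute [local irreducible] Xi edgeLab PG

theorem graphOfTable_tableOf' (G : SimpleGraph ℕ) :
    Crest.ProbabilityR.GraphTables.graphOfTable
      (Crest.ProbabilityR.GraphTables.tableOf G) = G := by
  ext i j
  simp only [Crest.ProbabilityR.GraphTables.graphOfTable, Crest.ProbabilityR.GraphTables.tableOf,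
    SimpleGraph.fromRel_adj, decide_eq_true_eq]
  constructor
  · rintro ⟨_, h | h⟩
    · exact h
    · exact h.symm
  · intro h
    exact ⟨h.ne, Or.inl h⟩

theorem final0254 :
    ∃ Φ : SimpleGraph ℕ → (ℕ → unitInterval) → (Sym2 ℕ → Bool),
      Measurable (fun p : (ℕ → ℕ → Bool) × (ℕ → unitInterval) =>
          Φ (Crest.ProbabilityR.GraphTables.graphOfTable p.1) p.2) ∧
      (∀ (σ : Equiv.Perm ℕ) (G : SimpleGraph ℕ) (x : ℕ → unitInterval),
          Φ (G.comap ⇑σ) (x ∘ ⇑σ) = Φ G x ∘ Sym2.map ⇑σ) ∧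
      ∀ G : SimpleGraph ℕ, G.Connected → (∀ v : ℕ, (G.neighborSet v).Finite) →
        ∀ S : ℕ → Finset ℕ, Monotone S → (∀ v : ℕ, ∃ n, v ∈ S n) →
          (∀ n, (G.induce (S n : Set ℕ)).Connected) →
          ∀ F : Finset (Sym2 ℕ), (↑F : Set (Sym2 ℕ)) ⊆ G.edgeSet →
            Filter.Tendsto (fun n => Crest.ProbabilityR.SpanningTrees.ustContains G (S n) F) Filter.atTop
              (nhds (((Crest.ProbabilityR.Labels.labelMeasure ℕ).map (Φ G) {ω | ∀ e ∈ F, ω e = true}).toReal)) := by
  classical
  obtain ⟨dec, hdec, hlaw⟩ := exists_decode vlab ℕ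
  let Φ : SimpleGraph ℕ → (ℕ → unitInterval) → (Sym2 ℕ → Bool) :=
    fun G x => Xi (PG G) (edgeLab G (fun v => dec (x v)))
  have hdec' : Measurable (fun (x : ℕ → unitInterval) (v : ℕ) => dec (x v)) :=
    measurable_pi_lambda _ fun v => hdec.comp (measurable_pi_apply v)
  have hmeas : Measurable (fun p : (ℕ → ℕ → Bool) × (ℕ → unitInterval) =>
      Φ (Crest.ProbabilityR.GraphTables.graphOfTable p.1) p.2) := by
    have h1 := measurable_Xi (V := Sym2 ℕ)
      (fun A : ℕ → ℕ → Bool => PG (Crest.ProbabilityR.GraphTables.graphOfTable A))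
      (fun i n => measurable_PG i n)
    have h2 : Measurable (fun p : (ℕ → ℕ → Bool) × (ℕ → unitInterval) =>
        (p.1, edgeLab (Crest.ProbabilityR.GraphTables.graphOfTable p.1)
          (fun v => dec (p.2 v)))) := by
      refine measurable_fst.prodMk ?_
      exact measurable_edgeLab.comp (measurable_fst.prodMk (hdec'.comp measurable_snd))
    show Measurable (fun p : (ℕ → ℕ → Bool) × (ℕ → unitInterval) =>
      Xi (PG (Crest.ProbabilityR.GraphTables.graphOfTable p.1))
        (edgeLab (Crest.ProbabilityR.GraphTables.graphOfTable p.1) (fun v => dec (p.2 v))))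
    exact Measurable.comp (g := fun q : (ℕ → ℕ → Bool) × (Sym2 ℕ → ℝ × (ℕ → ℝ)) =>
      Xi (PG (Crest.ProbabilityR.GraphTables.graphOfTable q.1)) q.2) h1 h2
  refine ⟨Φ, hmeas, ?_, ?_⟩
  · intro σ G x
    have h1 : (edgeLab (G.comap ⇑σ) (fun v => dec ((x ∘ ⇑σ) v))) =
        edgeLab G (fun v => dec (x v)) ∘ Sym2.map ⇑σ :=
      edgeLab_comap σ G (fun v => dec (x v))
    show Xi (PG (G.comap ⇑σ)) (edgeLab (G.comap ⇑σ) (fun v => dec ((x ∘ ⇑σ) v))) =
      Xi (PG G) (edgeLab G (fun v => dec (x v))) ∘ Sym2.map ⇑σ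
    rw [h1]
    exact (Xi_comp (Sym2.map ⇑σ) (PG G) (PG (G.comap ⇑σ))
      (fun i n f => PG_comap σ G i n f) _).symm
  · intro G hG hlf S hS1 hS2 hS3 F hF
    obtain ⟨ν, hν, hL, hlim⟩ := exists_fusf G hG
    have := hν
    have hΦG : Measurable (Φ G) := by
      have h1 : Measurable (fun x : ℕ → unitInterval =>
          ((Crest.ProbabilityR.GraphTables.tableOf G, x) :
            (ℕ → ℕ → Bool) × (ℕ → unitInterval))) := measurable_const.prodMk measurable_id
      have h2 := hmeas.comp h1
      have h3 : ((fun p : (ℕ → ℕ → Bool) × (ℕ → unitInterval) =>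
          Φ (Crest.ProbabilityR.GraphTables.graphOfTable p.1) p.2) ∘
          (fun x : ℕ → unitInterval =>
          ((Crest.ProbabilityR.GraphTables.tableOf G, x) :
            (ℕ → ℕ → Bool) × (ℕ → unitInterval)))) = Φ G := by
        funext x
        show Φ (Crest.ProbabilityR.GraphTables.graphOfTable
          (Crest.ProbabilityR.GraphTables.tableOf G)) x = Φ G x
        rw [graphOfTable_tableOf']
      rw [h3] at h2
      exact h2
    -- exhaustions
    let E : G.edgeSet → ℕ → Finset G.edgeSet := fun e n =>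
      (Crest.ProbabilityR.SpanningTrees.edgesIn G (ball G e n)).subtype (· ∈ G.edgeSet)
    have hE1 : ∀ i, Monotone (E i) := by
      intro e n m hnm f hf
      rw [Finset.mem_subtype] at hf ⊢
      exact UST.edgesIn_mono ((ball_spec G hG hlf e e.2).1 hnm) hf
    have hE2 : ∀ i n, i ∈ E i n := by
      intro e n
      rw [Finset.mem_subtype]
      exact (ball_spec G hG hlf e e.2).2.2.2.1 n
    have hE3 : ∀ i j, ∃ n, j ∈ E i n := by
      intro e f
      obtain ⟨n, hn⟩ := (ball_spec G hG hlf e e.2).2.2.2.2.2 f f.2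
      exact ⟨n, by rw [Finset.mem_subtype]; exact hn⟩
    have hGT := GT ν hL E hE1 hE2 hE3
    have hcomp : ∀ x : ℕ → unitInterval, (fun e : G.edgeSet => Φ G x e) =
        Xi (fun i n h => occ (cyl ν) (E i n) i h)
          (fun e : G.edgeSet => edgeLab G (fun v => dec (x v)) e) := by
      intro x
      have := Xi_comp (Subtype.val : G.edgeSet → Sym2 ℕ) (PG G)
        (fun i n h => occ (cyl ν) (E i n) i h)
        (fun i n f => PG_eq_occ G hG hlf ν hlim i n f) (edgeLab G (fun v => dec (x v)))
      exact this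
    have hlawE : (Crest.ProbabilityR.Labels.labelMeasure ℕ).map
        (fun (x : ℕ → unitInterval) (e : G.edgeSet) => edgeLab G (fun v => dec (x v)) e) =
        Measure.infinitePi (fun _ : G.edgeSet => lab) := by
      rw [← edgeLab_law G hlf, ← hlaw, Measure.map_map _ hdec']
      · rfl
      · have h1 : Measurable (fun x : ℕ → VLab => edgeLab G x) := by
          have h2 := measurable_edgeLab.comp
            (measurable_const (a := Crest.ProbabilityR.GraphTables.tableOf G) |>.prodMk
              (measurable_id (α := ℕ → VLab)))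
          have h3 : ((fun p : (ℕ → ℕ → Bool) × (ℕ → VLab) =>
              edgeLab (Crest.ProbabilityR.GraphTables.graphOfTable p.1) p.2) ∘
              fun x : ℕ → VLab => (Crest.ProbabilityR.GraphTables.tableOf G, id x)) =
              fun x => edgeLab G x := by
            funext x
            show edgeLab (Crest.ProbabilityR.GraphTables.graphOfTable
              (Crest.ProbabilityR.GraphTables.tableOf G)) x = edgeLab G x
            rw [graphOfTable_tableOf']
          rw [h3] at h2
          exact h2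
        exact measurable_pi_lambda _ fun e => (measurable_pi_apply _).comp h1
    have hmXi : Measurable (Xi (fun (i : G.edgeSet) n h => occ (cyl ν) (E i n) i h)) := by
      have h1 := measurable_Xi (V := G.edgeSet) (α := Unit)
        (fun _ i n h => occ (cyl ν) (E i n) i h) (by
          intro i n
          unfold occ Zo Zw
          apply Measurable.div
          · apply Finset.measurable_sum
            intro S _
            split_ifs
            · apply Measurable.const_mul
              apply Real.measurable_exp.comp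
              apply Finset.measurable_sum
              intro j _
              exact (measurable_pi_apply j).comp measurable_snd
            · exact measurable_const
          · apply Finset.measurable_sum
            intro S _
            apply Measurable.const_mul
            apply Real.measurable_exp.comp
            apply Finset.measurable_sum
            intro j _
            exact (measurable_pi_apply j).comp measurable_snd)
      exact h1.comp (measurable_const (a := ()) |>.prodMk measurable_id)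
    have hmain : (Crest.ProbabilityR.Labels.labelMeasure ℕ).map
        (fun (x : ℕ → unitInterval) (e : G.edgeSet) => Φ G x e) = ν := by
      rw [show (fun (x : ℕ → unitInterval) (e : G.edgeSet) => Φ G x e) = fun x =>
        Xi (fun i n h => occ (cyl ν) (E i n) i h)
          (fun e : G.edgeSet => edgeLab G (fun v => dec (x v)) e) from funext hcomp]
      refine Eq.trans ?_ hGT
      rw [← hlawE, Measure.map_map hmXi]
      · rfl
      · apply measurable_pi_lambda
        intro e
        have h1 : Measurable (fun x : ℕ → VLab => edgeLab G x e) := by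
          have h2 := measurable_edgeLab.comp
            (measurable_const (a := Crest.ProbabilityR.GraphTables.tableOf G) |>.prodMk
              (measurable_id (α := ℕ → VLab)))
          have h3 : ((fun p : (ℕ → ℕ → Bool) × (ℕ → VLab) =>
              edgeLab (Crest.ProbabilityR.GraphTables.graphOfTable p.1) p.2) ∘
              fun x : ℕ → VLab => (Crest.ProbabilityR.GraphTables.tableOf G, id x)) =
              fun x => edgeLab G x := by
            funext x
            show edgeLab (Crest.ProbabilityR.GraphTables.graphOfTable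
              (Crest.ProbabilityR.GraphTables.tableOf G)) x = edgeLab G x
            rw [graphOfTable_tableOf']
          rw [h3] at h2
          exact (measurable_pi_apply _).comp h2
        exact h1.comp hdec'
    have hval : (Crest.ProbabilityR.Labels.labelMeasure ℕ).map (Φ G)
        {ω | ∀ e ∈ F, ω e = true} =
        ν {ω | ∀ e : G.edgeSet, (e : Sym2 ℕ) ∈ F → ω e = true} := by
      have hms1 : MeasurableSet {ω : Sym2 ℕ → Bool | ∀ e ∈ F, ω e = true} := by
        have : {ω : Sym2 ℕ → Bool | ∀ e ∈ F, ω e = true} =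
            ⋂ e ∈ F, (fun ω : Sym2 ℕ → Bool => ω e) ⁻¹' {true} := by
          ext ω; simp
        rw [this]
        exact Finset.measurableSet_biInter F fun e _ =>
          (measurable_pi_apply e) (measurableSet_singleton _)
      have hms2 : MeasurableSet {ω : G.edgeSet → Bool |
          ∀ e : G.edgeSet, (e : Sym2 ℕ) ∈ F → ω e = true} := by
        have : {ω : G.edgeSet → Bool | ∀ e : G.edgeSet, (e : Sym2 ℕ) ∈ F → ω e = true} =
            ⋂ e : G.edgeSet, ⋂ (_ : (e : Sym2 ℕ) ∈ F),
              (fun ω : G.edgeSet → Bool => ω e) ⁻¹' {true} := by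
          ext ω; simp
        rw [this]
        exact MeasurableSet.iInter fun e => MeasurableSet.iInter fun _ =>
          (measurable_pi_apply e) (measurableSet_singleton _)
      rw [← hmain, Measure.map_apply hΦG hms1, Measure.map_apply _ hms2]
      · congr 1
        ext x
        simp only [Set.mem_preimage, Set.mem_ofPred_eq]
        constructor
        · intro h e he
          exact h e he
        · intro h e he
          exact h ⟨e, hF he⟩ he
      · exact measurable_pi_lambda _ fun e => (measurable_pi_apply _).comp hΦG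
    rw [hval]
    exact hlim F hF S hS1 hS2 hS3

end Crest.Agent.R168
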